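import Vale.Agent.P260.LM.Coh

/-!
P260, last mile: Block A (finiteness and vanishing along a chain with rank one quotients), from
R1, R2, R3.
-/

namespace Vale.Agent.P260.LM

variable {Γ : Type} [Group Γ]

theorem invS_bot {k : Type} (f : List Γ → k) : InvS (⊥ : Subgroup Γ) f := by
  intro s hs l
  rw [Subgroup.mem_bot] at hs
  subst hs
  simp

theorem van_bot (q n : ℕ) : Van q (⊥ : Subgroup Γ) (n + 1) := by
  intro f hf
  rw [exS_succ]
  refine ⟨fun l => f (1 :: l), invS_bot _, fun l hl => ?_⟩
  have h := hf.2 (1 :: l) (by simp [hl])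
  rw [dc_cons] at h
  exact sub_eq_zero.1 h

theorem dc_two {α k : Type} [AddCommGroup k] (f : List α → k) (a b : α) :
    dc f [a, b] = f [b] - f [a] := by
  rw [dc_cons, dc_cons, dc_nil, sub_zero]

theorem finS_of_van {q : ℕ} {S : Subgroup Γ} {n : ℕ} (h : Van q S n) : FinS q S n := by
  refine ⟨{fun _ => 0}, Set.finite_singleton _, fun f hf => ⟨_, rfl, CocS.zero, ?_⟩⟩
  exact (h f hf).congr fun l _ => by simp

theorem finS_bot (q : ℕ) [Fact q.Prime] (n : ℕ) : FinS q (⊥ : Subgroup Γ) n := by
  cases n with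
  | succ n => exact finS_of_van (van_bot q n)
  | zero =>
    refine ⟨Set.range fun (c : ZMod q) (_ : List Γ) => c, Set.finite_range _, fun f hf =>
      ⟨fun _ => f [1], ⟨f [1], rfl⟩, ⟨InvS.const _, ?_⟩, ?_⟩⟩
    · intro l hl
      match l, hl with
      | [a, b], _ => rw [dc_two, sub_self]
    · rw [exS_zero]
      intro l hl
      match l, hl with
      | [a], _ =>
        have h := hf.2 [1, a] rfl
        rw [dc_two] at h
        exact h

theorem blockA_of (h1 : BlockR1) (h2 : BlockR2) (h3 : BlockR3) : BlockA := by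
  classical
  intro Γ _ q _ N h hN
  have key : ∀ i ≤ h, (∀ n, FinS q (N i) n) ∧
      ∀ n > ((Finset.range i).filter fun i => ¬ PDiv q (N i) (N (i + 1))).card, Van q (N i) n := by
    intro i
    induction i with
    | zero =>
      intro _
      rw [hN.bot]
      refine ⟨finS_bot q, fun n hn => ?_⟩
      obtain ⟨m, rfl⟩ : ∃ m, n = m + 1 := ⟨n - 1, by
        have : 0 < n := by simpa using hn
        omega⟩
      exact van_bot q m
    | succ i ih =>
      intro hi
      obtain ⟨ihf, ihv⟩ := ih (by omega)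
      have hr := hN.step i (by omega)
      refine ⟨h1 Γ q _ _ hr ihf, fun n hn => ?_⟩
      rw [Finset.range_add_one, Finset.filter_insert] at hn
      by_cases hp : PDiv q (N i) (N (i + 1))
      · rw [if_neg (not_not.2 hp)] at hn
        obtain ⟨m, rfl⟩ : ∃ m, n = m + 1 := ⟨n - 1, by omega⟩
        exact h3 Γ q _ _ hr hp m (ihf m) (ihv _ hn)
      · rw [if_pos hp, Finset.card_insert_of_notMem (by simp)] at hn
        obtain ⟨m, rfl⟩ : ∃ m, n = m + 1 := ⟨n - 1, by omega⟩
        exact h2 Γ q _ _ hr m (ihv _ (by omega)) (ihv _ (by omega))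
  have := key h le_rfl
  convert this using 5

end Vale.Agent.P260.LM
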