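import Vale.Agent.P260.LM.Coh

/-!
P260, last mile: block B (the top class of a subgroup of finite index), from the blocks
A, K, R4, R5.
-/

namespace Vale.Agent.P260.LM

open scoped commutatorElement

section chain

variable {Γ : Type} [Group Γ]

theorem Chain.mono {N : ℕ → Subgroup Γ} {h : ℕ} (hc : Chain N h) {i j : ℕ} (hij : i ≤ j)
    (hj : j ≤ h) : N i ≤ N j := by
  induction j, hij using Nat.le_induction with
  | base => exact le_rfl
  | succ j hij ih => exact (ih (by omega)).trans (hc.step j (by omega)).le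

theorem Chain.take {N : ℕ → Subgroup Γ} {h : ℕ} (hc : Chain N h) {j : ℕ} (hj : j ≤ h) :
    Chain N j := ⟨hc.bot, fun i hi => hc.step i (by omega)⟩

theorem TrivS.mono {q : ℕ} {M M' S : Subgroup Γ} {n : ℕ} (h : TrivS q M S n) (hM : M' ≤ M) :
    TrivS q M' S n := fun g hg => h g (hM hg)

/-- degree zero: constants -/
theorem non_zero_deg {q : ℕ} [hq : Fact q.Prime] (S : Subgroup Γ) : Non q S 0 := by
  refine ⟨fun _ => 1, ⟨InvS.const 1, ?_⟩, ?_⟩
  · intro l hl
    match l, hl with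
    | [a, b], _ => simp [dc_cons, dc_nil]
  · rw [exS_zero]
    intro h
    have : (1 : ZMod q) ≠ 0 := one_ne_zero
    exact this (h [1] rfl)

theorem trivS_zero_deg {q : ℕ} (M S : Subgroup Γ) : TrivS q M S 0 := by
  intro g _ f hf
  rw [exS_zero]
  intro l hl
  match l, hl with
  | [a], _ =>
    have := hf.2 [a, g⁻¹ * a] rfl
    simp only [dc_cons, dc_nil, sub_zero] at this
    rw [tr_apply]
    exact this

/-- Going up a chain: the top class and the triviality of the action on it. -/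
theorem up (hA : BlockA) (h4 : BlockR4) (h5 : BlockR5) {q : ℕ} [Fact q.Prime]
    {S : ℕ → Subgroup Γ} {h : ℕ} (hc : Chain S h) (hnd : ∀ i < h, ¬ PDiv q (S i) (S (i + 1)))
    {M : Subgroup Γ} {a : ℕ} (h1 : Non q (S a) a) (h2 : TrivS q M (S a) a) :
    ∀ b, a ≤ b → b ≤ h → S b ≤ M →
      (∀ j, a ≤ j → j < b → ∀ x ∈ M, ∀ y ∈ S (j + 1), ⁅x, y⁆ ∈ S j) →
      Non q (S b) b ∧ TrivS q M (S b) b := by
  intro b hab
  induction b, hab using Nat.le_induction with
  | base => exact fun _ _ _ => ⟨h1, h2⟩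
  | succ b hab ih =>
    intro hb hM hcomm
    have hR : RankOne (S b) (S (b + 1)) := hc.step b (by omega)
    obtain ⟨ih1, ih2⟩ := ih (by omega) (hR.le.trans hM)
      fun j hj hjb => hcomm j hj (by omega)
    have hn := hnd b (by omega)
    have hv : Van q (S b) (b + 1) := by
      classical
      refine (hA Γ q S b (hc.take (by omega))).2 (b + 1) ?_
      refine lt_of_le_of_lt (Finset.card_filter_le _ _) ?_
      rw [Finset.card_range]
      omega
    refine ⟨h4 Γ q (S b) (S (b + 1)) hR hn b (ih2.mono hM) ih1,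
      h5 Γ q (S b) (S (b + 1)) M hR hM ?_ (hcomm b hab (by omega)) b ih2 hv⟩
    intro x hx y hy
    have hc1 := hcomm b hab (by omega) x hx y (hR.le hy)
    have e : x * y * x⁻¹ = ⁅x, y⁆ * y := by rw [commutatorElement_def]; group
    rw [e]
    exact (S b).mul_mem hc1 hy

/-- The subgroup of elements of `K` acting trivially on `H^n(S)`. -/
theorem exists_kernel {q n : ℕ} {K S : Subgroup Γ} (hK : K.FiniteIndex)
    (hn : ∀ x ∈ K, ∀ y ∈ S, x * y * x⁻¹ ∈ S) (hf : FinS q S n) :
    ∃ K' : Subgroup Γ, K'.FiniteIndex ∧ K' ≤ K ∧ TrivS q K' S n ∧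
      ∀ M : Subgroup Γ, M ≤ K → TrivS q M S n → M ≤ K' := by
  have hnz : ∀ x ∈ K, Nz S x := by
    intro x hx s hs
    have := hn x⁻¹ (K.inv_mem hx) s hs
    rwa [inv_inv] at this
  have hfin : Finite (H q S n) := finS_iff.1 hf
  have hmul : ∀ (x y : K), act (hnz (x * y : K) (x * y : K).2) =
      (act (hnz x x.2) : H q S n →ₗ[ZMod q] H q S n) ∘ₗ act (hnz y y.2) := by
    intro x y
    refine LinearMap.ext fun w => ?_
    obtain ⟨f, hf, rfl⟩ := exists_cl w
    rw [LinearMap.comp_apply, act_cl, act_cl, act_cl, cl_eq]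
    refine ExS.zero.congr fun l _ => ?_
    rw [tr_tr, sub_eq_zero]
    rfl
  have hone : act (hnz (1 : K) (1 : K).2) = (LinearMap.id : H q S n →ₗ[ZMod q] H q S n) := by
    refine LinearMap.ext fun w => ?_
    obtain ⟨f, hf, rfl⟩ := exists_cl w
    rw [act_cl, LinearMap.id_apply, cl_eq]
    refine ExS.zero.congr fun l _ => ?_
    have : LM.tr ((1 : K) : Γ) f = f := tr_one f
    rw [this, sub_self]
  let ρ : K →* Module.End (ZMod q) (H q S n) :=
    { toFun := fun x => act (hnz x x.2)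
      map_one' := hone
      map_mul' := fun x y => hmul x y }
  have hfin2 : Finite (Module.End (ZMod q) (H q S n)) :=
    Finite.of_injective (fun f : H q S n →ₗ[ZMod q] H q S n => (f : H q S n → H q S n))
      DFunLike.coe_injective
  have hfin3 : Finite (Module.End (ZMod q) (H q S n))ˣ := inferInstance
  have hker : ρ.toHomUnits.ker.FiniteIndex := inferInstance
  have hρ : ∀ x : K, ρ.toHomUnits x = 1 ↔ ρ x = 1 := by
    intro x
    rw [Units.ext_iff]
    rfl
  have hmem : ∀ g : Γ, g ∈ ρ.toHomUnits.ker.map K.subtype ↔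
      ∃ hg : g ∈ K, ∀ f, CocS q S n f → ExS q S n fun l => tr g f l - f l := by
    intro g
    rw [Subgroup.mem_map]
    constructor
    · rintro ⟨x, hx, rfl⟩
      refine ⟨x.2, fun f hf => ?_⟩
      have hx' : ρ x = 1 := (hρ x).1 hx
      have h1 := LinearMap.congr_fun hx' (cl hf)
      have h2 : cl (hf.tr (hnz x x.2)) = cl hf := h1
      exact (cl_eq _ _).1 h2
    · rintro ⟨hg, h⟩
      refine ⟨⟨g, hg⟩, ?_, rfl⟩
      refine (hρ _).2 (LinearMap.ext fun w => ?_)
      obtain ⟨f, hf, rfl⟩ := exists_cl w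
      exact (cl_eq (hf.tr (hnz g hg)) hf).2 (h f hf)
  refine ⟨ρ.toHomUnits.ker.map K.subtype, ?_, ?_, ?_, ?_⟩
  · constructor
    rw [Subgroup.index_map_subtype]
    exact mul_ne_zero hker.index_ne_zero hK.index_ne_zero
  · intro g hg
    exact ((hmem g).1 hg).1
  · intro g hg
    exact ((hmem g).1 hg).2
  · intro M hM hT g hg
    exact (hmem g).2 ⟨hM hg, hT g hg⟩

end chain

theorem blockB_of (hA : BlockA) (hK : BlockK) (h4 : BlockR4) (h5 : BlockR5) : BlockB := by
  intro Γ _ q _ K N h s t hKf hser hnd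
  have hst : ∀ i ≤ t, s i ≤ h := fun i hi => by
    rw [← hser.st]
    exact hser.mono hi
  -- the chain `N · ⊓ K'`
  have hch : ∀ K' : Subgroup Γ, K'.FiniteIndex → Chain (fun j => N j ⊓ K') h := fun K' hK' =>
    ⟨by rw [hser.chain.bot, bot_inf_eq],
    fun i hi => (hK Γ q (N i) (N (i + 1)) K' (hser.chain.step i hi) hK').1⟩
  have hnd' : ∀ K' : Subgroup Γ, K'.FiniteIndex → ∀ i < h,
      ¬ PDiv q (N i ⊓ K') (N (i + 1) ⊓ K') := fun K' hK' i hi => by
    rw [(hK Γ q (N i) (N (i + 1)) K' (hser.chain.step i hi) hK').2]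
    exact hnd i hi
  have key : ∀ i ≤ t, ∃ K' : Subgroup Γ, K'.FiniteIndex ∧ K' ≤ K ∧
      Non q (N (s i) ⊓ K') (s i) ∧ TrivS q K' (N (s i) ⊓ K') (s i) := by
    intro i
    induction i with
    | zero =>
      intro _
      refine ⟨K, hKf, le_rfl, ?_, ?_⟩
      · rw [hser.s0]
        exact non_zero_deg _
      · rw [hser.s0]
        exact trivS_zero_deg _ _
    | succ i ih =>
      intro hi
      obtain ⟨K₁, hf₁, hle₁, hN₁, hT₁⟩ := ih (by omega)
      have hss : s i ≤ s (i + 1) := hser.mono (by omega)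
      have hup := up hA h4 h5 (hch K₁ hf₁) (hnd' K₁ hf₁) (M := N (s (i + 1)) ⊓ K₁)
        (a := s i) hN₁ (hT₁.mono inf_le_right) (s (i + 1)) hss (hst _ hi) le_rfl (by
          intro j hj1 hj2 x hx y hy
          refine ⟨?_, ?_⟩
          · refine hser.chain.mono hj1 (by have := hst _ hi; omega) ?_
            refine hser.comm i (by omega) x hx.1 y ?_
            exact hser.chain.mono (by omega : j + 1 ≤ s (i + 1)) (hst _ hi) hy.1
          · rw [commutatorElement_def]
            exact K₁.mul_mem (K₁.mul_mem (K₁.mul_mem hx.2 hy.2) (K₁.inv_mem hx.2))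
              (K₁.inv_mem hy.2))
      obtain ⟨hN₂, hT₂⟩ := hup
      have hfin : FinS q (N (s (i + 1)) ⊓ K₁) (s (i + 1)) :=
        (hA Γ q (fun j => N j ⊓ K₁) (s (i + 1)) ((hch K₁ hf₁).take (hst _ hi))).1 _
      obtain ⟨K₂, hf₂, hle₂, hT₃, hmax⟩ := exists_kernel hf₁ (S := N (s (i + 1)) ⊓ K₁) (by
        intro x hx y hy
        exact ⟨hser.norm (i + 1) hi x (hle₁ hx) y hy.1,
          K₁.mul_mem (K₁.mul_mem hx hy.2) (K₁.inv_mem hx)⟩) hfin
      have hM := hmax _ inf_le_right hT₂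
      have he : N (s (i + 1)) ⊓ K₂ = N (s (i + 1)) ⊓ K₁ :=
        le_antisymm (inf_le_inf_left _ hle₂) (le_inf inf_le_left hM)
      refine ⟨K₂, hf₂, hle₂.trans hle₁, ?_, ?_⟩
      · rw [he]
        exact hN₂
      · rw [he]
        exact hT₃
  obtain ⟨K', hf', hle', hN', -⟩ := key t le_rfl
  refine ⟨K', hf', ?_⟩
  rw [hser.st, hser.top, inf_eq_right.2 hle'] at hN'
  exact hN'

end Vale.Agent.P260.LM
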