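import Vale.Agent.P260.LM.Rk

/-!
P260, last mile: block C (cyclic factors).
-/

namespace Vale.Agent.P260.LM

open scoped commutatorElement

section comm

variable {A : Type} [CommGroup A]

/-- torsion-free groups: roots are unique -/
theorem tf_pow_inj (htf : ∀ (a : A) (n : ℕ), n ≠ 0 → a ^ n = 1 → a = 1) {a b : A} {n : ℕ}
    (hn : n ≠ 0) (h : a ^ n = b ^ n) : a = b := by
  have h1 : (a * b⁻¹) ^ n = 1 := by rw [mul_pow, inv_pow, h, mul_inv_cancel]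
  exact mul_inv_eq_one.1 (htf _ n hn h1)

/-- Bezout: if `x ^ i` is a `q`-th power and `q ∤ i` then `x` is a `q`-th power. -/
theorem root_of_root {q : ℕ} (hq : q.Prime) {x z : A} {i : ℤ} (hi : ¬ (q : ℤ) ∣ i)
    (h : x ^ i = z ^ q) : ∃ c : A, c ^ q = x := by
  have hc : IsCoprime (q : ℤ) i :=
    (Prime.coprime_iff_not_dvd (Nat.prime_iff_prime_int.1 hq)).2 hi
  obtain ⟨v, u, huv⟩ := hc
  refine ⟨z ^ u * x ^ v, ?_⟩
  have e1 : (z ^ u * x ^ v) ^ q = (z ^ q) ^ u * (x ^ v) ^ q := by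
    rw [mul_pow, ← zpow_natCast (z ^ u), ← zpow_mul, mul_comm u, zpow_mul, zpow_natCast]
  rw [e1, ← h, ← zpow_natCast (x ^ v), ← zpow_mul, ← zpow_mul, ← zpow_add, mul_comm i u,
    add_comm, huv, zpow_one]

/-- If `a ≠ 1` has `q ^ k`-th roots for all `k` then the group is `q`-divisible. -/
theorem pdiv_of_roots (htf : ∀ (a : A) (n : ℕ), n ≠ 0 → a ^ n = 1 → a = 1)
    (hr : ∀ a b : A, ∃ i j : ℤ, (i ≠ 0 ∨ j ≠ 0) ∧ a ^ i * b ^ j = 1) {q : ℕ} (hq : q.Prime)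
    {a : A} (ha : a ≠ 1) (hroot : ∀ k : ℕ, ∃ y : A, y ^ (q ^ k) = a) :
    ∀ x : A, ∃ c : A, c ^ q = x := by
  intro x
  obtain ⟨i, j, hij, h⟩ := hr x a
  have hi : i ≠ 0 := by
    rintro rfl
    have hj : j ≠ 0 := by
      rcases hij with h1 | h1
      · exact absurd rfl h1
      · exact h1
    rw [zpow_zero, one_mul] at h
    exact ha (tf_zpow htf hj h)
  have hfin : FiniteMultiplicity (q : ℤ) i :=
    Int.finiteMultiplicity_iff.2 ⟨by simpa using hq.ne_one, hi⟩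
  obtain ⟨i', hi', hni⟩ := hfin.exists_eq_pow_mul_and_not_dvd
  set s := multiplicity (q : ℤ) i
  obtain ⟨y, hy⟩ := hroot (s + 1)
  -- x ^ i' = (y ^ (-j)) ^ q
  have h2 : (x ^ i') ^ (q ^ s) = ((y ^ (-j)) ^ q) ^ (q ^ s) := by
    have e1 : (x ^ i') ^ (q ^ s) = x ^ i := by
      rw [← zpow_natCast, ← zpow_mul, hi', mul_comm i']
      push_cast
      rfl
    have e2 : ((y ^ (-j)) ^ q) ^ (q ^ s) = a ^ (-j) := by
      rw [← pow_mul, ← zpow_natCast, ← zpow_mul, ← hy, ← zpow_natCast y, ← zpow_mul]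
      congr 1
      push_cast
      ring
    rw [e1, e2, zpow_neg]
    exact eq_inv_of_mul_eq_one_left h
  have h3 := tf_pow_inj htf (pow_ne_zero s hq.ne_zero) h2
  exact root_of_root hq hni h3

/-- Exponents in a torsion-free group are determined. -/
theorem tf_zpow_inj (htf : ∀ (a : A) (n : ℕ), n ≠ 0 → a ^ n = 1 → a = 1) {a : A} (ha : a ≠ 1)
    {i j : ℤ} (h : a ^ i = a ^ j) : i = j := by
  by_contra hne
  refine ha (tf_zpow htf (sub_ne_zero.2 hne) ?_)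
  rw [zpow_sub, h, mul_inv_cancel]

theorem dvd_of_root (htf : ∀ (a : A) (n : ℕ), n ≠ 0 → a ^ n = 1 → a = 1) {m : ℕ} {a : A}
    (ha : a ≠ 1) (hm : ∀ x : A, ∃ (n : ℕ) (e : ℤ), x ^ (m ^ n) * a ^ e = 1) {y : A} {d : ℕ}
    (hy : y ^ d = a) : ∃ n : ℕ, d ∣ m ^ n := by
  obtain ⟨n, e, hne⟩ := hm y
  refine ⟨n, ?_⟩
  have h1 : y ^ (m ^ n) = a ^ (-e) := by
    rw [zpow_neg]
    exact eq_inv_of_mul_eq_one_left hne
  have h2 : a ^ ((m ^ n : ℕ) : ℤ) = a ^ (-e * d) := by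
    calc a ^ ((m ^ n : ℕ) : ℤ) = (y ^ d) ^ (m ^ n) := by rw [hy, zpow_natCast]
      _ = (y ^ (m ^ n)) ^ d := by rw [← pow_mul, ← pow_mul, mul_comm]
      _ = a ^ (-e * d) := by rw [h1, ← zpow_natCast, ← zpow_mul]
  have h3 := tf_zpow_inj htf ha h2
  have h4 : (d : ℤ) ∣ ((m ^ n : ℕ) : ℤ) := ⟨-e, by rw [h3]; ring⟩
  exact_mod_cast h4

/-- The second half of block C in the quotient. -/
theorem cyclic_of (htf : ∀ (a : A) (n : ℕ), n ≠ 0 → a ^ n = 1 → a = 1)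
    (hr : ∀ a b : A, ∃ i j : ℤ, (i ≠ 0 ∨ j ≠ 0) ∧ a ^ i * b ^ j = 1) {m : ℕ} (hm0 : m ≠ 0)
    {a : A} (ha : a ≠ 1) (hm : ∀ x : A, ∃ (n : ℕ) (e : ℤ), x ^ (m ^ n) * a ^ e = 1)
    (hnd : ∀ q : ℕ, q.Prime → ¬ ∀ x : A, ∃ c : A, c ^ q = x) :
    ∃ y : A, ∀ x : A, ∃ e : ℤ, x * y ^ e = 1 := by
  classical
  -- no `q ^ k`-th root for large `k`
  have hk : ∀ q : ℕ, ∃ k : ℕ, q.Prime → ¬ ∃ y : A, y ^ (q ^ k) = a := by
    intro q
    by_cases hq : q.Prime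
    · by_contra hcon
      push Not at hcon
      exact hnd q hq (pdiv_of_roots htf hr hq ha fun k => (hcon k).2)
    · exact ⟨0, fun h => absurd h hq⟩
  choose k hk using hk
  set B : ℕ := ∏ q ∈ m.primeFactors, q ^ k q with hB
  have hB0 : B ≠ 0 := by
    rw [hB, Finset.prod_ne_zero_iff]
    intro q hq
    exact pow_ne_zero _ (Nat.prime_of_mem_primeFactors hq).ne_zero
  have hbound : ∀ d : ℕ, (∃ y : A, y ^ d = a) → d ≤ B := by
    rintro d ⟨y, hy⟩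
    refine Nat.le_of_dvd (Nat.pos_of_ne_zero hB0) ?_
    rw [Nat.dvd_iff_prime_pow_dvd_dvd]
    intro q j hq hj
    rcases Nat.eq_zero_or_pos j with rfl | hj0
    · simp
    obtain ⟨n, hn⟩ := dvd_of_root htf ha hm hy
    have hqm : q ∣ m := by
      have h1 : q ∣ m ^ n := (dvd_pow_self q hj0.ne').trans (hj.trans hn)
      exact hq.dvd_of_dvd_pow h1
    have hlt : j ≤ k q := by
      by_contra hcon
      push Not at hcon
      have h1 : q ^ k q ∣ d := (pow_dvd_pow q hcon.le).trans hj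
      obtain ⟨r, hr'⟩ := h1
      refine hk q hq ⟨y ^ r, ?_⟩
      rw [← pow_mul, mul_comm, ← hr', hy]
    exact (pow_dvd_pow q hlt).trans
      (Finset.dvd_prod_of_mem (fun q => q ^ k q) (Nat.mem_primeFactors.2 ⟨hq, hqm, hm0⟩))
  -- the greatest root
  set P : ℕ → Prop := fun d => ∃ y : A, y ^ d = a with hP
  have hP1 : P 1 := ⟨a, pow_one a⟩
  set d := Nat.findGreatest P B with hd
  have hPd : P d := Nat.findGreatest_spec (hbound 1 hP1) hP1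
  have hmax : ∀ d' : ℕ, P d' → d' ≤ d := fun d' h => Nat.le_findGreatest (hbound d' h) h
  obtain ⟨y, hy⟩ := hPd
  have hd0 : d ≠ 0 := by
    have := hmax 1 hP1
    omega
  refine ⟨y, fun x => ?_⟩
  obtain ⟨c, i, j, hx, hyc⟩ := exists_common htf hr x y
  have hj0 : j ≠ 0 := by
    rintro rfl
    rw [zpow_zero] at hyc
    rw [hyc, one_pow] at hy
    exact ha hy.symm
  -- `|j| = 1`
  have hj1 : j.natAbs = 1 := by
    have h1 : P (j.natAbs * d) := by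
      rcases Int.natAbs_eq j with e | e
      · refine ⟨c, ?_⟩
        rw [pow_mul, ← zpow_natCast c, ← e, ← hyc, hy]
      · refine ⟨c⁻¹, ?_⟩
        rw [pow_mul, inv_pow, ← zpow_natCast c, ← zpow_neg, ← e, ← hyc, hy]
    have h2 := hmax _ h1
    have h3 : 1 ≤ j.natAbs := Nat.one_le_iff_ne_zero.2 (Int.natAbs_ne_zero.2 hj0)
    by_contra hne
    have h4 : 2 ≤ j.natAbs := by omega
    nlinarith [Nat.pos_of_ne_zero hd0]
  rcases Int.natAbs_eq j with e | e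
  · rw [hj1] at e
    refine ⟨-i, ?_⟩
    rw [hx, hyc, e, ← zpow_mul, ← zpow_add]
    simp
  · rw [hj1] at e
    refine ⟨i, ?_⟩
    rw [hx, hyc, e, ← zpow_mul, ← zpow_add]
    simp

end comm

variable {Γ : Type} [Group Γ] {N G : Subgroup Γ}

/-- transfer of `PDiv` to the quotient -/
theorem pdiv_iff_quot {A : Type} [CommGroup A] (π : G →* A) (hs : Function.Surjective π)
    (hk : ∀ x : G, π x = 1 ↔ (x : Γ) ∈ N) (p : ℕ) :
    PDiv p N G ↔ ∀ a : A, ∃ c : A, c ^ p = a := by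
  constructor
  · intro h a
    obtain ⟨x, rfl⟩ := hs a
    obtain ⟨y, hy, hyx⟩ := h x x.2
    refine ⟨π ⟨y, hy⟩, ?_⟩
    have h1 : π (⟨y, hy⟩ ^ p * x⁻¹) = 1 := (hk _).2 (by simpa using hyx)
    rw [map_mul, map_pow, map_inv] at h1
    exact mul_inv_eq_one.1 h1
  · intro h x hx
    obtain ⟨c, hc⟩ := h (π ⟨x, hx⟩)
    obtain ⟨y, rfl⟩ := hs c
    refine ⟨y, y.2, ?_⟩
    have h1 : π (y ^ p * (⟨x, hx⟩ : G)⁻¹) = 1 := by
      rw [map_mul, map_pow, map_inv, hc, mul_inv_cancel]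
    simpa using (hk _).1 h1

/-- **Block C.** -/
theorem blockC : BlockC := by
  intro Γ _ N G m hm0 h hMG
  obtain ⟨A, _, π, hs, hk, htf, hr⟩ := h.exists_quot
  obtain ⟨a, haG, ha⟩ := hMG
  set a' : A := π ⟨a, haG⟩ with ha'
  have hm : ∀ x : A, ∃ (n : ℕ) (e : ℤ), x ^ (m ^ n) * a' ^ e = 1 := by
    intro x
    obtain ⟨x, rfl⟩ := hs x
    obtain ⟨n, e, hne⟩ := ha x x.2
    refine ⟨n, e, ?_⟩
    have h1 : π (x ^ (m ^ n) * (⟨a, haG⟩ : G) ^ e) = 1 := (hk _).2 (by simpa using hne)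
    rwa [map_mul, map_pow, map_zpow] at h1
  have ha1 : a' ≠ 1 := by
    intro h1
    obtain ⟨x, hx, hxN⟩ := h.ne
    obtain ⟨n, e, hne⟩ := hm (π ⟨x, hx⟩)
    rw [h1, one_zpow, mul_one] at hne
    exact hxN ((hk ⟨x, hx⟩).1 (htf _ _ (pow_ne_zero n hm0) hne))
  constructor
  · intro q hq hqm hdiv
    rw [pdiv_iff_quot π hs hk] at hdiv
    obtain ⟨y, hy⟩ := hdiv a'
    obtain ⟨n, hn⟩ := dvd_of_root htf ha1 hm hy
    exact hqm (hq.out.dvd_of_dvd_pow hn)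
  · intro hnd
    obtain ⟨y, hy⟩ := cyclic_of htf hr hm0 ha1 hm (fun q hq hcon => by
      have : Fact q.Prime := ⟨hq⟩
      exact hnd q ((pdiv_iff_quot π hs hk q).2 hcon))
    obtain ⟨y, rfl⟩ := hs y
    refine ⟨y, y.2, fun x hx => ?_⟩
    obtain ⟨e, he⟩ := hy (π ⟨x, hx⟩)
    refine ⟨e, ?_⟩
    have h1 : π ((⟨x, hx⟩ : G) * y ^ e) = 1 := by rw [map_mul, map_zpow, he]
    simpa using (hk _).1 h1

end Vale.Agent.P260.LM
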