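import Vale.Agent.P260.LM.C

/-!
P260, last mile: block K (finite index subgroups).
-/

namespace Vale.Agent.P260.LM

open scoped commutatorElement

section comm

variable {A : Type} [CommGroup A]

/-- `p`-divisibility of a torsion-free abelian group and of a finite index subgroup. -/
theorem pdiv_fin_index (htf : ∀ (a : A) (n : ℕ), n ≠ 0 → a ^ n = 1 → a = 1) (B : Subgroup A)
    (hB : B.FiniteIndex) {p : ℕ} (hp : p.Prime) :
    (∀ a ∈ B, ∃ c ∈ B, c ^ p = a) ↔ ∀ a : A, ∃ c : A, c ^ p = a := by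
  have := hB
  have : Finite (A ⧸ B) := Subgroup.finite_quotient_of_finiteIndex
  constructor
  · intro h a
    -- iterated roots in `B`
    have hroot : ∀ (k : ℕ) (b : A), b ∈ B → ∃ c ∈ B, c ^ (p ^ k) = b := by
      intro k
      induction k with
      | zero => exact fun b hb => ⟨b, hb, by simp⟩
      | succ k ih =>
        intro b hb
        obtain ⟨c, hc, hcb⟩ := h b hb
        obtain ⟨d, hd, hdc⟩ := ih c hc
        exact ⟨d, hd, by rw [pow_succ, pow_mul, hdc, hcb]⟩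
    set e := B.index with he
    have he0 : e ≠ 0 := hB.index_ne_zero
    obtain ⟨k, e', hpe', hee'⟩ := Nat.exists_eq_pow_mul_and_not_dvd he0 p hp.ne_one
    have hae : a ^ e ∈ B := Subgroup.pow_index_mem B a
    obtain ⟨c, -, hc⟩ := hroot (k + 1) _ hae
    have h1 : (a ^ e') ^ (p ^ k) = (c ^ p) ^ (p ^ k) := by
      rw [← pow_mul, ← pow_mul, ← pow_succ', hc, mul_comm, ← hee']
    have h2 := tf_pow_inj htf (pow_ne_zero k hp.ne_zero) h1
    refine root_of_root hp (x := a) (z := c) (i := (e' : ℤ)) ?_ (by rw [zpow_natCast, h2])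
    exact_mod_cast hpe'
  · intro h a ha
    obtain ⟨c, hc⟩ := h a
    refine ⟨c, ?_, hc⟩
    -- the `p`-power map on the finite quotient is surjective, hence injective
    have hsurj : Function.Surjective fun x : A ⧸ B => x ^ p := by
      intro x
      obtain ⟨x, rfl⟩ := QuotientGroup.mk_surjective x
      obtain ⟨y, hy⟩ := h x
      exact ⟨(y : A ⧸ B), by simp only [← QuotientGroup.mk_pow, hy]⟩
    have hinj : Function.Injective fun x : A ⧸ B => x ^ p := Finite.injective_iff_surjective.2 hsurj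
    have h1 : (c : A ⧸ B) = 1 := by
      apply hinj
      simp only [one_pow, ← QuotientGroup.mk_pow, hc]
      exact (QuotientGroup.eq_one_iff a).2 ha
    exact (QuotientGroup.eq_one_iff c).1 h1

end comm

/-- **Block K.** -/
theorem blockK : BlockK := by
  intro Γ _ p hp N G K h hK
  have hRO : RankOne (N ⊓ K) (G ⊓ K) := by
    refine ⟨fun x hx => ⟨h.le hx.1, hx.2⟩, ?_, ?_, ?_, ?_⟩
    · intro x hx y hy
      refine ⟨h.comm x hx.1 y hy.1, ?_⟩
      rw [commutatorElement_def]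
      exact K.mul_mem (K.mul_mem (K.mul_mem hx.2 hy.2) (K.inv_mem hx.2)) (K.inv_mem hy.2)
    · exact fun x hx n hn hxn => ⟨h.tf x hx.1 n hn hxn.1, hx.2⟩
    · obtain ⟨x, hx, hxN⟩ := h.ne
      obtain ⟨n, hn0, -, hnK⟩ := Subgroup.exists_pow_mem_of_index_ne_zero hK.index_ne_zero x
      exact ⟨x ^ n, ⟨G.pow_mem hx n, hnK⟩, fun hc => hxN (h.tf x hx n (by omega) hc.1)⟩
    · intro x hx y hy
      obtain ⟨a, b, hab, hxy⟩ := h.one x hx.1 y hy.1
      exact ⟨a, b, hab, hxy, K.mul_mem (K.zpow_mem hx.2 a) (K.zpow_mem hy.2 b)⟩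
  refine ⟨hRO, ?_⟩
  obtain ⟨A, _, π, hs, hk, htf, hr⟩ := h.exists_quot
  set B : Subgroup A := (K.subgroupOf G).map π with hB
  have hBfin : B.FiniteIndex := by
    have : (K.subgroupOf G).FiniteIndex := inferInstance
    refine ⟨?_⟩
    intro h0
    have h1 := Subgroup.index_map_dvd (K.subgroupOf G) hs
    rw [← hB, h0, zero_dvd_iff] at h1
    exact (inferInstance : (K.subgroupOf G).FiniteIndex).index_ne_zero h1
  rw [pdiv_iff_quot π hs hk, ← pdiv_fin_index htf B hBfin hp.out]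
  constructor
  · rintro h1 a ⟨x, hx, rfl⟩
    obtain ⟨y, hy, hyx⟩ := h1 x ⟨x.2, hx⟩
    refine ⟨π ⟨y, hy.1⟩, ⟨⟨y, hy.1⟩, hy.2, rfl⟩, ?_⟩
    have h2 : π ((⟨y, hy.1⟩ : G) ^ p * x⁻¹) = 1 := (hk _).2 (by simpa using hyx.1)
    rw [map_mul, map_pow, map_inv] at h2
    exact mul_inv_eq_one.1 h2
  · intro h1 x hx
    obtain ⟨c, ⟨y, hy, rfl⟩, hc⟩ := h1 (π ⟨x, hx.1⟩) ⟨⟨x, hx.1⟩, hx.2, rfl⟩
    refine ⟨y, ⟨y.2, hy⟩, ?_, K.mul_mem (K.pow_mem hy p) (K.inv_mem hx.2)⟩
    have h2 : π (y ^ p * (⟨x, hx.1⟩ : G)⁻¹) = 1 := by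
      rw [map_mul, map_pow, map_inv, hc, mul_inv_cancel]
    simpa using (hk _).1 h2

end Vale.Agent.P260.LM
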