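import Vale.Agent.P260.LM.B

/-!
P260, last mile: block M (the rank of abelian subgroups is bounded), from the blocks A, R4, R5.
-/

namespace Vale.Agent.P260.LM

open scoped commutatorElement

section power

variable {Γ : Type} [Group Γ]

/-- ordered product of powers of commuting elements -/
theorem ofFn_add : ∀ (m : ℕ) (x : Fin m → Γ), (∀ i j, Commute (x i) (x j)) →
    ∀ c d : Fin m → ℤ, (List.ofFn fun i => x i ^ (c i + d i)).prod =
      (List.ofFn fun i => x i ^ c i).prod * (List.ofFn fun i => x i ^ d i).prod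
  | 0, x, hx, c, d => by simp
  | m + 1, x, hx, c, d => by
    rw [List.ofFn_succ, List.ofFn_succ, List.ofFn_succ, List.prod_cons, List.prod_cons,
      List.prod_cons, ofFn_add m (fun i => x i.succ) (fun i j => hx _ _) (fun i => c i.succ)
        (fun i => d i.succ), zpow_add]
    have h1 : Commute (x 0 ^ d 0) (List.ofFn fun i : Fin m => x i.succ ^ c i.succ).prod := by
      refine Commute.list_prod_right _ _ fun y hy => ?_
      obtain ⟨i, rfl⟩ := (List.mem_ofFn' _ _).1 hy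
      exact (hx 0 i.succ).zpow_zpow _ _
    calc x 0 ^ c 0 * x 0 ^ d 0 * ((List.ofFn fun i : Fin m => x i.succ ^ c i.succ).prod *
          (List.ofFn fun i : Fin m => x i.succ ^ d i.succ).prod)
        = x 0 ^ c 0 * (x 0 ^ d 0 * (List.ofFn fun i : Fin m => x i.succ ^ c i.succ).prod) *
          (List.ofFn fun i : Fin m => x i.succ ^ d i.succ).prod := by
          simp only [mul_assoc]
      _ = _ := by
          rw [h1.eq]
          simp only [mul_assoc]

/-- the homomorphism `ℤ^m → Γ` of a commuting family -/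
noncomputable def Phi {m : ℕ} (x : Fin m → Γ) (hx : ∀ i j, Commute (x i) (x j)) :
    Multiplicative (Fin m → ℤ) →* Γ :=
  MonoidHom.mk' (fun c => (List.ofFn fun i => x i ^ (Multiplicative.toAdd c i)).prod)
    fun _ _ => ofFn_add m x hx _ _

theorem Phi_apply {m : ℕ} (x : Fin m → Γ) (hx : ∀ i j, Commute (x i) (x j)) (c : Fin m → ℤ) :
    Phi x hx (Multiplicative.ofAdd c) = (List.ofFn fun i => x i ^ c i).prod := rfl

/-- the functions supported below `i` -/
def Low (m i : ℕ) : AddSubgroup (Fin m → ℤ) where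
  carrier := {c | ∀ j : Fin m, i ≤ (j : ℕ) → c j = 0}
  add_mem' := fun ha hb j hj => by simp only [Pi.add_apply, ha j hj, hb j hj, add_zero]
  zero_mem' := fun j _ => rfl
  neg_mem' := fun ha j hj => by simp only [Pi.neg_apply, ha j hj, neg_zero]

/-- the chain -/
noncomputable def NN {m : ℕ} (x : Fin m → Γ) (hx : ∀ i j, Commute (x i) (x j)) (i : ℕ) :
    Subgroup Γ := (AddSubgroup.toSubgroup (Low m i)).map (Phi x hx)

theorem mem_NN {m : ℕ} {x : Fin m → Γ} {hx : ∀ i j, Commute (x i) (x j)} {i : ℕ} {g : Γ} :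
    g ∈ NN x hx i ↔ ∃ c : Fin m → ℤ, (∀ j : Fin m, i ≤ (j : ℕ) → c j = 0) ∧
      Phi x hx (Multiplicative.ofAdd c) = g := Iff.rfl

variable {m : ℕ} {x : Fin m → Γ} {hx : ∀ i j, Commute (x i) (x j)}

theorem Phi_inj (hno : ∀ c : Fin m → ℤ, c ≠ 0 → (List.ofFn fun i => x i ^ c i).prod ≠ 1)
    {c d : Multiplicative (Fin m → ℤ)} (h : Phi x hx c = Phi x hx d) : c = d := by
  by_contra hcd
  refine hno (Multiplicative.toAdd (c * d⁻¹)) ?_ ?_
  · intro h0
    apply hcd
    have : c * d⁻¹ = 1 := h0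
    exact mul_inv_eq_one.1 this
  · have h1 : Phi x hx (c * d⁻¹) = 1 := by rw [map_mul, map_inv, h, mul_inv_cancel]
    exact h1

theorem Phi_mem (hno : ∀ c : Fin m → ℤ, c ≠ 0 → (List.ofFn fun i => x i ^ c i).prod ≠ 1)
    {i : ℕ} (c : Multiplicative (Fin m → ℤ)) : Phi x hx c ∈ NN x hx i ↔
      ∀ j : Fin m, i ≤ (j : ℕ) → Multiplicative.toAdd c j = 0 := by
  rw [mem_NN]
  constructor
  · rintro ⟨d, hd, he⟩
    have := Phi_inj hno he
    rw [← this]
    exact hd
  · intro h
    exact ⟨_, h, rfl⟩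

theorem NN_comm {i j : ℕ} {a b : Γ} (ha : a ∈ NN x hx i) (hb : b ∈ NN x hx j) : ⁅a, b⁆ = 1 := by
  obtain ⟨c, -, rfl⟩ := mem_NN.1 ha
  obtain ⟨d, -, rfl⟩ := mem_NN.1 hb
  rw [commutatorElement_eq_one_iff_mul_comm, ← map_mul, mul_comm, map_mul]

theorem NN_chain (hno : ∀ c : Fin m → ℤ, c ≠ 0 → (List.ofFn fun i => x i ^ c i).prod ≠ 1) :
    Chain (NN x hx) m := by
  constructor
  · rw [eq_bot_iff]
    intro g hg
    obtain ⟨c, hc, rfl⟩ := mem_NN.1 hg
    have : c = 0 := funext fun j => hc j (Nat.zero_le _)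
    rw [this, ofAdd_zero, map_one]
    exact Subgroup.mem_bot.2 rfl
  · intro i hi
    refine ⟨?_, ?_, ?_, ?_, ?_⟩
    · intro g hg
      obtain ⟨c, hc, rfl⟩ := mem_NN.1 hg
      exact mem_NN.2 ⟨c, fun j hj => hc j (by omega), rfl⟩
    · intro a ha b hb
      rw [NN_comm ha hb]
      exact Subgroup.one_mem _
    · intro a ha n hn han
      obtain ⟨c, hc, rfl⟩ := mem_NN.1 ha
      rw [← map_pow, Phi_mem hno] at han
      rw [Phi_mem hno]
      intro j hj
      have h1 : (n • c) j = 0 := han j hj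
      rw [Pi.smul_apply, smul_eq_zero] at h1
      rcases h1 with h1 | h1
      · exact absurd h1 hn
      · exact h1
    · refine ⟨Phi x hx (Multiplicative.ofAdd (Pi.single ⟨i, hi⟩ 1)), ?_, ?_⟩
      · rw [Phi_mem hno]
        intro j hj
        rw [toAdd_ofAdd, Pi.single_apply, if_neg]
        rintro rfl
        simp at hj
      · rw [Phi_mem hno]
        intro h
        have := h ⟨i, hi⟩ le_rfl
        rw [toAdd_ofAdd, Pi.single_eq_same] at this
        exact one_ne_zero this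
    · intro a ha b hb
      obtain ⟨c, hc, rfl⟩ := mem_NN.1 ha
      obtain ⟨d, hd, rfl⟩ := mem_NN.1 hb
      by_cases h0 : c ⟨i, hi⟩ = 0 ∧ d ⟨i, hi⟩ = 0
      · refine ⟨1, 0, Or.inl one_ne_zero, ?_⟩
        rw [zpow_one, zpow_zero, mul_one, Phi_mem hno]
        intro j hj
        rcases Nat.eq_or_lt_of_le hj with e | e
        · have : j = ⟨i, hi⟩ := Fin.ext e.symm
          rw [this]
          exact h0.1
        · exact hc j e
      · refine ⟨d ⟨i, hi⟩, -c ⟨i, hi⟩, ?_, ?_⟩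
        · by_contra h1
          push Not at h1
          apply h0
          exact ⟨by have := h1.2; omega, h1.1⟩
        · have e0 : Phi x hx (Multiplicative.ofAdd c) ^ (d ⟨i, hi⟩) *
              Phi x hx (Multiplicative.ofAdd d) ^ (-c ⟨i, hi⟩) =
              Phi x hx (Multiplicative.ofAdd c ^ (d ⟨i, hi⟩) *
                Multiplicative.ofAdd d ^ (-c ⟨i, hi⟩)) := by
            rw [map_mul, map_zpow, map_zpow]
          rw [e0, Phi_mem hno]
          intro j hj
          have e1 : Multiplicative.toAdd (Multiplicative.ofAdd c ^ (d ⟨i, hi⟩) *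
            Multiplicative.ofAdd d ^ (-c ⟨i, hi⟩)) j =
            d ⟨i, hi⟩ * c j + (-c ⟨i, hi⟩) * d j := by
            rw [toAdd_mul, toAdd_zpow, toAdd_zpow, toAdd_ofAdd, toAdd_ofAdd, Pi.add_apply,
              Pi.smul_apply, Pi.smul_apply, smul_eq_mul, smul_eq_mul]
          rw [e1]
          rcases Nat.eq_or_lt_of_le hj with e | e
          · have : j = ⟨i, hi⟩ := Fin.ext e.symm
            rw [this]
            ring
          · rw [hc j e, hd j e]
            ring

theorem NN_ndiv (hno : ∀ c : Fin m → ℤ, c ≠ 0 → (List.ofFn fun i => x i ^ c i).prod ≠ 1)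
    {i : ℕ} (hi : i < m) : ¬ PDiv 2 (NN x hx i) (NN x hx (i + 1)) := by
  intro h
  obtain ⟨y, hy, hy2⟩ := h (Phi x hx (Multiplicative.ofAdd (Pi.single ⟨i, hi⟩ 1))) (by
    rw [Phi_mem hno]
    intro j hj
    rw [toAdd_ofAdd, Pi.single_apply, if_neg]
    rintro rfl
    simp at hj)
  obtain ⟨c, hc, rfl⟩ := mem_NN.1 hy
  rw [← map_pow, ← map_inv, ← map_mul, Phi_mem hno] at hy2
  have h1 := hy2 ⟨i, hi⟩ le_rfl
  have e1 : (Multiplicative.toAdd (Multiplicative.ofAdd c ^ 2 *
    (Multiplicative.ofAdd (Pi.single (⟨i, hi⟩ : Fin m) (1 : ℤ)))⁻¹) : Fin m → ℤ) ⟨i, hi⟩ =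
      2 * c ⟨i, hi⟩ - 1 := by
    rw [toAdd_mul, toAdd_pow, toAdd_inv, toAdd_ofAdd, toAdd_ofAdd, Pi.add_apply, Pi.smul_apply,
      Pi.neg_apply, Pi.single_eq_same]
    simp only [nsmul_eq_mul, Nat.cast_ofNat]
    ring
  rw [e1] at h1
  omega

end power

theorem blockM_of (hA : BlockA) (h4 : BlockR4) (h5 : BlockR5) : BlockM := by
  intro Γ _ _ hb
  obtain ⟨m, hm⟩ := hb
  refine ⟨m, fun x hx => ?_⟩
  by_contra hno'
  have hno : ∀ c : Fin m → ℤ, c ≠ 0 → (List.ofFn fun i => x i ^ c i).prod ≠ 1 :=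
    fun c hc h1 => hno' ⟨c, hc, h1⟩
  have : Fact (Nat.Prime 2) := ⟨Nat.prime_two⟩
  have hch : Chain (NN x hx) m := NN_chain hno
  obtain ⟨f, hf, hne⟩ := (up hA h4 h5 hch (fun i hi => NN_ndiv hno hi) (M := NN x hx m)
    (a := 0) (non_zero_deg _) (trivS_zero_deg _ _) m (Nat.zero_le _) le_rfl le_rfl (by
      intro j _ _ a ha b hb
      rw [NN_comm ha hb]
      exact Subgroup.one_mem _)).1
  exact hne (hm (NN x hx m) m le_rfl f hf)

end Vale.Agent.P260.LM
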