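import Vale.Agent.P260.LM.Wang

/-!
P260, last mile, block R1: finiteness of the cohomology passes from `N` to `G` if `G / N` is
torsion-free abelian of rank one.
-/

namespace Vale.Agent.P260.LM

section

variable {Γ : Type} [Group Γ] {q : ℕ} {N G : Subgroup Γ}

/-- Invariance on lists of a fixed length under `N` and `a`. -/
theorem invS_Pa_cut {k : Type} [AddCommGroup k] {a : Γ} {n : ℕ} {f : List Γ → k}
    (hN : InvS N f) (ha : ∀ l : List Γ, l.length = n → tr a f l = f l) :
    InvS (Pa N a) (cut n f) :=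
  invS_sup (hN.cut n) (invS_zpowers (cut_tr_eq ha))

/-- If the cocycles `z = dc y`, `z' = dc y'` on `N` are invariant under `a` and the classes of
`tr a y - y`, `tr a y' - y'` agree, then `z - z'` is exact on `Pa N a`. -/
theorem exS_Pa_of_exS {a : Γ} {m : ℕ}
    (hW : ∀ v : List Γ → ZMod q, InvS N v →
      ∃ w : List Γ → ZMod q, InvS N w ∧ ∀ l : List Γ, l ≠ [] → tr a w l - w l = v l)
    {y : List Γ → ZMod q} (hy : InvS N y)
    (hu : ExS q N m fun l => tr a y l - y l) :
    ExS q (Pa N a) (m + 1) (dc y) := by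
  obtain ⟨v, hv0, hv, he⟩ := hu
  obtain ⟨w, hw, hwv⟩ : ∃ w : List Γ → ZMod q, InvS N w ∧
      ∀ l : List Γ, l.length = m + 1 → dc (fun l => tr a w l - w l) l = dc v l := by
    rcases Nat.eq_zero_or_pos m with rfl | hm
    · have hv1 : v = fun _ => 0 := funext (hv0 rfl)
      refine ⟨fun _ => 0, InvS.const 0, fun l _ => ?_⟩
      rw [hv1]
      simp [tr_apply]
    · obtain ⟨w, hw, h⟩ := hW v hv
      refine ⟨w, hw, fun l hl => dc_congr (n := m) (fun l' hl' => h l' ?_) hl⟩
      rintro rfl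
      simp at hl'
      omega
  have hx : InvS N fun l => y l - dc w l := hy.sub hw.dc
  have hax : ∀ l : List Γ, l.length = m + 1 →
      tr a (fun l => y l - dc w l) l = (fun l => y l - dc w l) l := by
    intro l hl
    have h1 := he l hl
    have h2 := hwv l hl
    rw [dc_sub, ← tr_dc] at h2
    have h3 : tr a (fun l => y l - dc w l) l = tr a y l - tr a (dc w) l := rfl
    rw [h3]
    simp only at h1 ⊢
    have h4 : tr a y l - tr a (dc w) l - (y l - dc w l) =
        (tr a y l - y l) - (tr a (dc w) l - dc w l) := by ring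
    rw [← sub_eq_zero, h4, h1, h2, sub_self]
  have hI := invS_Pa_cut hx hax
  refine ((ExS.dc (n := m) hI).congr fun l hl => ?_)
  rw [dc_cut _ hl, dc_sub, dc_dc, sub_zero]

/-- The bound for the cohomology of `Pa N a`. -/
theorem exists_inj_Pa {a : Γ} {m : ℕ} (hna : Nz N a)
    (hW : ∀ v : List Γ → ZMod q, InvS N v →
      ∃ w : List Γ → ZMod q, InvS N w ∧ ∀ l : List Γ, l ≠ [] → tr a w l - w l = v l) :
    ∃ φ : H q (Pa N a) (m + 1) → H q N (m + 1) × H q N m, Function.Injective φ := by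
  classical
  choose z hz hzc using (exists_cl : ∀ c : H q (Pa N a) (m + 1), _)
  let r : H q (Pa N a) (m + 1) → H q N (m + 1) := fun c => cl ((hz c).mono (le_Pa N a))
  -- a base class in every fibre of `r`
  let b : H q (Pa N a) (m + 1) → H q (Pa N a) (m + 1) := fun c =>
    Classical.choose (⟨c, rfl⟩ : ∃ c', r c' = r c)
  have hb : ∀ c, r (b c) = r c := fun c => Classical.choose_spec (⟨c, rfl⟩ : ∃ c', r c' = r c)
  have hbb : ∀ c c', r c = r c' → b c = b c' := by
    intro c c' h
    simp only [b]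
    congr 1
    funext x
    rw [h]
  have hex : ∀ c, ∃ y : List Γ → ZMod q, InvS N y ∧
      ∀ l : List Γ, l.length = m + 2 → z c l - z (b c) l = dc y l := by
    intro c
    have h1 := (cl_eq ((hz c).mono (le_Pa N a)) ((hz (b c)).mono (le_Pa N a))).1 (hb c).symm
    obtain ⟨y, hy, he⟩ := exS_succ.1 h1
    exact ⟨y, hy, he⟩
  choose y hy hye using hex
  have haP : ∀ c, tr a (z c) = z c := fun c => (hz c).1.tr_eq (mem_Pa_self N a)
  have hu : ∀ c, CocS q N m fun l => tr a (y c) l - y c l := by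
    intro c
    refine ⟨((hy c).tr hna).sub (hy c), fun l hl => ?_⟩
    rw [dc_sub, ← tr_dc, tr_apply, ← hye c _ (by simpa using hl), ← hye c l hl]
    have h1 := congrFun (haP c) l
    have h2 := congrFun (haP (b c)) l
    rw [tr_apply] at h1 h2
    rw [h1, h2, sub_self]
  refine ⟨fun c => (r c, cl (hu c)), fun c c' hcc => ?_⟩
  have h1 : r c = r c' := (Prod.ext_iff.1 hcc).1
  have h2 : cl (hu c) = cl (hu c') := (Prod.ext_iff.1 hcc).2
  have h3 := (cl_eq (hu c) (hu c')).1 h2
  have h4 : ExS q N m fun l => tr a (fun l => y c l - y c' l) l - (y c l - y c' l) :=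
    h3.congr fun l _ => by
      simp only [tr_apply]
      ring
  have h5 := exS_Pa_of_exS hW ((hy c).sub (hy c')) h4
  rw [← hzc c, ← hzc c', cl_eq]
  refine h5.congr fun l hl => ?_
  rw [dc_sub, ← hye c l hl, ← hye c' l hl, hbb c c' h1]
  ring

theorem finS_zero [NeZero q] : FinS q G 0 := by
  refine ⟨Set.range fun (c : ZMod q) => fun _ : List Γ => c, Set.finite_range _, ?_⟩
  intro f hf
  refine ⟨fun _ => f [1], ⟨f [1], rfl⟩, ⟨InvS.const _, ?_⟩, exS_zero.2 ?_⟩
  · intro l hl
    obtain ⟨a, b, rfl⟩ : ∃ a b, l = [a, b] := List.length_eq_two.1 hl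
    simp [dc_cons, dc_nil]
  · intro l hl
    obtain ⟨a, rfl⟩ : ∃ a, l = [a] := List.length_eq_one_iff.1 hl
    have h1 := hf.2 [1, a] rfl
    simp only [dc_cons, dc_nil, sub_zero] at h1
    exact h1

/-- Finitely many subgroups `Pa N a` are contained in one. -/
theorem RankOne.directed_finset (h : RankOne N G) {ι : Type} (s : Finset ι) (a : ι → Γ)
    (ha : ∀ i ∈ s, a i ∈ G) : ∃ c ∈ G, c ∉ N ∧ ∀ i ∈ s, Pa N (a i) ≤ Pa N c := by
  classical
  induction s using Finset.induction_on with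
  | empty =>
    obtain ⟨x, hx, hx'⟩ := h.ne
    exact ⟨x, hx, hx', fun i hi => absurd hi (Finset.notMem_empty i)⟩
  | insert i s hi ih =>
    obtain ⟨c, hc, hc', hs⟩ := ih fun j hj => ha j (Finset.mem_insert_of_mem hj)
    obtain ⟨d, hd, h1, h2⟩ := h.directed hc (ha i (Finset.mem_insert_self i s))
    refine ⟨d, hd, fun hdN => hc' ?_, fun j hj => ?_⟩
    · have h3 : Pa N d ≤ N := sup_le le_rfl (Subgroup.zpowers_le.2 hdN)
      exact h3 (h1 (mem_Pa_self N c))
    · rcases Finset.mem_insert.1 hj with rfl | hj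
      · exact h2
      · exact (hs j hj).trans h1

end

theorem blockR1_of
    (W1 : ∀ (Γ : Type) [Group Γ] (q : ℕ) (N G : Subgroup Γ), RankOne N G → ∀ a ∈ G, a ∉ N →
      ∀ v : List Γ → ZMod q, InvS N v →
        ∃ w : List Γ → ZMod q, InvS N w ∧ ∀ l : List Γ, l ≠ [] → tr a w l - w l = v l)
    (W2 : ∀ (Γ : Type) [Group Γ] (q : ℕ) [Fact q.Prime] (N G : Subgroup Γ), RankOne N G →
      ∀ (n : ℕ) (z : List Γ → ZMod q), (∀ a ∈ G, a ∉ N → ExS q (Pa N a) n z) → ExS q G n z) :
    BlockR1 := by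
  intro Γ _ q hq N G h hN n
  classical
  have : NeZero q := ⟨hq.out.ne_zero⟩
  rcases n with _ | m
  · exact finS_zero
  rw [finS_iff]
  have f1 : Finite (H q N (m + 1)) := finS_iff.1 (hN (m + 1))
  have f2 : Finite (H q N m) := finS_iff.1 (hN m)
  by_contra hinf
  rw [not_finite_iff_infinite] at hinf
  obtain ⟨s, hs⟩ := Infinite.exists_subset_card_eq (H q G (m + 1))
    (Nat.card (H q N (m + 1) × H q N m) + 1)
  choose z hz hzc using (exists_cl : ∀ c : H q G (m + 1), _)
  have hsep : ∀ p : H q G (m + 1) × H q G (m + 1), ∃ a ∈ G, p.1 ≠ p.2 →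
      ¬ ExS q (Pa N a) (m + 1) fun l => z p.1 l - z p.2 l := by
    intro p
    by_cases hp : p.1 = p.2
    · exact ⟨1, G.one_mem, fun h => absurd hp h⟩
    · have h1 : ¬ ExS q G (m + 1) fun l => z p.1 l - z p.2 l := by
        intro h2
        apply hp
        rw [← hzc p.1, ← hzc p.2, cl_eq]
        exact h2
      by_contra hcon
      apply h1
      refine W2 Γ q N G h (m + 1) _ fun a ha _ => ?_
      by_contra h3
      exact hcon ⟨a, ha, fun _ => h3⟩
  choose a ha hsep using hsep
  obtain ⟨c, hc, hc', hle⟩ := h.directed_finset (s ×ˢ s) a fun p _ => ha p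
  obtain ⟨φ, hφ⟩ := exists_inj_Pa (q := q) (m := m) (h.nz hc) (fun v hv => W1 Γ q N G h c hc hc' v hv)
  have hPG : Pa N c ≤ G := Pa_le h.le hc
  let ψ : s → H q N (m + 1) × H q N m := fun x => φ (cl ((hz (x : H q G (m + 1))).mono hPG))
  have hψ : Function.Injective ψ := by
    intro x x' hx
    have h1 := hφ hx
    rw [cl_eq] at h1
    by_contra hne
    have hne' : (x : H q G (m + 1)) ≠ x' := fun h => hne (Subtype.ext h)
    exact hsep (x, x') hne' (h1.mono (hle (x, x') (Finset.mem_product.2 ⟨x.2, x'.2⟩)))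
  have h2 := Nat.card_le_card_of_injective ψ hψ
  have h3 : Nat.card s = s.card := by simp
  rw [h3, hs] at h2
  omega

theorem blockR1 : BlockR1 :=
  blockR1_of (fun _ _ _ _ _ h _ ha ha' v hv => exists_tr_sub h ha ha' v hv)
    fun _ _ _ hq _ _ h _ _ hz => have : NeZero _ := ⟨hq.out.ne_zero⟩; glue h hz

end Vale.Agent.P260.LM
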