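import Vale.Agent.P260.LM.R2

/-!
P260, last mile: block R3, vanishing in the divisible case.
-/

namespace Vale.Agent.P260.LM

/-! ### an identity of geometric sums -/

/-- If `B ^ r = 1` and `r` is a unit, then in characteristic `q` the norm `1 + B + ... + B ^ (q - 1)`
is a multiple of `B ^ q - 1`. -/
theorem norm_eq {R : Type} [Ring R] (B : R) (q r : ℕ) (hB : B ^ r = 1) (hq : (q : R) = 0) :
    (B ^ q - 1) * (∑ i ∈ Finset.range r, ∑ j ∈ Finset.range i, B ^ j) =
      -((r : R) * ∑ i ∈ Finset.range q, B ^ i) := by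
  set T := ∑ i ∈ Finset.range r, ∑ j ∈ Finset.range i, B ^ j with hT
  set Sq := ∑ i ∈ Finset.range q, B ^ i with hSq
  set Sr := ∑ i ∈ Finset.range r, B ^ i with hSr
  have hcS : ∀ n : ℕ, Commute (B - 1) (∑ i ∈ Finset.range n, B ^ i) := fun n =>
    Commute.sum_right _ _ _ fun i _ =>
      ((Commute.refl B).pow_right i).sub_left (Commute.one_left _)
  have hcT : Commute (B - 1) T := Commute.sum_right _ _ _ fun i _ => hcS i
  have h1 : T * (B - 1) = Sr - r := by
    rw [hT, Finset.sum_mul]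
    have e : ∀ i ∈ Finset.range r, (∑ j ∈ Finset.range i, B ^ j) * (B - 1) = B ^ i - 1 :=
      fun i _ => geom_sum_mul B i
    rw [Finset.sum_congr rfl e, Finset.sum_sub_distrib]
    simp [hSr]
  have h2 : Sq * (B - 1) = B ^ q - 1 := geom_sum_mul B q
  have h3 : Sr * (B - 1) = 0 := by rw [hSr, geom_sum_mul, hB, sub_self]
  have h4 : B * Sr = Sr := by
    have h5 : (B - 1) * Sr = 0 := by rw [(hcS r).eq]; exact h3
    rw [sub_mul, one_mul] at h5
    exact sub_eq_zero.1 h5
  have h5 : ∀ i : ℕ, B ^ i * Sr = Sr := by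
    intro i
    induction i with
    | zero => simp
    | succ i ih => rw [pow_succ, mul_assoc, h4, ih]
  have h6 : Sq * Sr = 0 := by
    rw [hSq, Finset.sum_mul, Finset.sum_congr rfl fun i _ => h5 i]
    simp [hq]
  rw [← h2, mul_assoc, hcT.eq, h1, mul_sub, h6, zero_sub, Nat.cast_comm]

variable {Γ : Type} [Group Γ] {N G : Subgroup Γ} {q n : ℕ}

theorem cl_congr {S : Subgroup Γ} {f g : List Γ → ZMod q} (hf : CocS q S n f) (h : f = g) :
    cl hf = cl (h ▸ hf : CocS q S n g) := by
  subst h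
  rfl

/-- the action of `G` on the cohomology of `N` -/
noncomputable def rho (h : RankOne N G) (q n : ℕ) : G →* Module.End (ZMod q) (H q N n) where
  toFun g := act (h.nz g.2)
  map_one' := by
    refine LinearMap.ext fun x => ?_
    obtain ⟨f, hf, rfl⟩ := exists_cl x
    rw [act_cl]
    exact cl_congr _ (tr_one f)
  map_mul' := by
    intro a b
    refine LinearMap.ext fun x => ?_
    obtain ⟨f, hf, rfl⟩ := exists_cl x
    rw [Module.End.mul_apply, act_cl, act_cl, act_cl]
    exact cl_congr _ (tr_tr _ _ f).symm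

theorem rho_cl (h : RankOne N G) (g : G) {f : List Γ → ZMod q} (hf : CocS q N n f) :
    rho h q n g (cl hf) = cl (hf.tr (h.nz g.2)) := rfl

/-- the translate only depends on the element modulo `N` -/
theorem tr_eq_of_mem (h : RankOne N G) {a b : Γ} (ha : a ∈ G) (hab : b * a⁻¹ ∈ N)
    {k : Type} {f : List Γ → k} (hf : InvS N f) : tr b f = tr a f := by
  have e : b = (b * a⁻¹) * a := by group
  rw [e, ← tr_tr]
  exact (hf.tr (h.nz ha)).tr_eq hab

/-- In the divisible case the elements of `G` act with order prime to `q`. -/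
theorem exists_order (h : RankOne N G) [hq : Fact q.Prime] (hd : PDiv q N G)
    [Finite (H q N n)] (b : G) : ∃ r : ℕ, ¬ q ∣ r ∧ rho h q n b ^ r = 1 := by
  have hfin : Finite (Module.End (ZMod q) (H q N n)) :=
    Finite.of_injective (fun f : Module.End (ZMod q) (H q N n) => (f : H q N n → H q N n))
      DFunLike.coe_injective
  have hfinU : Finite (Module.End (ZMod q) (H q N n))ˣ := inferInstance
  set M := Nat.card (Module.End (ZMod q) (H q N n))ˣ with hM
  have hM0 : M ≠ 0 := Nat.card_ne_zero.2 ⟨⟨1⟩, hfinU⟩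
  obtain ⟨e, M', hM', hMe⟩ := Nat.exists_eq_pow_mul_and_not_dvd hM0 q hq.out.ne_one
  -- iterated roots
  have hroot : ∀ (k : ℕ) (b : G), ∃ c : G, rho h q n c ^ (q ^ k) = rho h q n b := by
    intro k
    induction k with
    | zero => exact fun b => ⟨b, by simp⟩
    | succ k ih =>
      intro b
      obtain ⟨y, hy, hyb⟩ := hd b b.2
      obtain ⟨c, hc⟩ := ih ⟨y, hy⟩
      refine ⟨c, ?_⟩
      rw [pow_succ, pow_mul, hc, ← map_pow]
      refine LinearMap.ext fun x => ?_
      obtain ⟨f, hf, rfl⟩ := exists_cl x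
      rw [rho_cl, rho_cl]
      refine cl_congr _ (tr_eq_of_mem h b.2 ?_ hf.1)
      simpa using hyb
  obtain ⟨c, hc⟩ := hroot e b
  refine ⟨M', hM', ?_⟩
  rw [← hc, ← pow_mul, ← hMe]
  have h1 : (rho h q n).toHomUnits c ^ M = 1 := by
    rw [hM]
    exact pow_card_eq_one'
  have h2 := congrArg Units.val h1
  simpa using h2

/-- **Block R3.** -/
theorem blockR3 : BlockR3 := by
  intro Γ _ q hq N G h hd n hfin h1 z hz
  obtain ⟨y, hy, hzy⟩ := exS_succ.1 (h1 z (hz.mono h.le))
  have : NeZero q := ⟨hq.out.ne_zero⟩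
  have hF : Finite (H q N n) := finS_iff.1 hfin
  have hcoc : ∀ a ∈ G, CocS q N n fun l => tr a y l - y l := fun a ha =>
    cocS_tr_sub hz.1 hy hzy ha (h.nz ha)
  refine glue h fun a ha ha' => ?_
  obtain ⟨b, hb, hba⟩ := hd a ha
  set B := rho h q n ⟨b, hb⟩ with hB
  -- the class of `tr b y - y`
  set x := cl (hcoc b hb) with hx
  have hpow : ∀ i : ℕ, b ^ i ∈ G := fun i => G.pow_mem hb i
  have hsum : ∀ i : ℕ, cl (hcoc (b ^ i) (hpow i)) = (∑ j ∈ Finset.range i, B ^ j) x := by
    intro i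
    induction i with
    | zero =>
      rw [Finset.sum_range_zero, LinearMap.zero_apply, cl_eq_zero]
      refine ExS.zero.congr fun l _ => ?_
      rw [pow_zero, tr_one, sub_self]
    | succ i ih =>
      rw [Finset.sum_range_succ, LinearMap.add_apply, ← ih]
      have e1 : B ^ i = rho h q n ⟨b ^ i, hpow i⟩ := by
        rw [hB, ← map_pow]
        rfl
      rw [e1, hx, rho_cl]
      have e2 : cl (hcoc (b ^ i) (hpow i)) + cl ((hcoc b hb).tr (h.nz (hpow i))) =
          cl ((hcoc (b ^ i) (hpow i)).add ((hcoc b hb).tr (h.nz (hpow i)))) := rfl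
      rw [e2, cl_eq]
      refine ExS.zero.congr fun l _ => ?_
      have e3 : tr (b ^ (i + 1)) y = tr (b ^ i) (tr b y) := by rw [tr_tr, pow_succ]
      have e4 : tr (b ^ i) (fun l => tr b y l - y l) l = tr (b ^ i) (tr b y) l - tr (b ^ i) y l :=
        rfl
      rw [e4, e3]
      ring
  -- the class for `a`
  have hca : cl (hcoc a ha) = (∑ j ∈ Finset.range q, B ^ j) x := by
    rw [← hsum q, cl_eq]
    refine ExS.zero.congr fun l _ => ?_
    rw [tr_eq_of_mem h ha hba hy, sub_self]
  obtain ⟨r, hr, hBr⟩ := exists_order (n := n) h hd (⟨b, hb⟩ : G)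
  have hrq : (r : ZMod q) ≠ 0 := fun h0 => hr ((ZMod.natCast_eq_zero_iff r q).1 h0)
  have hchar : ((q : ℕ) : Module.End (ZMod q) (H q N n)) = 0 := by
    refine LinearMap.ext fun v => ?_
    rw [Module.End.natCast_apply, LinearMap.zero_apply, ← Nat.cast_smul_eq_nsmul (ZMod q)]
    simp
  have hn := norm_eq B q r hBr hchar
  set T := ∑ i ∈ Finset.range r, ∑ j ∈ Finset.range i, B ^ j with hT
  obtain ⟨w, hw, hwX⟩ := exists_cl (-((r : ZMod q)⁻¹ • T x))
  have hkey : rho h q n ⟨a, ha⟩ (cl hw) - cl hw = cl (hcoc a ha) := by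
    have e1 : rho h q n ⟨a, ha⟩ (cl hw) = (B ^ q) (cl hw) := by
      have e2 : B ^ q = rho h q n ⟨b ^ q, hpow q⟩ := by
        rw [hB, ← map_pow]
        rfl
      rw [e2, rho_cl, rho_cl]
      exact cl_congr _ (tr_eq_of_mem h ha hba hw.1).symm
    rw [e1, hca, hwX]
    have e3 := congrArg (fun L : Module.End (ZMod q) (H q N n) => L x) hn
    simp only [Module.End.mul_apply, LinearMap.sub_apply, Module.End.one_apply,
      LinearMap.neg_apply, Module.End.natCast_apply] at e3
    rw [map_neg, map_smul]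
    have e4 : -((r : ZMod q)⁻¹ • (B ^ q) (T x)) - -((r : ZMod q)⁻¹ • T x) =
        -((r : ZMod q)⁻¹ • ((B ^ q) (T x) - T x)) := by
      rw [smul_sub]
      abel
    rw [e4, e3, smul_neg, neg_neg, ← Nat.cast_smul_eq_nsmul (ZMod q), smul_smul,
      inv_mul_cancel₀ hrq, one_smul]
  -- the correction
  rw [rho_cl] at hkey
  have e5 : cl (hw.tr (h.nz ha)) - cl hw = cl ((hw.tr (h.nz ha)).sub hw) := rfl
  have h6 : ExS q N n fun l => (tr a w l - w l) - (tr a y l - y l) :=
    (cl_eq ((hw.tr (h.nz ha)).sub hw) (hcoc a ha)).1 hkey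
  have hY : InvS N fun l => y l - w l := hy.sub hw.1
  have h7 : ExS q N n fun l => tr a (fun l => y l - w l) l - (y l - w l) := by
    refine h6.neg.congr fun l _ => ?_
    rw [tr_apply, tr_apply, tr_apply]
    ring
  refine (exS_dc_of_tr h ha ha' hY h7).congr fun l hl => ?_
  rw [dc_sub, hw.2 l hl, sub_zero]
  exact hzy l hl

end Vale.Agent.P260.LM
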