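import Vale.Agent.P260.LM.Rk

/-!
P260, last mile, block R4: if `G` acts trivially on `H^n(N; 𝔽_q) ≠ 0` and `G / N` is torsion-free
abelian of rank one, not `q`-divisible, then `H^{n+1}(G; 𝔽_q) ≠ 0`.
-/

namespace Vale.Agent.P260.LM

namespace R4

open scoped commutatorElement

section cont

variable {α k : Type} [AddCommGroup k] [TopologicalSpace k] [IsTopologicalAddGroup k]

theorem continuous_dc : ∀ l : List α, Continuous fun h : List α → k => dc h l
  | [] => by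
    simp only [dc_nil]
    exact continuous_const
  | a :: l => by
    simp only [dc_cons]
    exact (continuous_apply l).sub
      ((continuous_dc l).comp (continuous_pi fun l => continuous_apply (a :: l)))

end cont

variable {Γ : Type} [Group Γ] {N G : Subgroup Γ} {q : ℕ}

/-- the functions `z + dc h`, `h` invariant -/
def ES (q : ℕ) (S : Subgroup Γ) (n : ℕ) (z : List Γ → ZMod q) : Set (List Γ → ZMod q) :=
  (fun (h : List Γ → ZMod q) (l : List Γ) => z l + cut (n + 2) (dc h) l) '' {h | InvS S h}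

theorem isClosed_invS (S : Subgroup Γ) : IsClosed {h : List Γ → ZMod q | InvS S h} := by
  have e : {h : List Γ → ZMod q | InvS S h} =
      ⋂ (s : Γ) (_ : s ∈ S) (l : List Γ), {h | h (l.map (s * ·)) = h l} := by
    ext h
    simp only [Set.mem_ofPred_eq, Set.mem_iInter]
    rfl
  rw [e]
  exact isClosed_iInter fun s => isClosed_iInter fun _ => isClosed_iInter fun l =>
    isClosed_eq (continuous_apply _) (continuous_apply _)

theorem isCompact_ES [NeZero q] (S : Subgroup Γ) (n : ℕ) (z : List Γ → ZMod q) :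
    IsCompact (ES q S n z) := by
  refine (isClosed_invS S).isCompact.image (continuous_pi fun l => ?_)
  refine continuous_const.add ?_
  by_cases hl : l.length = n + 2
  · simp only [cut_of hl]
    exact continuous_dc l
  · simp only [cut, if_neg hl]
    exact continuous_const

theorem nonempty_ES (S : Subgroup Γ) (n : ℕ) (z : List Γ → ZMod q) : (ES q S n z).Nonempty :=
  ⟨_, fun _ => 0, InvS.const 0, rfl⟩

theorem ES_subset {S T : Subgroup Γ} {n : ℕ} {z z' : List Γ → ZMod q} (hST : S ≤ T)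
    (hz : ExS q S (n + 1) fun l => z' l - z l) (h0 : ∀ l : List Γ, l.length ≠ n + 2 → z l = 0)
    (h0' : ∀ l : List Γ, l.length ≠ n + 2 → z' l = 0) : ES q T n z' ⊆ ES q S n z := by
  rintro _ ⟨h, hh, rfl⟩
  obtain ⟨g, hg, he⟩ := exS_succ.1 hz
  refine ⟨fun l => g l + h l, hg.add (hh.mono hST), ?_⟩
  funext l
  by_cases hl : l.length = n + 2
  · simp only [cut_of hl, dc_add]
    rw [← he l hl]
    abel
  · simp only [cut, if_neg hl, h0 l hl, h0' l hl]

/-- powers act as expected -/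
theorem exS_tr_zpow {n : ℕ} {c : Γ} (hc : c ∈ G) (hT : TrivS q G N n) {w y : List Γ → ZMod q}
    (hw : CocS q N n w) (hy : ∀ l : List Γ, l ≠ [] → tr c y l - y l = w l) (j : ℤ) :
    ExS q N n fun l => tr (c ^ j) y l - y l - (j : ZMod q) * w l := by
  have hy' : ∀ (g : Γ) (l : List Γ), l ≠ [] → tr (g * c) y l = tr g y l + tr g w l := by
    intro g l hl
    rw [← tr_tr, tr_apply, tr_apply g y, tr_apply g w, ← hy _ (by simpa using hl)]
    abel
  induction j using Int.induction_on with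
  | zero =>
    refine ExS.zero.congr fun l _ => ?_
    rw [zpow_zero, tr_one]
    simp
  | succ j ih =>
    refine (ih.add (hT (c ^ (j : ℤ)) (G.zpow_mem hc j) w hw)).congr fun l hl => ?_
    have hl' : l ≠ [] := by
      rintro rfl
      simp at hl
    rw [zpow_add_one, hy' _ l hl']
    push_cast
    ring
  | pred j ih =>
    refine (ih.sub (hT (c ^ (-(j : ℤ) - 1)) (G.zpow_mem hc _) w hw)).congr fun l hl => ?_
    have hl' : l ≠ [] := by
      rintro rfl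
      simp at hl
    have e : c ^ (-(j : ℤ)) = c ^ (-(j : ℤ) - 1) * c := by
      rw [← zpow_add_one]
      congr 1
      ring
    rw [e, hy' _ l hl']
    push_cast
    ring

/-- Block R4 from the lemmas W1 and W3. -/
theorem blockR4_of
    (W1 : ∀ (Γ : Type) [Group Γ] (q : ℕ) (N G : Subgroup Γ), RankOne N G → ∀ a ∈ G, a ∉ N →
      ∀ v : List Γ → ZMod q, InvS N v →
      ∃ w : List Γ → ZMod q, InvS N w ∧ ∀ l : List Γ, l ≠ [] → tr a w l - w l = v l)
    (W3 : ∀ (Γ : Type) [Group Γ] (q : ℕ) (N G : Subgroup Γ), RankOne N G → ∀ a ∈ G, a ∉ N →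
      ∀ (n : ℕ) (Y : List Γ → ZMod q), InvS N Y → (ExS q N n fun l => tr a Y l - Y l) →
      ExS q (Pa N a) (n + 1) (dc Y)) : BlockR4 := by
  intro Γ _ q hq N G h hdiv n hT hN
  have hq' : NeZero q := ⟨hq.out.ne_zero⟩
  -- the element which is not divisible
  obtain ⟨a₀, ha₀, hna₀⟩ : ∃ x ∈ G, ∀ y ∈ G, y ^ q * x⁻¹ ∉ N := by
    simpa only [PDiv, not_forall, not_exists, exists_prop, not_and] using hdiv
  have ha₀N : a₀ ∉ N := fun hc => hna₀ 1 G.one_mem (by simpa using N.inv_mem hc)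
  obtain ⟨w, hw, hwex⟩ := hN
  have hex : ∀ a : Γ, ∃ y : List Γ → ZMod q, a ∈ G → a ∉ N →
      InvS N y ∧ ∀ l : List Γ, l ≠ [] → tr a y l - y l = w l := by
    intro a
    by_cases ha : a ∈ G ∧ a ∉ N
    · obtain ⟨y, hy⟩ := W1 Γ q N G h a ha.1 ha.2 w hw.1
      exact ⟨y, fun _ _ => hy⟩
    · exact ⟨fun _ => 0, fun h1 h2 => absurd ⟨h1, h2⟩ ha⟩
  choose y hy using hex
  -- the index set
  let ι : Type := {p : Γ × ℤ // p.1 ∈ G ∧ a₀ * (p.1 ^ p.2)⁻¹ ∈ N}
  have hnotin : ∀ p : ι, p.1.1 ∉ N := by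
    intro p hp
    refine ha₀N ?_
    have e : a₀ = (a₀ * (p.1.1 ^ p.1.2)⁻¹) * p.1.1 ^ p.1.2 := by group
    rw [e]
    exact N.mul_mem p.2.2 (N.zpow_mem hp _)
  have hunit : ∀ p : ι, ((p.1.2 : ℤ) : ZMod q) ≠ 0 := by
    intro p hp
    rw [ZMod.intCast_zmod_eq_zero_iff_dvd] at hp
    obtain ⟨k, hk⟩ := hp
    refine hna₀ (p.1.1 ^ k) (G.zpow_mem p.2.1 k) ?_
    have e : (p.1.1 ^ k) ^ q * a₀⁻¹ = (a₀ * (p.1.1 ^ p.1.2)⁻¹)⁻¹ := by
      rw [← zpow_natCast, ← zpow_mul, mul_comm k, ← hk]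
      group
    rw [e]
    exact N.inv_mem p.2.2
  -- the local solutions
  let Z : ι → List Γ → ZMod q := fun p =>
    cut (n + 2) (dc fun l => ((p.1.2 : ℤ) : ZMod q)⁻¹ * y p.1.1 l)
  have hZ0 : ∀ (p : ι) (l : List Γ), l.length ≠ n + 2 → Z p l = 0 := by
    intro p l hl
    simp only [Z, cut, if_neg hl]
  -- compatibility
  have hcomp : ∀ (p r : ι) (j : ℤ), p.1.1 * (r.1.1 ^ j)⁻¹ ∈ N → r.1.2 = j * p.1.2 →
      ExS q (Pa N p.1.1) (n + 1) fun l => Z r l - Z p l := by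
    intro p r j hj hjk
    have hp := hy p.1.1 p.2.1 (hnotin p)
    have hr := hy r.1.1 r.2.1 (hnotin r)
    have hYi : InvS N fun l => ((r.1.2 : ℤ) : ZMod q)⁻¹ * y r.1.1 l -
        ((p.1.2 : ℤ) : ZMod q)⁻¹ * y p.1.1 l :=
      (hr.1.comp (((r.1.2 : ℤ) : ZMod q)⁻¹ * ·)).sub (hp.1.comp (((p.1.2 : ℤ) : ZMod q)⁻¹ * ·))
    have htr : tr p.1.1 (y r.1.1) = tr (r.1.1 ^ j) (y r.1.1) := by
      have e : p.1.1 = (p.1.1 * (r.1.1 ^ j)⁻¹) * r.1.1 ^ j := by group
      rw [e, ← tr_tr]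
      exact (hr.1.tr (h.nz (G.zpow_mem r.2.1 j))).tr_eq hj
    have hE : ExS q N n fun l =>
        tr p.1.1 (fun l => ((r.1.2 : ℤ) : ZMod q)⁻¹ * y r.1.1 l -
          ((p.1.2 : ℤ) : ZMod q)⁻¹ * y p.1.1 l) l -
        (((r.1.2 : ℤ) : ZMod q)⁻¹ * y r.1.1 l - ((p.1.2 : ℤ) : ZMod q)⁻¹ * y p.1.1 l) := by
      refine ((exS_tr_zpow r.2.1 hT hw hr.2 j).smul (((r.1.2 : ℤ) : ZMod q)⁻¹)).congr
        fun l hl => ?_
      have hl' : l ≠ [] := by
        rintro rfl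
        simp at hl
      have h1 := hp.2 l hl'
      have h2 : tr p.1.1 (y r.1.1) l = tr (r.1.1 ^ j) (y r.1.1) l := by rw [htr]
      have h3 : ((r.1.2 : ℤ) : ZMod q)⁻¹ * (j : ZMod q) = ((p.1.2 : ℤ) : ZMod q)⁻¹ := by
        have hu := hunit r
        have hup := hunit p
        rw [hjk] at hu ⊢
        push_cast at hu ⊢
        have huj : (j : ZMod q) ≠ 0 := left_ne_zero_of_mul hu
        field_simp
      have h4 : tr p.1.1 (fun l => ((r.1.2 : ℤ) : ZMod q)⁻¹ * y r.1.1 l -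
          ((p.1.2 : ℤ) : ZMod q)⁻¹ * y p.1.1 l) l =
          ((r.1.2 : ℤ) : ZMod q)⁻¹ * tr p.1.1 (y r.1.1) l -
          ((p.1.2 : ℤ) : ZMod q)⁻¹ * tr p.1.1 (y p.1.1) l := rfl
      rw [h4, h2, eq_add_of_sub_eq h1]
      linear_combination (w l) * h3
    refine (W3 Γ q N G h p.1.1 p.2.1 (hnotin p) n _ hYi hE).congr fun l hl => ?_
    simp only [Z, cut_of hl]
    rw [dc_sub]
  -- the sets are directed
  have hdir : Directed (· ⊇ ·) fun p : ι => ES q (Pa N p.1.1) n (Z p) := by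
    intro p r
    obtain ⟨c, hc, i, j, hi, hj⟩ := h.exists_gen p.2.1 r.2.1
    have hcN : c ∉ N := by
      intro hcN
      refine hnotin p ?_
      have e : p.1.1 = (p.1.1 * (c ^ i)⁻¹) * c ^ i := by group
      rw [e]
      exact N.mul_mem hi (N.zpow_mem hcN i)
    have hpow : ∀ (x : Γ) (i k : ℤ), x ∈ G → x * (c ^ i)⁻¹ ∈ N → x ^ k * (c ^ (i * k))⁻¹ ∈ N := by
      intro x i k hx hxi
      have := h.normal
      have h1 : (QuotientGroup.mk (⟨x, hx⟩ : G) : G ⧸ N.subgroupOf G) =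
          QuotientGroup.mk ((⟨c, hc⟩ : G) ^ i) := by
        rw [QuotientGroup.eq_iff_div_mem, Subgroup.mem_subgroupOf]
        simpa [div_eq_mul_inv] using hxi
      have h2 : (QuotientGroup.mk ((⟨x, hx⟩ : G) ^ k) : G ⧸ N.subgroupOf G) =
          QuotientGroup.mk ((⟨c, hc⟩ : G) ^ (i * k)) := by
        rw [QuotientGroup.mk_zpow, h1, QuotientGroup.mk_zpow, QuotientGroup.mk_zpow, zpow_mul]
      rw [QuotientGroup.eq_iff_div_mem, Subgroup.mem_subgroupOf] at h2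
      simpa [div_eq_mul_inv] using h2
    have hik : a₀ * (c ^ (i * p.1.2))⁻¹ ∈ N := by
      have h1 := N.mul_mem p.2.2 (hpow p.1.1 i p.1.2 p.2.1 hi)
      have e : a₀ * (p.1.1 ^ p.1.2)⁻¹ * (p.1.1 ^ p.1.2 * (c ^ (i * p.1.2))⁻¹) =
        a₀ * (c ^ (i * p.1.2))⁻¹ := by group
      rwa [e] at h1
    have hjl : a₀ * (c ^ (j * r.1.2))⁻¹ ∈ N := by
      have h1 := N.mul_mem r.2.2 (hpow r.1.1 j r.1.2 r.2.1 hj)
      have e : a₀ * (r.1.1 ^ r.1.2)⁻¹ * (r.1.1 ^ r.1.2 * (c ^ (j * r.1.2))⁻¹) =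
        a₀ * (c ^ (j * r.1.2))⁻¹ := by group
      rwa [e] at h1
    have heq : i * p.1.2 = j * r.1.2 := by
      by_contra hne
      have h1 : c ^ (i * p.1.2 - j * r.1.2) ∈ N := by
        have h2 := N.mul_mem (N.inv_mem hik) hjl
        have e : (a₀ * (c ^ (i * p.1.2))⁻¹)⁻¹ * (a₀ * (c ^ (j * r.1.2))⁻¹) =
          c ^ (i * p.1.2 - j * r.1.2) := by group
        rwa [e] at h2
      have h0 : i * p.1.2 - j * r.1.2 ≠ 0 := sub_ne_zero.2 hne
      refine hcN (h.tf c hc (i * p.1.2 - j * r.1.2).natAbs (Int.natAbs_ne_zero.2 h0) ?_)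
      rcases Int.natAbs_eq (i * p.1.2 - j * r.1.2) with e | e
      · rw [e, zpow_natCast] at h1
        exact h1
      · rw [e, zpow_neg, zpow_natCast] at h1
        exact (Subgroup.inv_mem_iff N).1 h1
    refine ⟨⟨(c, i * p.1.2), hc, hik⟩, ?_, ?_⟩
    · exact ES_subset (Pa_le_Pa hi) (hcomp p ⟨(c, i * p.1.2), hc, hik⟩ i hi rfl) (hZ0 _) (hZ0 _)
    · exact ES_subset (Pa_le_Pa hj) (hcomp r ⟨(c, i * p.1.2), hc, hik⟩ j hj heq) (hZ0 _) (hZ0 _)
  have hne : Nonempty ι := ⟨⟨(a₀, 1), ha₀, by simp⟩⟩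
  obtain ⟨z, hz⟩ := IsCompact.nonempty_iInter_of_directed_nonempty_isCompact_isClosed
    (fun p : ι => ES q (Pa N p.1.1) n (Z p)) hdir (fun p => nonempty_ES _ _ _)
    (fun p => isCompact_ES _ _ _) (fun p => (isCompact_ES _ _ _).isClosed)
  rw [Set.mem_iInter] at hz
  -- invariance of the local solutions
  have hZi : ∀ p : ι, InvS (Pa N p.1.1) (Z p) := by
    intro p
    have hp := hy p.1.1 p.2.1 (hnotin p)
    refine invS_sup (((hp.1.comp (((p.1.2 : ℤ) : ZMod q)⁻¹ * ·)).dc).cut _) (invS_zpowers ?_)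
    refine cut_tr_eq fun l hl => ?_
    rw [tr_dc]
    have h1 : dc (tr p.1.1 fun l => ((p.1.2 : ℤ) : ZMod q)⁻¹ * y p.1.1 l) l =
        dc (fun l => ((p.1.2 : ℤ) : ZMod q)⁻¹ * y p.1.1 l + ((p.1.2 : ℤ) : ZMod q)⁻¹ * w l) l := by
      refine dc_congr (n := n + 1) (fun l' hl' => ?_) hl
      have hl'' : l' ≠ [] := by
        rintro rfl
        simp at hl'
      have h2 := hp.2 l' hl''
      rw [← h2, tr_apply, tr_apply]
      ring
    rw [h1, dc_add, dc_smul _ w, hw.2 l hl, mul_zero, add_zero]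
  have hzi : ∀ p : ι, InvS (Pa N p.1.1) z := by
    intro p
    obtain ⟨g, hg, he⟩ := hz p
    rw [← he]
    exact (hZi p).add (InvS.cut (InvS.dc hg) _)
  have hz0 : ∀ p : ι, ∃ g : List Γ → ZMod q, InvS (Pa N p.1.1) g ∧
      ∀ l : List Γ, l.length = n + 2 → z l = dc (fun l => ((p.1.2 : ℤ) : ZMod q)⁻¹ * y p.1.1 l) l
        + dc g l := by
    intro p
    obtain ⟨g, hg, he⟩ := hz p
    refine ⟨g, hg, fun l hl => ?_⟩
    rw [← he]
    simp only [Z, cut_of hl]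
  refine ⟨z, ⟨?_, ?_⟩, ?_⟩
  · intro s hs l
    obtain ⟨c, hc, i, j, hi, hj⟩ := h.exists_gen hs ha₀
    have hm : s ∈ Pa N c := by
      have e : s = (s * (c ^ i)⁻¹) * c ^ i := by group
      rw [e]
      exact Subgroup.mul_mem _ (le_Pa N c hi) (Subgroup.zpow_mem _ (mem_Pa_self N c) i)
    exact hzi ⟨(c, j), hc, hj⟩ s hm l
  · intro l hl
    obtain ⟨g, hg, he⟩ := hz0 ⟨(a₀, 1), ha₀, by simp⟩
    rw [dc_congr (n := n + 2) he (by simpa using hl), dc_add, dc_dc, dc_dc, add_zero]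
  · intro hex
    obtain ⟨g, hg, he⟩ := hz0 ⟨(a₀, 1), ha₀, by simp⟩
    obtain ⟨y', hy', he'⟩ := exS_succ.1 hex
    have hp := hy a₀ ha₀ ha₀N
    simp only [Int.cast_one, inv_one, one_mul] at he
    have hy1 : CocS q N n fun l => y a₀ l + (g l - y' l) := by
      refine ⟨hp.1.add ((hg.mono (le_Pa N a₀)).sub (hy'.mono h.le)), fun l hl => ?_⟩
      rw [dc_add, dc_sub, ← he' l hl, he l hl]
      abel
    refine hwex ((hT a₀ ha₀ _ hy1).congr fun l hl => ?_)
    have hl' : l ≠ [] := by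
      rintro rfl
      simp at hl
    have h2 := hp.2 l hl'
    have h3 : tr a₀ g l = g l := congrFun (hg.tr_eq (mem_Pa_self N a₀)) l
    have h4 : tr a₀ y' l = y' l := congrFun (hy'.tr_eq ha₀) l
    have h5 : tr a₀ (fun l => y a₀ l + (g l - y' l)) l = tr a₀ (y a₀) l + (tr a₀ g l - tr a₀ y' l) :=
      rfl
    rw [h5, h3, h4, ← h2]
    abel

end R4

end Vale.Agent.P260.LM
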