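import Vale.Agent.P260.LM.Wang

/-!
P260, last mile: block R5, the action on the top class.
-/

namespace Vale.Agent.P260.LM

open scoped commutatorElement

/-- Block R5 from the glueing lemma and the restriction lemma. -/
theorem blockR5_of
    (glue : ∀ (Γ : Type) [Group Γ] (q : ℕ) [Fact q.Prime] (N G : Subgroup Γ), RankOne N G →
      ∀ (n : ℕ) (z : List Γ → ZMod q), (∀ a ∈ G, a ∉ N → ExS q (Pa N a) n z) → ExS q G n z)
    (w3 : ∀ (Γ : Type) [Group Γ] (q : ℕ) [Fact q.Prime] (N G : Subgroup Γ), RankOne N G →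
      ∀ (n : ℕ) (a : Γ) (Y : List Γ → ZMod q), a ∈ G → a ∉ N → InvS N Y →
        ExS q N n (fun l => tr a Y l - Y l) → ExS q (Pa N a) (n + 1) (dc Y)) : BlockR5 := by
  intro Γ _ q _ N G M h hGM hMN hMG n htriv hvan g hg z hz
  obtain ⟨y, hy, hzy⟩ := exS_succ.1 (hvan z (hz.mono h.le))
  have hnz : ∀ x ∈ M, Nz N x := by
    intro x hx s hs
    have := hMN x⁻¹ (M.inv_mem hx) s hs
    rwa [inv_inv] at this
  refine glue Γ q N G h (n + 1) _ fun a ha ha' => ?_
  -- the function `Y`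
  have hY : InvS N fun l => tr g y l - y l := (hy.tr (hnz g hg)).sub hy
  have hua : InvS N fun l => tr a y l - y l := (hy.tr (hnz a (hGM ha))).sub hy
  have hu : CocS q N n fun l => tr a y l - y l := by
    refine ⟨hua, fun l hl => ?_⟩
    have h1 : dc (fun l => tr a y l - y l) l = tr a (dc y) l - dc y l := by
      rw [dc_sub, tr_dc]
    have h7 : z (l.map (a⁻¹ * ·)) = z l := congrFun (hz.1.tr_eq ha) l
    rw [h1, tr_apply, ← hzy l hl, ← hzy _ (by simpa using hl), h7, sub_self]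
  have h2 := htriv g hg _ hu
  have h3 := w3 Γ q N G h n a (fun l => tr g y l - y l) ha ha' hY
    (h2.congr fun l _ => by
      have hn0 : a⁻¹ * g⁻¹ * a * g ∈ N := by
        have h4 := N.inv_mem (hMG g⁻¹ (M.inv_mem hg) a⁻¹ (G.inv_mem ha))
        have e : (⁅g⁻¹, a⁻¹⁆)⁻¹ = a⁻¹ * g⁻¹ * a * g := by
          rw [commutatorElement_def]
          group
        rwa [e] at h4
      have h5 : tr a (tr g y) = tr g (tr a y) := by
        have e : a * g = g * a * (a⁻¹ * g⁻¹ * a * g) := by group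
        rw [tr_tr, e, ← tr_tr, hy.tr_eq hn0, tr_tr]
      have h6 : ∀ (x : Γ) (f₁ f₂ : List Γ → ZMod q) (l : List Γ),
          tr x (fun l => f₁ l - f₂ l) l = tr x f₁ l - tr x f₂ l := fun _ _ _ _ => rfl
      rw [h6, h6, h5]
      ring)
  refine h3.congr fun l hl => ?_
  rw [dc_sub, ← tr_dc, tr_apply, tr_apply, hzy l hl, hzy _ (by simpa using hl)]

/-- **Block R5.** -/
theorem blockR5 : BlockR5 :=
  blockR5_of
    (fun _ _ _ hq _ _ h _ _ hz => by
      have : NeZero _ := ⟨hq.out.ne_zero⟩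
      exact glue h hz)
    (fun _ _ _ _ _ _ h _ _ _ ha ha' hY he => exS_dc_of_tr h ha ha' hY he)

end Vale.Agent.P260.LM
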