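import Vale.Agent.P260.LM.End
import Vale.Agent.P260.LM.R1
import Vale.Agent.P260.LM.R3
import Vale.Agent.P260.LM.R4
import Vale.Agent.P260.LM.R5
import Vale.Agent.P260.LM.K
import Vale.Agent.P260.LM.C
import Vale.Agent.P260.LM.A
import Vale.Agent.P260.LM.B
import Vale.Agent.P260.LM.M

/-!
P260, last mile: the cohomological blocks put together.
-/

namespace Vale.Agent.P260.LM

theorem blockR4 : BlockR4 :=
  R4.blockR4_of (fun _ _ _ _ _ h _ ha ha' v hv => exists_tr_sub h ha ha' v hv)
    fun _ _ _ _ _ h _ ha ha' _ _ hY he => exS_dc_of_tr h ha ha' hY he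

theorem blockA : BlockA := blockA_of blockR1 blockR2 blockR3

theorem blockB : BlockB := blockB_of blockA blockK blockR4 blockR5

theorem blockM : BlockM := blockM_of blockA blockR4 blockR5

/-- What remains are the blocks S and G on solvable groups. -/
theorem main5_of' (hS : BlockS) (hG : BlockG) : Main5 :=
  main5_of blockA blockB blockK blockM hS hG blockC

end Vale.Agent.P260.LM
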