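import Mathlib

/-!
P260, last mile, block G, part 1 (helper701): nilpotent groups whose abelianization is
finitely generated up to `m`-power roots.
-/

namespace Vale.Agent.P260.LM.BG

open scoped commutatorElement

section fgcomm

variable {G : Type} [Group G]

theorem fg_map {G Q : Type} [Group G] [Group Q] (φ : G →* Q) {E : Subgroup G} (hE : E.FG) :
    (E.map φ).FG := by
  classical
  obtain ⟨S, rfl⟩ := hE
  exact ⟨S.image φ, by rw [MonoidHom.map_closure, Finset.coe_image]⟩

/-- subgroups of finitely generated commutative groups are finitely generated -/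
theorem fg_of_comm_fg (A : Type) [CommGroup A] (hA : Group.FG A) (H : Subgroup A) : H.FG := by
  have h1 : AddGroup.FG (Additive A) := by
    rw [← GroupFG.iff_add_fg]; exact hA
  have h2 : Module.Finite ℤ (Additive A) := by
    rw [Module.Finite.iff_addGroup_fg]; exact h1
  have h3 : IsNoetherian ℤ (Additive A) := inferInstance
  have h4 := IsNoetherian.noetherian (AddSubgroup.toIntSubmodule (Subgroup.toAddSubgroup H))
  rw [Submodule.fg_iff_addSubgroup_fg] at h4
  rw [Subgroup.fg_iff_add_fg]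
  exact h4

theorem fg_of_le_comm {H K : Subgroup G} (hK : K.FG) (hc : ∀ x ∈ K, ∀ y ∈ K, x * y = y * x)
    (h : H ≤ K) : H.FG := by
  let _ : CommGroup K :=
    { (inferInstance : Group K) with mul_comm := fun a b => Subtype.ext (hc a a.2 b b.2) }
  have h1 : Group.FG K := (Group.fg_iff_subgroup_fg K).2 hK
  have h2 : (H.subgroupOf K).FG := fg_of_comm_fg K h1 _
  have h3 : ((H.subgroupOf K).map K.subtype).FG := fg_map _ h2
  rwa [Subgroup.subgroupOf_map_subtype, inf_eq_left.2 h] at h3

end fgcomm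

/-- `A` is finitely generated up to `m`-power roots. -/
def Bd {G : Type} [Group G] (m : ℕ) (A : Subgroup G) : Prop :=
  ∃ E : Subgroup G, E.FG ∧ E ≤ A ∧ ∀ x ∈ A, ∃ n : ℕ, x ^ (m ^ n) ∈ E

theorem exists_lift_fg {G Q : Type} [Group G] [Group Q] (φ : G →* Q) (A : Subgroup G)
    {E : Subgroup Q} (hE : E.FG) (h : E ≤ A.map φ) :
    ∃ E' : Subgroup G, E'.FG ∧ E' ≤ A ∧ E'.map φ = E := by
  classical
  obtain ⟨S, rfl⟩ := hE
  have h1 : (S : Set Q) ⊆ φ '' (A : Set G) := by
    intro x hx
    exact h (Subgroup.subset_closure hx)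
  obtain ⟨S', hS', rfl⟩ := Finset.subset_set_image_iff.1 h1
  refine ⟨Subgroup.closure (S' : Set G), ⟨S', rfl⟩, (Subgroup.closure_le _).2 hS', ?_⟩
  rw [MonoidHom.map_closure, Finset.coe_image]

/-- central extensions -/
theorem bd_central {G Q : Type} [Group G] [Group Q] (m : ℕ) (φ : G →* Q)
    (hz : φ.ker ≤ Subgroup.center G) (hQ : ∀ A : Subgroup Q, Bd m A) (hk : Bd m φ.ker)
    (A : Subgroup G) : Bd m A := by
  obtain ⟨E, hE, hEA, hx⟩ := hQ (A.map φ)
  obtain ⟨E', hE', hEA', hmap⟩ := exists_lift_fg φ A hE hEA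
  obtain ⟨Z, hZ, hZk, hxZ⟩ := hk
  have hZc : ∀ x ∈ Z, ∀ y ∈ Z, x * y = y * x := by
    intro x hx y _
    exact ((Subgroup.mem_center_iff.1 (hz (hZk hx))) y).symm
  have hAZ : (A ⊓ Z).FG := fg_of_le_comm hZ hZc inf_le_right
  refine ⟨E' ⊔ (A ⊓ Z), hE'.sup hAZ, sup_le hEA' inf_le_left, ?_⟩
  intro x hxA
  obtain ⟨n, hn⟩ := hx (φ x) (Subgroup.mem_map_of_mem φ hxA)
  rw [← hmap, ← map_pow] at hn
  obtain ⟨e, he, hex⟩ := Subgroup.mem_map.1 hn
  set z := e⁻¹ * x ^ (m ^ n) with hzdef
  have hzk : z ∈ φ.ker := by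
    rw [MonoidHom.mem_ker, hzdef, map_mul, map_inv, hex, inv_mul_cancel]
  have hzA : z ∈ A := A.mul_mem (A.inv_mem (hEA' he)) (A.pow_mem hxA _)
  obtain ⟨n', hn'⟩ := hxZ z hzk
  refine ⟨n + n', ?_⟩
  have h1 : x ^ (m ^ (n + n')) = e ^ (m ^ n') * z ^ (m ^ n') := by
    have hcomm : Commute e z := (Subgroup.mem_center_iff.1 (hz hzk)) e
    rw [← hcomm.mul_pow, hzdef, mul_inv_cancel_left, ← pow_mul, pow_add]
  rw [h1]
  refine Subgroup.mul_mem _ ?_ ?_
  · exact (le_sup_left : E' ≤ _) (E'.pow_mem he _)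
  · exact (le_sup_right : A ⊓ Z ≤ _) ⟨A.pow_mem hzA _, hn'⟩

/-- `{x | some x ^ (m ^ n) ∈ E}` for a commutative group -/
def rootsSub (m : ℕ) {V : Type} [CommGroup V] (E : Subgroup V) : Subgroup V where
  carrier := {v | ∃ n : ℕ, v ^ (m ^ n) ∈ E}
  one_mem' := ⟨0, by simp [E.one_mem]⟩
  mul_mem' := by
    rintro a b ⟨n, hn⟩ ⟨n', hn'⟩
    refine ⟨n + n', ?_⟩
    rw [mul_pow]
    refine E.mul_mem ?_ ?_
    · rw [pow_add, pow_mul]
      exact E.pow_mem hn _
    · rw [pow_add, mul_comm, pow_mul]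
      exact E.pow_mem hn' _
  inv_mem' := by
    rintro a ⟨n, hn⟩
    exact ⟨n, by rw [inv_pow]; exact E.inv_mem hn⟩

theorem mem_rootsSub {m : ℕ} {V : Type} [CommGroup V] {E : Subgroup V} {v : V} :
    v ∈ rootsSub m E ↔ ∃ n : ℕ, v ^ (m ^ n) ∈ E := Iff.rfl

section bracket

variable {G : Type} [Group G]

/-- `x ↦ ⁅x, y⁆` is a homomorphism on `L` if `⁅L, G⁆` is central -/
def brL (L : Subgroup G) (hL : ∀ x ∈ L, ∀ y : G, ⁅x, y⁆ ∈ Subgroup.center G) (y : G) :
    L →* G where
  toFun x := ⁅(x : G), y⁆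
  map_one' := by simp
  map_mul' := by
    intro a b
    have h := Subgroup.mem_center_iff.1 (hL b b.2 y)
    have e : ⁅((a * b : L) : G), y⁆ = (a : G) * ⁅(b : G), y⁆ * (a : G)⁻¹ * ⁅(a : G), y⁆ := by
      simp only [commutatorElement_def, Subgroup.coe_mul]
      group
    rw [e, h a, mul_inv_cancel_right, h ⁅(a : G), y⁆]

/-- `y ↦ ⁅x, y⁆` is a homomorphism if `⁅x, G⁆` is central -/
def brR (x : G) (hx : ∀ y : G, ⁅x, y⁆ ∈ Subgroup.center G) : G →* G where
  toFun y := ⁅x, y⁆
  map_one' := by simp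
  map_mul' := by
    intro a b
    have h := Subgroup.mem_center_iff.1 (hx b)
    have e : ⁅x, a * b⁆ = ⁅x, a⁆ * (a * ⁅x, b⁆ * a⁻¹) := by
      simp only [commutatorElement_def]
      group
    rw [e, h a, mul_inv_cancel_right]

end bracket

/-- Nilpotent groups: everything is finitely generated up to `m`-power roots if the
abelianization is. -/
theorem bd_nilpotent (m : ℕ) : ∀ (c : ℕ) (G : Type) [Group G],
    (⊤ : Subgroup G).lowerCentralSeries c = ⊥ →
    (∃ E : Subgroup G, E.FG ∧ ∀ x : G, ∃ n : ℕ, ∃ e ∈ E, e⁻¹ * x ^ (m ^ n) ∈ commutator G) →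
    ∀ A : Subgroup G, Bd m A := by
  intro c
  induction c with
  | zero =>
    intro G _ h _ A
    rw [Subgroup.lowerCentralSeries_zero] at h
    have hs : ∀ x : G, x = 1 := fun x => by
      have : x ∈ (⊤ : Subgroup G) := trivial
      rwa [h, Subgroup.mem_bot] at this
    refine ⟨⊥, Subgroup.FG.bot, bot_le, fun x _ => ⟨0, ?_⟩⟩
    rw [Subgroup.mem_bot]
    exact hs _
  | succ c ih =>
    intro G _ h hab A
    rcases Nat.eq_zero_or_pos c with rfl | hc
    · -- commutative
      rw [Subgroup.top_lowerCentralSeries_one] at h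
      obtain ⟨E, hE, hx⟩ := hab
      have hcomm : ∀ x y : G, x * y = y * x := by
        intro x y
        have h1 : ⁅x, y⁆ ∈ commutator G :=
          Subgroup.commutator_mem_commutator (Subgroup.mem_top x) (Subgroup.mem_top y)
        rw [h, Subgroup.mem_bot, commutatorElement_eq_one_iff_mul_comm] at h1
        exact h1
      refine ⟨A ⊓ E, fg_of_le_comm hE (fun x _ y _ => hcomm x y) inf_le_right, inf_le_left, ?_⟩
      intro x hxA
      obtain ⟨n, e, he, hn⟩ := hx x
      rw [h, Subgroup.mem_bot, inv_mul_eq_one] at hn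
      exact ⟨n, A.pow_mem hxA _, hn ▸ he⟩
    · obtain ⟨d, rfl⟩ : ∃ d, c = d + 1 := ⟨c - 1, by omega⟩
      set Z : Subgroup G := (⊤ : Subgroup G).lowerCentralSeries (d + 1) with hZdef
      have hZc : Z ≤ Subgroup.center G := by
        intro z hz
        rw [Subgroup.mem_center_iff]
        intro g
        have h1 : ⁅z, g⁆ ∈ (⊤ : Subgroup G).lowerCentralSeries (d + 1 + 1) := by
          rw [Subgroup.lowerCentralSeries_succ]
          exact Subgroup.commutator_mem_commutator hz (Subgroup.mem_top g)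
        rw [h, Subgroup.mem_bot, commutatorElement_eq_one_iff_mul_comm] at h1
        exact h1.symm
      have hZn : Z.Normal := by rw [hZdef]; infer_instance
      set φ : G →* G ⧸ Z := QuotientGroup.mk' Z with hφ
      have hker : φ.ker = Z := QuotientGroup.ker_mk' Z
      -- induction hypothesis for the quotient
      have hquot : ∀ A' : Subgroup (G ⧸ Z), Bd m A' := by
        refine ih (G ⧸ Z) ?_ ?_
        · have h1 := Subgroup.map_lowerCentralSeries (⊤ : Subgroup G) φ (d + 1)
          have h2 : (⊤ : Subgroup G).map φ = ⊤ := by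
            rw [← MonoidHom.range_eq_map, MonoidHom.range_eq_top]
            exact QuotientGroup.mk'_surjective Z
          rw [h2] at h1
          rw [← h1, eq_bot_iff]
          rintro _ ⟨z, hz, rfl⟩
          rw [Subgroup.mem_bot, ← MonoidHom.mem_ker, hker]
          exact hz
        · obtain ⟨E, hE, hx⟩ := hab
          refine ⟨E.map φ, fg_map φ hE, ?_⟩
          intro y
          obtain ⟨x, rfl⟩ := QuotientGroup.mk'_surjective Z y
          obtain ⟨n, e, he, hn⟩ := hx x
          refine ⟨n, φ e, Subgroup.mem_map_of_mem φ he, ?_⟩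
          have h1 : φ (e⁻¹ * x ^ (m ^ n)) ∈ (commutator G).map φ :=
            Subgroup.mem_map_of_mem φ hn
          rw [map_mul, map_inv, map_pow] at h1
          rw [commutator_def, Subgroup.map_commutator] at h1
          exact Subgroup.commutator_mono le_top le_top h1
      set L : Subgroup G := (⊤ : Subgroup G).lowerCentralSeries d with hLdef
      have hLZ : ∀ x ∈ L, ∀ y : G, ⁅x, y⁆ ∈ Z := by
        intro x hx y
        rw [hZdef, Subgroup.lowerCentralSeries_succ]
        exact Subgroup.commutator_mem_commutator hx (Subgroup.mem_top y)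
      have hLc : ∀ x ∈ L, ∀ y : G, ⁅x, y⁆ ∈ Subgroup.center G := fun x hx y =>
        hZc (hLZ x hx y)
      refine bd_central m φ (hker.trans_le hZc) hquot ?_ A
      rw [hker]
      -- the commutator pairing
      obtain ⟨E1, hE1, hE1L, hx1⟩ := hquot (L.map φ)
      obtain ⟨F1, hF1, hF1L, hm1⟩ := exists_lift_fg φ L hE1 hE1L
      obtain ⟨E0, hE0, hE0t, hx0⟩ := hquot ⊤
      have hE0t' : E0 ≤ (⊤ : Subgroup G).map φ := by
        rw [← MonoidHom.range_eq_map, MonoidHom.range_eq_top.2 (QuotientGroup.mk'_surjective Z)]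
        exact le_top
      obtain ⟨F0, hF0, -, hm0⟩ := exists_lift_fg φ ⊤ hE0 hE0t'
      obtain ⟨S1, hS1⟩ := hF1
      obtain ⟨S0, hS0⟩ := hF0
      classical
      let EZ : Subgroup G := Subgroup.closure
        (((S1 ×ˢ S0).image fun p => ⁅p.1, p.2⁆ : Finset G) : Set G)
      have hmemEZ : ∀ a ∈ S1, ∀ b ∈ S0, ⁅a, b⁆ ∈ EZ := by
        intro a ha b hb
        refine Subgroup.subset_closure ?_
        rw [Finset.mem_coe, Finset.mem_image]
        exact ⟨(a, b), Finset.mem_product.2 ⟨ha, hb⟩, rfl⟩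
      have hS1L : ∀ a ∈ S1, a ∈ L := fun a ha => hF1L (hS1 ▸ Subgroup.subset_closure ha)
      have hbr1 : ∀ a ∈ S1, ∀ y ∈ F0, ⁅a, y⁆ ∈ EZ := by
        intro a ha y hy
        have h1 : F0 ≤ EZ.comap (brR a (hLc a (hS1L a ha))) := by
          rw [← hS0, Subgroup.closure_le]
          intro b hb
          exact hmemEZ a ha b hb
        exact h1 hy
      have hbr2 : ∀ x ∈ F1, ∀ y ∈ F0, ⁅x, y⁆ ∈ EZ := by
        intro x hx y hy
        have h1 : F1 ≤ (EZ.comap (brL L hLc y)).map L.subtype := by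
          rw [← hS1, Subgroup.closure_le]
          intro a ha
          exact ⟨⟨a, hS1L a ha⟩, hbr1 a ha y hy, rfl⟩
        obtain ⟨x', hx', rfl⟩ := h1 hx
        exact hx'
      refine ⟨EZ, ⟨_, rfl⟩, ?_, ?_⟩
      · rw [Subgroup.closure_le]
        intro z hz
        rw [Finset.mem_coe, Finset.mem_image] at hz
        obtain ⟨p, hp, rfl⟩ := hz
        exact hLZ p.1 (hS1L _ (Finset.mem_product.1 hp).1) _
      · -- the set of `z ∈ Z` with a power in `EZ` is a subgroup
        have hcenter : ∀ x : G, ∀ k : ℕ, ∀ y : G, x ∈ Subgroup.center G →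
            (x * y) ^ k = x ^ k * y ^ k := by
          intro x k y hx
          exact Commute.mul_pow ((Subgroup.mem_center_iff.1 hx) y).symm k
        let R : Subgroup G :=
          { carrier := {z | z ∈ Z ∧ ∃ n : ℕ, z ^ (m ^ n) ∈ EZ}
            one_mem' := ⟨Z.one_mem, 0, by rw [one_pow]; exact EZ.one_mem⟩
            mul_mem' := by
              rintro a b ⟨ha, n, hn⟩ ⟨hb, n', hn'⟩
              refine ⟨Z.mul_mem ha hb, n + n', ?_⟩
              rw [hcenter a _ b (hZc ha)]
              refine EZ.mul_mem ?_ ?_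
              · rw [pow_add, pow_mul]
                exact EZ.pow_mem hn _
              · rw [pow_add, mul_comm, pow_mul]
                exact EZ.pow_mem hn' _
            inv_mem' := by
              rintro a ⟨ha, n, hn⟩
              exact ⟨Z.inv_mem ha, n, by rw [inv_pow]; exact EZ.inv_mem hn⟩ }
        have hZR : Z ≤ R := by
          rw [hZdef, Subgroup.lowerCentralSeries_succ, Subgroup.commutator_le]
          intro x hx y _
          refine ⟨hLZ x hx y, ?_⟩
          obtain ⟨n, hn⟩ := hx1 (φ x) (Subgroup.mem_map_of_mem φ hx)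
          rw [← hm1, ← map_pow] at hn
          obtain ⟨e, he, hex⟩ := Subgroup.mem_map.1 hn
          obtain ⟨n', hn'⟩ := hx0 (φ y) (Subgroup.mem_top _)
          rw [← hm0, ← map_pow] at hn'
          obtain ⟨e', he', hey⟩ := Subgroup.mem_map.1 hn'
          refine ⟨n + n', ?_⟩
          have hz1 : e⁻¹ * x ^ (m ^ n) ∈ Z := by
            rw [← hker, MonoidHom.mem_ker, map_mul, map_inv, hex, inv_mul_cancel]
          have hz2 : e'⁻¹ * y ^ (m ^ n') ∈ Z := by
            rw [← hker, MonoidHom.mem_ker, map_mul, map_inv, hey, inv_mul_cancel]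
          have hkill : ∀ (u v z : G), z ∈ Z → ⁅u * z, v⁆ = ⁅u, v⁆ := by
            intro u v z hz
            have := Subgroup.mem_center_iff.1 (hZc hz)
            have h1 : z * v * z⁻¹ = v := by rw [← this v, mul_inv_cancel_right]
            calc ⁅u * z, v⁆ = u * (z * v * z⁻¹) * u⁻¹ * v⁻¹ := by
                  rw [commutatorElement_def]; group
              _ = ⁅u, v⁆ := by rw [h1, commutatorElement_def]
          have hkill' : ∀ (u v z : G), z ∈ Z → ⁅u, v * z⁆ = ⁅u, v⁆ := by
            intro u v z hz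
            have := Subgroup.mem_center_iff.1 (hZc hz)
            have h1 : z * u⁻¹ * z⁻¹ = u⁻¹ := by rw [← this u⁻¹, mul_inv_cancel_right]
            calc ⁅u, v * z⁆ = u * v * (z * u⁻¹ * z⁻¹) * v⁻¹ := by
                  rw [commutatorElement_def]; group
              _ = ⁅u, v⁆ := by rw [h1, commutatorElement_def]
          have e1 : ⁅x, y⁆ ^ (m ^ n) = ⁅e, y⁆ := by
            have h1 := (map_pow (brL L hLc y) ⟨x, hx⟩ (m ^ n)).symm
            change ⁅x, y⁆ ^ (m ^ n) = ⁅x ^ (m ^ n), y⁆ at h1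
            rw [h1]
            have h2 : x ^ (m ^ n) = e * (e⁻¹ * x ^ (m ^ n)) := by group
            rw [h2, hkill _ _ _ hz1]
          have e2 : ⁅e, y⁆ ^ (m ^ n') = ⁅e, e'⁆ := by
            have h1 := (map_pow (brR e (hLc e (hF1L he))) y (m ^ n')).symm
            change ⁅e, y⁆ ^ (m ^ n') = ⁅e, y ^ (m ^ n')⁆ at h1
            rw [h1]
            have h2 : y ^ (m ^ n') = e' * (e'⁻¹ * y ^ (m ^ n')) := by group
            rw [h2, hkill' _ _ _ hz2]
          rw [pow_add, pow_mul, e1, e2]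
          exact hbr2 e he e' he'
        intro z hz
        exact (hZR hz).2

end Vale.Agent.P260.LM.BG
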