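import Vale.Agent.P260.LM.Rk
import Vale.Agent.P260.LM.G1

/-!
P260, last mile, block G (helper701): all the rank one factors are `ℤ[1/m]`-bounded.
-/

namespace Vale.Agent.P260.LM

open scoped commutatorElement

namespace BG

variable {Γ : Type} [Group Γ]

/-- `G` is generated, as a subgroup normalised by `K`, by a finite set. -/
def NFG (K G : Subgroup Γ) : Prop :=
  ∃ F : Finset Γ, (∀ x ∈ F, x ∈ G) ∧ ∀ H : Subgroup Γ,
    (∀ x ∈ K, ∀ y ∈ H, x * y * x⁻¹ ∈ H) → (∀ x ∈ F, x ∈ H) → G ≤ H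

theorem mem_Pa {N G : Subgroup Γ} (h : RankOne N G) {c x : Γ} (hc : c ∈ G) (hx : x ∈ Pa N c) :
    ∃ e : ℤ, x * c ^ e ∈ N := by
  let P : Subgroup Γ :=
    { carrier := {x | ∃ e : ℤ, x * c ^ e ∈ N}
      one_mem' := ⟨0, by simp [N.one_mem]⟩
      mul_mem' := by
        rintro a b ⟨e, he⟩ ⟨e', he'⟩
        refine ⟨e' + e, ?_⟩
        have h1 : a * b * c ^ (e' + e) = (a * c ^ e) * ((c ^ e)⁻¹ * (b * c ^ e') * c ^ e) := by
          rw [zpow_add]; group
        rw [h1]
        exact N.mul_mem he (h.conj' (G.zpow_mem hc e) he')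
      inv_mem' := by
        rintro a ⟨e, he⟩
        refine ⟨-e, ?_⟩
        have h1 : a⁻¹ * c ^ (-e) = c ^ e * (a * c ^ e)⁻¹ * (c ^ e)⁻¹ := by
          rw [zpow_neg]; group
        rw [h1]
        exact h.conj (G.zpow_mem hc e) (N.inv_mem he) }
  have h1 : Pa N c ≤ P := by
    refine sup_le (fun n hn => ⟨0, by simpa using hn⟩) (Subgroup.zpowers_le.2 ⟨-1, ?_⟩)
    simp [N.one_mem]
  exact h1 hx

theorem exists_Pa_finset {N G : Subgroup Γ} (h : RankOne N G) (F : Finset Γ)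
    (hF : ∀ x ∈ F, x ∈ G) : ∃ c ∈ G, ∀ x ∈ F, x ∈ Pa N c := by
  classical
  induction F using Finset.induction_on with
  | empty => exact ⟨1, G.one_mem, fun x hx => absurd hx (Finset.notMem_empty x)⟩
  | insert a F _ ih =>
    obtain ⟨c, hc, hcF⟩ := ih fun x hx => hF x (Finset.mem_insert_of_mem hx)
    obtain ⟨c', hc', h1, h2⟩ := h.directed (hF a (Finset.mem_insert_self a F)) hc
    refine ⟨c', hc', fun x hx => ?_⟩
    rcases Finset.mem_insert.1 hx with rfl | hx
    · exact h1 (mem_Pa_self N x)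
    · exact h2 (hcF x hx)

/-- a normally finitely generated central factor of rank one is cyclic -/
theorem exists_cyclic {K N G : Subgroup Γ} (h : RankOne N G)
    (hc : ∀ x ∈ K, ∀ y ∈ G, ⁅x, y⁆ ∈ N) (hG : NFG K G) :
    ∃ a ∈ G, a ∉ N ∧ ∀ x ∈ G, ∃ e : ℤ, x * a ^ e ∈ N := by
  obtain ⟨F, hF, hgen⟩ := hG
  obtain ⟨c, hcG, hcF⟩ := exists_Pa_finset h F hF
  have hle : G ≤ Pa N c := by
    refine hgen _ ?_ hcF
    intro x hx y hy
    have hyG : y ∈ G := Pa_le h.le hcG hy
    have e : x * y * x⁻¹ = ⁅x, y⁆ * y := by rw [commutatorElement_def]; group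
    rw [e]
    exact Subgroup.mul_mem _ (le_Pa N c (hc x hx y hyG)) hy
  refine ⟨c, hcG, ?_, fun x hx => mem_Pa h hcG (hle hx)⟩
  intro hcN
  obtain ⟨x, hx, hxN⟩ := h.ne
  exact hxN ((Pa_le le_rfl hcN : Pa N c ≤ N) (hle hx))

/-- If `K = ⟨T⟩` and `H` is stable under conjugation by `T` and `T⁻¹`, it is normalised by
`K`. -/
theorem conj_of_gen {T : Set Γ} {H : Subgroup Γ}
    (h1 : ∀ g ∈ T, ∀ y ∈ H, g * y * g⁻¹ ∈ H) (h2 : ∀ g ∈ T, ∀ y ∈ H, g⁻¹ * y * g ∈ H) :
    ∀ x ∈ Subgroup.closure T, ∀ y ∈ H, x * y * x⁻¹ ∈ H := by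
  have key : ∀ x ∈ Subgroup.closure T, ∀ y ∈ H, x * y * x⁻¹ ∈ H ∧ x⁻¹ * y * x ∈ H := by
    intro x hx
    induction hx using Subgroup.closure_induction with
    | mem g hg => exact fun y hy => ⟨h1 g hg y hy, h2 g hg y hy⟩
    | one => intro y hy; simpa using hy
    | mul a b _ _ ha hb =>
      intro y hy
      constructor
      · have e : a * b * y * (a * b)⁻¹ = a * (b * y * b⁻¹) * a⁻¹ := by group
        rw [e]
        exact (ha _ (hb y hy).1).1
      · have e : (a * b)⁻¹ * y * (a * b) = b⁻¹ * (a⁻¹ * y * a) * b := by group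
        rw [e]
        exact (hb _ (ha y hy).2).2
    | inv a _ ha =>
      intro y hy
      rw [inv_inv]
      exact ⟨(ha y hy).2, (ha y hy).1⟩
  exact fun x hx y hy => (key x hx y hy).1

theorem nfg_of_fg {K : Subgroup Γ} (hK : K.FG) : NFG K K := by
  obtain ⟨T, hT⟩ := hK
  refine ⟨T, fun x hx => hT ▸ Subgroup.subset_closure hx, fun H _ hH => ?_⟩
  rw [← hT, Subgroup.closure_le]
  exact fun x hx => hH x hx

/-- descending step: `N` is normally finitely generated if `G` is -/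
theorem nfg_step {K N G : Subgroup Γ} (hK : K.FG) (hGK : G ≤ K) (h : RankOne N G)
    (hc : ∀ x ∈ K, ∀ y ∈ G, ⁅x, y⁆ ∈ N) (hG : NFG K G) : NFG K N := by
  classical
  obtain ⟨a, haG, haN, hcyc⟩ := exists_cyclic h hc hG
  obtain ⟨F, hF, hgen⟩ := hG
  obtain ⟨T, hT⟩ := hK
  have hTK : ∀ g ∈ T, g ∈ K := fun g hg => hT ▸ Subgroup.subset_closure hg
  choose! e he using hcyc
  have hNK : ∀ x ∈ K, ∀ y ∈ N, x * y * x⁻¹ ∈ N := by
    intro x hx y hy
    have e : x * y * x⁻¹ = ⁅x, y⁆ * y := by rw [commutatorElement_def]; group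
    rw [e]
    exact N.mul_mem (hc x hx y (h.le hy)) hy
  refine ⟨F.image (fun f => f * a ^ e f) ∪ (T.image (fun g => ⁅g, a⁆) ∪
    T.image (fun g => ⁅g⁻¹, a⁆)), ?_, ?_⟩
  · intro x hx
    rcases Finset.mem_union.1 hx with hx | hx
    · obtain ⟨f, hf, rfl⟩ := Finset.mem_image.1 hx
      exact he f (hF f hf)
    · rcases Finset.mem_union.1 hx with hx | hx
      · obtain ⟨g, hg, rfl⟩ := Finset.mem_image.1 hx
        exact hc g (hTK g hg) a haG
      · obtain ⟨g, hg, rfl⟩ := Finset.mem_image.1 hx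
        exact hc g⁻¹ (K.inv_mem (hTK g hg)) a haG
  · intro H hH hFH
    have hF1 : ∀ f ∈ F, f * a ^ e f ∈ H ⊓ N := fun f hf =>
      ⟨hFH _ (Finset.mem_union_left _ (Finset.mem_image_of_mem _ hf)), he f (hF f hf)⟩
    have hT1 : ∀ g ∈ T, ⁅g, a⁆ ∈ H ⊓ N := fun g hg =>
      ⟨hFH _ (Finset.mem_union_right _ (Finset.mem_union_left _
        (Finset.mem_image_of_mem _ hg))), hc g (hTK g hg) a haG⟩
    have hT2 : ∀ g ∈ T, ⁅g⁻¹, a⁆ ∈ H ⊓ N := fun g hg =>
      ⟨hFH _ (Finset.mem_union_right _ (Finset.mem_union_right _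
        (Finset.mem_image_of_mem (fun g => ⁅g⁻¹, a⁆) hg))),
        hc g⁻¹ (K.inv_mem (hTK g hg)) a haG⟩
    have hH1 : ∀ x ∈ K, ∀ y ∈ H ⊓ N, x * y * x⁻¹ ∈ H ⊓ N := fun x hx y hy =>
      ⟨hH x hx y hy.1, hNK x hx y hy.2⟩
    set H1 : Subgroup Γ := H ⊓ N with hH1def
    have hak : ∀ n : ℤ, a ^ n ∈ K := fun n => K.zpow_mem (hGK haG) n
    let P : Subgroup Γ :=
      { carrier := {x | ∃ e : ℤ, x * a ^ e ∈ H1}
        one_mem' := ⟨0, by simp [H1.one_mem]⟩
        mul_mem' := by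
          rintro x y ⟨e, he⟩ ⟨e', he'⟩
          refine ⟨e' + e, ?_⟩
          have h1 : x * y * a ^ (e' + e)
              = (x * a ^ e) * (a ^ (-e) * (y * a ^ e') * (a ^ (-e))⁻¹) := by
            rw [zpow_add, zpow_neg]; group
          rw [h1]
          exact H1.mul_mem he (hH1 _ (hak _) _ he')
        inv_mem' := by
          rintro x ⟨e, he⟩
          refine ⟨-e, ?_⟩
          have h1 : x⁻¹ * a ^ (-e) = a ^ e * (x * a ^ e)⁻¹ * (a ^ e)⁻¹ := by
            rw [zpow_neg]; group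
          rw [h1]
          exact hH1 _ (hak _) _ (H1.inv_mem he) }
    have hH1P : H1 ≤ P := fun x hx => ⟨0, by simpa using hx⟩
    have haP : a ∈ P := ⟨-1, by simp [H1.one_mem]⟩
    have hconj : ∀ g ∈ K, ⁅g, a⁆ ∈ H1 → ∀ y ∈ P, g * y * g⁻¹ ∈ P := by
      rintro g hg hga y ⟨n, hn⟩
      have h1 : g * a * g⁻¹ ∈ P := by
        have e1 : g * a * g⁻¹ = ⁅g, a⁆ * a := by rw [commutatorElement_def]; group
        rw [e1]
        exact P.mul_mem (hH1P hga) haP
      have h2 : g * y * g⁻¹ = (g * (y * a ^ n) * g⁻¹) * (g * a * g⁻¹) ^ (-n) := by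
        have : (g * a * g⁻¹) ^ (-n) = g * a ^ (-n) * g⁻¹ := conj_zpow
        rw [this, zpow_neg]
        group
      rw [h2]
      exact P.mul_mem (hH1P (hH1 g hg _ hn)) (P.zpow_mem h1 _)
    have hle : G ≤ P := by
      refine hgen P ?_ fun f hf => ⟨e f, hF1 f hf⟩
      rw [← hT]
      refine conj_of_gen ?_ ?_
      · exact fun g hg y hy => hconj g (hTK g hg) (hT1 g hg) y hy
      · intro g hg y hy
        have := hconj g⁻¹ (K.inv_mem (hTK g hg)) (hT2 g hg) y hy
        rwa [inv_inv] at this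
    intro x hx
    obtain ⟨n, hn⟩ := hle (h.le hx)
    have h1 : a ^ n ∈ N := by
      have e1 : a ^ n = x⁻¹ * (x * a ^ n) := by group
      rw [e1]
      exact N.mul_mem (N.inv_mem hx) hn.2
    have h2 : n = 0 := by
      by_contra hn0
      refine haN (h.tf a haG n.natAbs (Int.natAbs_ne_zero.2 hn0) ?_)
      rcases Int.natAbs_eq n with e1 | e1
      · rw [e1, zpow_natCast] at h1
        exact h1
      · rw [e1, zpow_neg, zpow_natCast] at h1
        exact N.inv_mem_iff.1 h1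
    rw [h2, zpow_zero, mul_one] at hn
    exact hn.1

/-- Conjugation by an element normalising `U`. -/
def cj {U : Subgroup Γ} (g : Γ) (hg : ∀ y ∈ U, g * y * g⁻¹ ∈ U) : U →* U where
  toFun y := ⟨g * y * g⁻¹, hg y y.2⟩
  map_one' := by ext; simp
  map_mul' := by
    intro a b
    ext
    simp only [Subgroup.coe_mul]
    group

/-- Finitely many elements have a common power in `E`. -/
theorem exists_common_pow {V : Type} [CommGroup V] {E : Subgroup V}
    (hE : ∀ v : V, ∃ a : ℕ, a ≠ 0 ∧ v ^ a ∈ E) (W : Finset V) :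
    ∃ m : ℕ, m ≠ 0 ∧ ∀ v ∈ W, v ^ m ∈ E := by
  classical
  choose a ha hv using hE
  refine ⟨∏ v ∈ W, a v, Finset.prod_ne_zero_iff.2 fun v _ => ha v, fun v hv' => ?_⟩
  rw [← Finset.mul_prod_erase W a hv', pow_mul]
  exact E.pow_mem (hv v) _

theorem roots_ab {K U : Subgroup Γ} (hK : K.FG) (hn : ∀ x ∈ K, ∀ y ∈ U, x * y * x⁻¹ ∈ U)
    (hU : NFG K U) (S : Finset (Abelianization U))
    (hE : ∀ v : Abelianization U, ∃ a : ℕ, a ≠ 0 ∧
      v ^ a ∈ Subgroup.closure (S : Set (Abelianization U))) :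
    ∃ m : ℕ, m ≠ 0 ∧ ∀ v : Abelianization U, ∃ n : ℕ,
      v ^ (m ^ n) ∈ Subgroup.closure (S : Set (Abelianization U)) := by
  classical
  obtain ⟨F, hF, hgen⟩ := hU
  obtain ⟨T, hT⟩ := hK
  have hTK : ∀ g ∈ T, g ∈ K := fun g hg => hT ▸ Subgroup.subset_closure hg
  set E := Subgroup.closure (S : Set (Abelianization U)) with hEdef
  -- conjugations
  let α : K → (Abelianization U →* Abelianization U) := fun g =>
    Abelianization.map (cj (g : Γ) (hn g g.2))
  let W : Finset (Abelianization U) :=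
    (F.attach.image fun f => Abelianization.of (⟨f.1, hF f.1 f.2⟩ : U)) ∪
      ((T.attach ×ˢ S).image (fun p => α ⟨p.1.1, hTK _ p.1.2⟩ p.2) ∪
        (T.attach ×ˢ S).image (fun p => α ⟨(p.1.1)⁻¹, K.inv_mem (hTK _ p.1.2)⟩ p.2))
  obtain ⟨m, hm0, hm⟩ := exists_common_pow hE W
  refine ⟨m, hm0, ?_⟩
  have hα : ∀ g : K, (∀ v ∈ S, α g v ^ m ∈ E) → ∀ v ∈ rootsSub m E, α g v ∈ rootsSub m E := by
    rintro g hg v ⟨n, hn⟩
    refine ⟨n + 1, ?_⟩
    have h1 : E ≤ E.comap ((powMonoidHom m).comp (α g)) := by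
      rw [hEdef, Subgroup.closure_le]
      intro v hv
      exact hg v hv
    have h2 := h1 hn
    change (α g (v ^ m ^ n)) ^ m ∈ E at h2
    rwa [map_pow, ← pow_mul, ← pow_succ] at h2
  let R : Subgroup Γ := ((rootsSub m E).comap Abelianization.of).map U.subtype
  have hRc : ∀ g : K, (∀ v ∈ S, α g v ^ m ∈ E) → ∀ y ∈ R, (g : Γ) * y * (g : Γ)⁻¹ ∈ R := by
    rintro g hg _ ⟨y, hy, rfl⟩
    refine ⟨cj (g : Γ) (hn g g.2) y, ?_, rfl⟩
    have h1 := hα g hg _ hy
    change Abelianization.map (cj (g : Γ) (hn g g.2)) (Abelianization.of y) ∈ _ at h1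
    rwa [Abelianization.map_of] at h1
  have hUR : U ≤ R := by
    refine hgen R ?_ ?_
    · rw [← hT]
      refine conj_of_gen ?_ ?_
      · intro g hg
        refine hRc ⟨g, hTK g hg⟩ fun v hv => hm _ ?_
        refine Finset.mem_union_right _ (Finset.mem_union_left _ ?_)
        rw [Finset.mem_image]
        exact ⟨(⟨g, hg⟩, v), Finset.mem_product.2 ⟨Finset.mem_attach _ _, hv⟩, rfl⟩
      · intro g hg y hy
        have h1 := hRc ⟨g⁻¹, K.inv_mem (hTK g hg)⟩ (fun v hv => hm _ (by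
          refine Finset.mem_union_right _ (Finset.mem_union_right _ ?_)
          rw [Finset.mem_image]
          exact ⟨(⟨g, hg⟩, v), Finset.mem_product.2 ⟨Finset.mem_attach _ _, hv⟩, rfl⟩)) y hy
        change g⁻¹ * y * g⁻¹⁻¹ ∈ R at h1
        rwa [inv_inv] at h1
    · intro f hf
      refine ⟨⟨f, hF f hf⟩, ⟨1, ?_⟩, rfl⟩
      rw [pow_one]
      refine hm _ (Finset.mem_union_left _ ?_)
      rw [Finset.mem_image]
      exact ⟨⟨f, hf⟩, Finset.mem_attach _ _, rfl⟩
  intro v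
  obtain ⟨x, rfl⟩ : ∃ x : U, Abelianization.of x = v := QuotientGroup.mk_surjective v
  obtain ⟨y, hy, hyx⟩ := hUR x.2
  have : y = x := Subtype.ext hyx
  rw [this] at hy
  exact hy

end BG

open BG

theorem BG.ser_le {Γ : Type} [Group Γ] {K : Subgroup Γ} {N : ℕ → Subgroup Γ} {h : ℕ}
    {s : ℕ → ℕ} {t : ℕ} (hs : Ser K N h s t) : ∀ {i j : ℕ}, i ≤ j → j ≤ h → N i ≤ N j := by
  intro i j hij
  induction j, hij using Nat.le_induction with
  | base => exact fun _ => le_rfl
  | succ j _ ih => exact fun hj => (ih (by omega)).trans (hs.chain.step j (by omega)).le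

theorem blockG : BlockG := by
  intro Γ _ K N h s t u hK hs hna
  classical
  have hsu : s u ≤ h := by
    rw [← hs.st]; exact hs.mono hna.le
  have hNle : ∀ {i j : ℕ}, i ≤ j → j ≤ h → N i ≤ N j := fun h1 h2 => BG.ser_le hs h1 h2
  have hNK : ∀ i ≤ h, N i ≤ K := fun i hi => (hNle hi le_rfl).trans hs.top.le
  set U : Subgroup Γ := N (s u) with hU
  -- normal generation of `N i`, `s u ≤ i`
  have hcK : ∀ i, s u ≤ i → i < h → ∀ x ∈ K, ∀ y ∈ N (i + 1), ⁅x, y⁆ ∈ N i := by
    intro i hi hih x hx y hy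
    exact hNle hi hih.le (hna.ab x hx y (hNK (i + 1) hih hy))
  have hnfg : ∀ j, s u + j ≤ h → NFG K (N (h - j)) := by
    intro j
    induction j with
    | zero => intro _; rw [Nat.sub_zero, hs.top]; exact nfg_of_fg hK
    | succ j ih =>
      intro hj
      have h1 := ih (by omega)
      have e : h - j = (h - (j + 1)) + 1 := by omega
      rw [e] at h1
      exact nfg_step hK (hNK _ (by omega)) (hs.chain.step _ (by omega))
        (hcK _ (by omega) (by omega)) h1
  have hnfgU : NFG K U := by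
    have := hnfg (h - s u) (by omega)
    rwa [show h - (h - s u) = s u by omega] at this
  -- the elements `e i`
  have hne : ∀ i, i < s u → ∃ x : Γ, x ∈ N (i + 1) ∧ x ∉ N i := fun i hi => by
    obtain ⟨x, hx, hx'⟩ := (hs.chain.step i (by omega)).ne
    exact ⟨x, hx, hx'⟩
  choose! e he he' using hne
  have heU : ∀ i, i < s u → e i ∈ U := fun i hi => hNle hi hsu (he i hi)
  let S : Finset (Abelianization U) := (Finset.range (s u)).attach.image fun i =>
    Abelianization.of (⟨e i.1, heU i.1 (Finset.mem_range.1 i.2)⟩ : U)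
  have heS : ∀ (i : ℕ) (hi : i < s u), Abelianization.of (⟨e i, heU i hi⟩ : U) ∈
      Subgroup.closure (S : Set (Abelianization U)) := by
    intro i hi
    refine Subgroup.subset_closure ?_
    rw [Finset.mem_coe, Finset.mem_image]
    exact ⟨⟨i, Finset.mem_range.2 hi⟩, Finset.mem_attach _ _, rfl⟩
  have htors : ∀ i, i ≤ s u → ∀ x : U, (x : Γ) ∈ N i → ∃ a : ℕ, a ≠ 0 ∧
      Abelianization.of x ^ a ∈ Subgroup.closure (S : Set (Abelianization U)) := by
    intro i
    induction i with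
    | zero =>
      intro _ x hx
      rw [hs.chain.bot, Subgroup.mem_bot] at hx
      have : x = 1 := Subtype.ext hx
      refine ⟨1, one_ne_zero, ?_⟩
      rw [this, map_one, one_pow]
      exact Subgroup.one_mem _
    | succ i ih =>
      intro hi x hx
      have hr := hs.chain.step i (by omega)
      obtain ⟨a, b, hab, hxe⟩ := hr.one x hx (e i) (he i (by omega))
      have ha : a ≠ 0 := by
        rintro rfl
        rcases hab with h1 | h1
        · exact h1 rfl
        · rw [zpow_zero, one_mul] at hxe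
          refine he' i (by omega) (hr.tf _ (he i (by omega)) b.natAbs
            (Int.natAbs_ne_zero.2 h1) ?_)
          rcases Int.natAbs_eq b with e1 | e1
          · rw [e1, zpow_natCast] at hxe
            exact hxe
          · rw [e1, zpow_neg, zpow_natCast] at hxe
            exact (N i).inv_mem_iff.1 hxe
      obtain ⟨c, hc, hcE⟩ := ih (by omega) (x ^ a * (⟨e i, heU i (by omega)⟩ : U) ^ b)
        (by simpa using hxe)
      set E := Subgroup.closure (S : Set (Abelianization U)) with hE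
      have h1 : (Abelianization.of x ^ a) ^ c ∈ E := by
        rw [map_mul, map_zpow, map_zpow, mul_pow] at hcE
        have h2 : (Abelianization.of (⟨e i, heU i (by omega)⟩ : U) ^ b) ^ c ∈ E :=
          E.pow_mem (E.zpow_mem (heS i (by omega)) b) c
        exact (E.mul_mem_cancel_right h2).1 hcE
      refine ⟨a.natAbs * c, mul_ne_zero (Int.natAbs_ne_zero.2 ha) hc, ?_⟩
      rw [pow_mul]
      rcases Int.natAbs_eq a with e1 | e1
      · rw [e1, zpow_natCast] at h1
        exact h1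
      · rw [e1, zpow_neg, zpow_natCast, inv_pow] at h1
        exact E.inv_mem_iff.1 h1
  have hUn : ∀ x ∈ K, ∀ y ∈ U, x * y * x⁻¹ ∈ U := hs.norm u hna.le
  obtain ⟨m, hm0, hm⟩ := roots_ab hK hUn hnfgU S (fun v => by
    obtain ⟨x, rfl⟩ : ∃ x : U, Abelianization.of x = v := QuotientGroup.mk_surjective v
    exact htors (s u) le_rfl x x.2)
  refine ⟨m, hm0, ?_⟩
  -- `U` is nilpotent
  have hlow : ∀ j, j ≤ u → U.lowerCentralSeries j ≤ N (s (u - j)) := by
    intro j
    induction j with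
    | zero => intro _; rw [Nat.sub_zero, Subgroup.lowerCentralSeries_zero]
    | succ j ih =>
      intro hj
      rw [Subgroup.lowerCentralSeries_succ, Subgroup.commutator_le]
      intro x hx y hy
      have h1 := ih (by omega) hx
      rw [show u - j = (u - (j + 1)) + 1 by omega] at h1
      have h2 := hna.cent (u - (j + 1)) (by omega) y hy x h1
      rw [← commutatorElement_inv]
      exact Subgroup.inv_mem _ h2
  have hnil : (⊤ : Subgroup U).lowerCentralSeries u = ⊥ := by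
    rw [eq_bot_iff]
    intro x hx
    have h1 : (x : Γ) ∈ U.lowerCentralSeries u := by
      rw [← Subgroup.top_subtype_lowerCentralSeries]
      exact ⟨x, hx, rfl⟩
    have h2 := hlow u le_rfl h1
    rw [Nat.sub_self, hs.s0, hs.chain.bot, Subgroup.mem_bot] at h2
    rw [Subgroup.mem_bot]
    exact Subtype.ext h2
  have hbd : ∀ A : Subgroup U, Bd m A := by
    refine bd_nilpotent m u U hnil ?_
    obtain ⟨E', hE', -, hmap⟩ := exists_lift_fg (Abelianization.of : U →* _) ⊤
      (E := Subgroup.closure (S : Set (Abelianization U))) ⟨S, rfl⟩ (by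
        rw [← MonoidHom.range_eq_map, MonoidHom.range_eq_top.2 QuotientGroup.mk_surjective]
        exact le_top)
    refine ⟨E', hE', fun x => ?_⟩
    obtain ⟨n, hn⟩ := hm (Abelianization.of x)
    rw [← hmap, ← map_pow] at hn
    obtain ⟨e, he, hex⟩ := Subgroup.mem_map.1 hn
    refine ⟨n, e, he, ?_⟩
    have h1 : (Abelianization.of : U →* _) (e⁻¹ * x ^ (m ^ n)) = 1 := by
      rw [map_mul, map_inv, hex, inv_mul_cancel]
    rw [← MonoidHom.mem_ker, Abelianization.ker_of] at h1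
    exact h1
  intro i hi
  have hr := hs.chain.step i hi
  rcases Nat.lt_or_ge i (s u) with hiu | hiu
  · obtain ⟨E, ⟨F, hF⟩, hEA, hE⟩ := hbd ((N (i + 1)).subgroupOf U)
    obtain ⟨c, hc, hcF⟩ := exists_Pa_finset hr (F.image Subtype.val) (by
      intro x hx
      obtain ⟨y, hy, rfl⟩ := Finset.mem_image.1 hx
      exact hEA (hF ▸ Subgroup.subset_closure hy))
    refine ⟨c, hc, fun x hx => ?_⟩
    have hxU : x ∈ U := hNle hiu hsu hx
    obtain ⟨n, hn⟩ := hE ⟨x, hxU⟩ hx
    have h1 : E ≤ (Pa (N i) c).subgroupOf U := by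
      rw [← hF, Subgroup.closure_le]
      intro y hy
      exact hcF _ (Finset.mem_image_of_mem _ hy)
    obtain ⟨e, he⟩ := mem_Pa hr hc (h1 hn)
    exact ⟨n, e, he⟩
  · have h1 := hnfg (h - (i + 1)) (by omega)
    rw [show h - (h - (i + 1)) = i + 1 by omega] at h1
    obtain ⟨a, ha, -, hae⟩ := exists_cyclic hr (hcK i hiu hi) h1
    refine ⟨a, ha, fun x hx => ?_⟩
    obtain ⟨e, he⟩ := hae x hx
    exact ⟨0, e, by rw [pow_zero, pow_one]; exact he⟩

end Vale.Agent.P260.LM
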