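import Vale.Agent.P260.LM.Spec6

/-!
P260, leaf S2: the ranks of `A`, `B / A`, `C / A`.
-/

namespace Vale.Agent.P260.LM

open scoped commutatorElement

variable {Γ : Type} [Group Γ]

/-- The group theory half of S2. -/
def S2a : Prop :=
  ∀ (Γ : Type) [Group Γ] (H : Subgroup Γ), Group.IsSolvable H → ∃ A B C : Subgroup Γ,
    A ≤ B ∧ B ≤ H ∧ Nrm H A ∧ Nrm H B ∧ Nrm H C ∧ (∀ b ∈ B, ∀ a ∈ A, ⁅b, a⁆ = 1) ∧
    (∀ x ∈ B, ∀ y ∈ B, ⁅x, y⁆ ∈ A) ∧ (∀ g ∈ H, (∀ b ∈ B, ⁅g, b⁆ = 1) → g ∈ A) ∧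
    ∀ g, g ∈ C ↔ g ∈ H ∧ (∀ a ∈ A, ⁅g, a⁆ = 1) ∧ ∀ b ∈ B, ⁅g, b⁆ ∈ A

theorem comm_pow_right {x b : Γ} (h : Commute ⁅x, b⁆ b) (n : ℕ) : ⁅x, b ^ n⁆ = ⁅x, b⁆ ^ n := by
  have h1 : x * b * x⁻¹ = ⁅x, b⁆ * b := by simp [commutatorElement_def]
  have h2 : x * b ^ n * x⁻¹ = ⁅x, b⁆ ^ n * b ^ n := by
    rw [← conj_pow, h1, h.mul_pow]
  rw [commutatorElement_def x (b ^ n), h2]
  simp

theorem comm_pow_left {x b : Γ} (h : Commute ⁅x, b⁆ x) (n : ℕ) : ⁅x ^ n, b⁆ = ⁅x, b⁆ ^ n := by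
  have h0 : ⁅b, x⁆ = ⁅x, b⁆⁻¹ := (commutatorElement_inv x b).symm
  have h1 : ⁅b, x ^ n⁆ = ⁅b, x⁆ ^ n := comm_pow_right (by rw [h0]; exact h.inv_left) n
  rw [← commutatorElement_inv, h1, h0, inv_pow, inv_inv]

theorem comm_mul_left {x y e : Γ} (h : ⁅x, ⁅y, e⁆⁆ = 1) (h' : ⁅⁅x, e⁆, ⁅y, e⁆⁆ = 1) :
    ⁅x * y, e⁆ = ⁅x, e⁆ * ⁅y, e⁆ := by
  rw [commutatorElement_eq_one_iff_mul_comm] at h h'
  have h1 : ⁅x * y, e⁆ = x * ⁅y, e⁆ * x⁻¹ * ⁅x, e⁆ := by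
    simp only [commutatorElement_def]; group
  rw [h1, h, h']
  group

theorem fr_bot (htf : TF Γ) {m : ℕ} (hr : RankB Γ m) (A : Subgroup Γ)
    (hA : ∀ x ∈ A, ∀ y ∈ A, ⁅x, y⁆ = 1) : FR ⊥ A where
  le := bot_le
  comm x hx y hy := Subgroup.mem_bot.2 (hA x hx y hy)
  tf x _ n hn h := Subgroup.mem_bot.2 (htf x n hn (Subgroup.mem_bot.1 h))
  rk := by
    refine ⟨m, fun x hx => ?_⟩
    obtain ⟨c, hc, h⟩ := hr x fun i j =>
      commutatorElement_eq_one_iff_mul_comm.1 (hA _ (hx i) _ (hx j))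
    exact ⟨c, hc, Subgroup.mem_bot.2 h⟩

theorem kern (htf : TF Γ) {P Q : Subgroup Γ} {r : ℕ} {e : Fin r → Γ}
    (he : ∀ x ∈ Q, ∃ n : ℕ, n ≠ 0 ∧ ∃ y ∈ Subgroup.closure (Set.range e), ∃ p ∈ P, x ^ n = y * p)
    {x : Γ} (h1 : ∀ q ∈ Q, Commute ⁅x, q⁆ q) (h2 : ∀ p ∈ P, ⁅x, p⁆ = 1) (h3 : ∀ i, ⁅x, e i⁆ = 1) :
    ∀ q ∈ Q, ⁅x, q⁆ = 1 := by
  intro q hq
  obtain ⟨n, hn, y, hy, p, hp, h⟩ := he q hq
  have h4 : Subgroup.closure (Set.range e) ≤ Subgroup.centralizer {x} := by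
    rw [Subgroup.closure_le]
    rintro _ ⟨i, rfl⟩
    rw [SetLike.mem_coe, Subgroup.mem_centralizer_iff]
    intro z hz
    rw [Set.mem_singleton_iff] at hz
    rw [hz]
    exact commutatorElement_eq_one_iff_mul_comm.1 (h3 i)
  have h5 : x * y = y * x := Subgroup.mem_centralizer_iff.1 (h4 hy) x rfl
  have h6 : x * p = p * x := commutatorElement_eq_one_iff_mul_comm.1 (h2 p hp)
  have h7 : ⁅x, q ^ n⁆ = 1 := by
    rw [h, commutatorElement_eq_one_iff_mul_comm, ← mul_assoc, h5, mul_assoc, h6, mul_assoc]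
  rw [comm_pow_right (h1 q hq)] at h7
  exact htf _ n hn h7

/-- `R / K` embeds into a power of `A`. -/
theorem fr_kernel (h3a : BlockS3a) (h3e : BlockS3e) (htf : TF Γ) {P Q R K A : Subgroup Γ}
    (hK : K ≤ R) (hPQ : FR P Q) (hA : FR ⊥ A) (h1 : ∀ x ∈ R, ∀ q ∈ Q, ⁅x, q⁆ ∈ A)
    (h2 : ∀ x ∈ R, ∀ a ∈ A, ⁅x, a⁆ = 1) (h3 : ∀ q ∈ Q, ∀ a ∈ A, ⁅q, a⁆ = 1)
    (h4 : ∀ x ∈ R, ∀ p ∈ P, ⁅x, p⁆ = 1) (h5 : ∀ x ∈ R, x ∈ K ↔ ∀ q ∈ Q, ⁅x, q⁆ = 1) :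
    FR K R := by
  obtain ⟨r, e, he, h⟩ := h3e Γ P Q hPQ
  refine h3a Γ K R r (fun j x => ⁅x, e j⁆) (fun _ => ⊥) (fun _ => A) hK (fun _ => hA)
    (fun j x hx => h1 x hx _ (he j)) (fun j x hx y hy => ⟨1, Subgroup.one_mem _, ?_⟩)
    (fun x hx => ?_)
  · rw [mul_one]
    refine comm_mul_left (h2 x hx _ (h1 y hy _ (he j))) ?_
    exact Subgroup.mem_bot.1 (hA.comm _ (h1 x hx _ (he j)) _ (h1 y hy _ (he j)))
  · rw [h5 x hx]
    refine ⟨fun h j => Subgroup.mem_bot.2 (h _ (he j)), fun h' => ?_⟩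
    refine kern htf h (fun q hq => ?_) (h4 x hx) (fun i => Subgroup.mem_bot.1 (h' i))
    have h6 := h3 q hq _ (h1 x hx q hq)
    exact (commutatorElement_eq_one_iff_mul_comm.1 h6).symm

/-- The subgroup generated by commuting elements. -/
theorem closure_comm {S : Set Γ} (h : ∀ x ∈ S, ∀ y ∈ S, ⁅x, y⁆ = 1) :
    ∀ x ∈ Subgroup.closure S, ∀ y ∈ Subgroup.closure S, ⁅x, y⁆ = 1 := by
  have h1 : Subgroup.closure S ≤ Subgroup.centralizer S := by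
    rw [Subgroup.closure_le]
    intro x hx
    rw [SetLike.mem_coe, Subgroup.mem_centralizer_iff]
    intro y hy
    exact commutatorElement_eq_one_iff_mul_comm.1 (h y hy x hx)
  have h2 : Subgroup.closure S ≤ Subgroup.centralizer (Subgroup.closure S : Set Γ) := by
    rw [Subgroup.closure_le]
    intro x hx
    rw [SetLike.mem_coe, Subgroup.mem_centralizer_iff]
    intro y hy
    exact (Subgroup.mem_centralizer_iff.1 (h1 hy) x hx).symm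
  intro x hx y hy
  rw [commutatorElement_eq_one_iff_mul_comm]
  exact (Subgroup.mem_centralizer_iff.1 (h2 hx) y hy).symm

/-- A maximal abelian subgroup between `A` and `B`. -/
theorem exists_max_ab {A B : Subgroup Γ} (hAB : A ≤ B) (hA : ∀ x ∈ A, ∀ y ∈ A, ⁅x, y⁆ = 1) :
    ∃ D : Subgroup Γ, A ≤ D ∧ D ≤ B ∧ (∀ x ∈ D, ∀ y ∈ D, ⁅x, y⁆ = 1) ∧
      ∀ g ∈ B, (∀ d ∈ D, ⁅g, d⁆ = 1) → g ∈ D := by
  let T : Set (Subgroup Γ) := {D | A ≤ D ∧ D ≤ B ∧ ∀ x ∈ D, ∀ y ∈ D, ⁅x, y⁆ = 1}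
  obtain ⟨D, hD, hm⟩ : ∃ D, A ≤ D ∧ Maximal (fun D => D ∈ T) D := by
    refine zorn_le_nonempty₀ T ?_ A ⟨le_rfl, hAB, hA⟩
    intro c hc hch E hE
    have hne : c.Nonempty := ⟨E, hE⟩
    refine ⟨sSup c, ⟨(hc hE).1.trans (le_sSup hE), sSup_le fun F hF => (hc hF).2.1, ?_⟩,
      fun F hF => le_sSup hF⟩
    intro x hx y hy
    rw [Subgroup.mem_sSup_of_directedOn hne hch.directedOn] at hx hy
    obtain ⟨F, hF, hx⟩ := hx
    obtain ⟨G, hG, hy⟩ := hy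
    rcases hch.total hF hG with h | h
    · exact (hc hG).2.2 x (h hx) y hy
    · exact (hc hF).2.2 x hx y (h hy)
  refine ⟨D, hD, hm.prop.2.1, hm.prop.2.2, fun g hg h => ?_⟩
  let E : Subgroup Γ := Subgroup.closure ((D : Set Γ) ∪ {g})
  have hDE : D ≤ E := fun x hx => Subgroup.subset_closure (Or.inl hx)
  have hE : E ∈ T := by
    refine ⟨hD.trans hDE, ?_, closure_comm ?_⟩
    · refine (Subgroup.closure_le _).2 (Set.union_subset hm.prop.2.1 ?_)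
      rintro _ rfl
      exact hg
    · rintro x (hx | hx) y (hy | hy)
      · exact hm.prop.2.2 x hx y hy
      · rw [Set.mem_singleton_iff] at hy
        rw [hy, ← commutatorElement_inv, h x hx, inv_one]
      · rw [Set.mem_singleton_iff] at hx
        rw [hx, h y hy]
      · rw [Set.mem_singleton_iff] at hx hy
        rw [hx, hy, commutatorElement_self]
  exact hm.le_of_ge hE hDE (Subgroup.subset_closure (Or.inr rfl))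

theorem blockS2_of' (h2a : S2a) (h3a : BlockS3a) (h3b : BlockS3b) (h3c : BlockS3c)
    (h3e : BlockS3e) : BlockS2 := by
  intro Γ _ htf ⟨m, hr⟩ H hH
  obtain ⟨A, B, C, hAB, hBH, hA, hB, hC, hc, hBB, hz, hCm⟩ := h2a Γ H hH
  have hAA : ∀ x ∈ A, ∀ y ∈ A, ⁅x, y⁆ = 1 := fun x hx y hy => hc x (hAB hx) y hy
  have frA : FR ⊥ A := fr_bot htf hr A hAA
  have tfB : ∀ x ∈ B, ∀ n : ℕ, n ≠ 0 → x ^ n ∈ A → x ∈ A := by
    intro x hx n hn h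
    refine hz x (hBH hx) fun b hb => htf _ n hn ?_
    rw [← comm_pow_left, ← commutatorElement_inv, hc b hb _ h, inv_one]
    exact (commutatorElement_eq_one_iff_mul_comm.1 (hc x hx _ (hBB x hx b hb))).symm
  have frB : FR A B := by
    obtain ⟨D, hAD, hDB, hDD, hD⟩ := exists_max_ab hAB hAA
    have fr1 : FR A D := h3c Γ ⊥ D A D (fr_bot htf hr D hDD) bot_le hAD le_rfl
      fun x hx => tfB x (hDB hx)
    refine h3b Γ A D B fr1 ?_ hBB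
    refine fr_kernel h3a h3e htf hDB fr1 frA (fun x hx q hq => hBB x hx q (hDB hq)) hc
      (fun q hq => hc q (hDB hq)) hc fun x hx => ⟨fun h q hq => hDD x h q hq, hD x hx⟩
  have hCA : ∀ c ∈ C, ∀ a ∈ A, ⁅c, a⁆ = 1 := fun c h => ((hCm c).1 h).2.1
  have hCB : ∀ c ∈ C, ∀ b ∈ B, ⁅c, b⁆ ∈ A := fun c h => ((hCm c).1 h).2.2
  refine ⟨A, B, C, hBH, fun c h => ((hCm c).1 h).1, hA, hB, hC, frA, frB, ?_, hCA, hCB,
    fun g hg h1 h2 => (hCm g).2 ⟨hg, h1, h2⟩⟩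
  have hAC : A ≤ C := fun a ha => (hCm a).2 ⟨hBH (hAB ha), hAA a ha, fun b hb => hBB a (hAB ha) b hb⟩
  refine fr_kernel h3a h3e htf hAC frB frA hCB hCA hc hCA fun x hx => ⟨fun h b hb => ?_, ?_⟩
  · rw [← commutatorElement_inv, hc b hb x h, inv_one]
  · exact hz x ((hCm x).1 hx).1

end Vale.Agent.P260.LM
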