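import Vale.Agent.P260.LM.Spec6

/-!
P260, last mile: leaves S3a, S3b, S3c (torsion-free abelian sections of finite rank).
-/

namespace Vale.Agent.P260.LM

open scoped commutatorElement

/-- Leaf S3c. -/
theorem blockS3c : BlockS3c := by
  intro Γ _ P Q P' Q' h h1 h2 h3 htf
  refine ⟨h2, fun x hx y hy => h1 (h.comm x (h3 hx) y (h3 hy)), htf, ?_⟩
  obtain ⟨r, hr⟩ := h.rk
  refine ⟨r, fun x hx => ?_⟩
  obtain ⟨c, hc, hp⟩ := hr x fun i => h3 (hx i)
  exact ⟨c, hc, h1 hp⟩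

section quot

variable {Γ : Type} [Group Γ] {P Q : Subgroup Γ}

/-- The quotient by a subgroup containing the commutators. -/
theorem exists_abQuot (hc : ∀ x ∈ Q, ∀ y ∈ Q, ⁅x, y⁆ ∈ P) :
    ∃ (A : Type) (_ : CommGroup A) (π : Q →* A), Function.Surjective π ∧
      ∀ x : Q, π x = 1 ↔ (x : Γ) ∈ P := by
  have hn : (P.subgroupOf Q).Normal := by
    constructor
    intro n hn g
    rw [Subgroup.mem_subgroupOf] at hn ⊢
    have h1 := hc g g.2 n n.2
    have e : ((g * n * g⁻¹ : Q) : Γ) = ⁅(g : Γ), (n : Γ)⁆ * n := by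
      rw [commutatorElement_def]
      push_cast
      group
    rw [e]
    exact P.mul_mem h1 hn
  have hc' : ∀ a b : Q ⧸ P.subgroupOf Q, a * b = b * a := by
    intro a b
    obtain ⟨x, rfl⟩ := QuotientGroup.mk_surjective a
    obtain ⟨y, rfl⟩ := QuotientGroup.mk_surjective b
    rw [← QuotientGroup.mk_mul, ← QuotientGroup.mk_mul, QuotientGroup.eq,
      Subgroup.mem_subgroupOf]
    have h1 := hc y⁻¹ (Q.inv_mem y.2) x⁻¹ (Q.inv_mem x.2)
    have e : (((x * y)⁻¹ * (y * x) : Q) : Γ) = ⁅(y : Γ)⁻¹, (x : Γ)⁻¹⁆ := by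
      rw [commutatorElement_def]
      push_cast
      group
    rw [e]
    exact h1
  let inst : CommGroup (Q ⧸ P.subgroupOf Q) :=
    { (inferInstance : Group (Q ⧸ P.subgroupOf Q)) with mul_comm := hc' }
  refine ⟨Q ⧸ P.subgroupOf Q, inst, QuotientGroup.mk' _, QuotientGroup.mk'_surjective _, ?_⟩
  intro x
  rw [QuotientGroup.mk'_apply, QuotientGroup.eq_one_iff, Subgroup.mem_subgroupOf]

theorem ofFn_prod_mem {n : ℕ} {x : Fin n → Γ} (hx : ∀ i, x i ∈ Q) (c : Fin n → ℤ) :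
    (List.ofFn fun i => x i ^ c i).prod ∈ Q := by
  refine Subgroup.list_prod_mem _ fun y hy => ?_
  rw [List.mem_ofFn] at hy
  obtain ⟨i, rfl⟩ := hy
  exact Q.zpow_mem (hx i) _

theorem map_ofFn_prod {A : Type} [CommGroup A] (π : Q →* A) {n : ℕ} {x : Fin n → Γ}
    (hx : ∀ i, x i ∈ Q) (c : Fin n → ℤ) :
    π ⟨(List.ofFn fun i => x i ^ c i).prod, ofFn_prod_mem hx c⟩ = ∏ i, π ⟨x i, hx i⟩ ^ c i := by
  have e : (⟨(List.ofFn fun i => x i ^ c i).prod, ofFn_prod_mem hx c⟩ : Q) =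
      (List.ofFn fun i => (⟨x i, hx i⟩ : Q) ^ c i).prod := by
    apply Subtype.ext
    rw [Subgroup.val_list_prod, List.map_ofFn]
    rfl
  rw [e, map_list_prod, List.map_ofFn, List.prod_ofFn]
  refine Finset.prod_congr rfl fun i _ => ?_
  rw [Function.comp_apply, map_zpow]

/-- combining nonzero integer vectors -/
theorem mul_ne_zero_fin {s r : ℕ} {d : Fin s → ℤ} {c : Fin s → Fin r → ℤ} (hd : d ≠ 0)
    (hc : ∀ i, c i ≠ 0) :
    (fun t : Fin (s * r) => c (finProdFinEquiv.symm t).1 (finProdFinEquiv.symm t).2 *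
      d (finProdFinEquiv.symm t).1) ≠ 0 := by
  obtain ⟨i, hi⟩ := Function.ne_iff.1 hd
  obtain ⟨j, hj⟩ := Function.ne_iff.1 (hc i)
  refine Function.ne_iff.2 ⟨finProdFinEquiv (i, j), ?_⟩
  simp only [Equiv.symm_apply_apply, Pi.zero_apply]
  exact mul_ne_zero hj hi

theorem prod_combine {A : Type} [CommGroup A] {s r : ℕ} (d : Fin s → ℤ) (c : Fin s → Fin r → ℤ)
    (a : Fin (s * r) → A) :
    ∏ t : Fin (s * r), a t ^ (c (finProdFinEquiv.symm t).1 (finProdFinEquiv.symm t).2 *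
      d (finProdFinEquiv.symm t).1) = ∏ i, (∏ j, a (finProdFinEquiv (i, j)) ^ c i j) ^ d i := by
  rw [← Equiv.prod_comp (finProdFinEquiv (m := s) (n := r)), Fintype.prod_prod_type]
  refine Finset.prod_congr rfl fun i _ => ?_
  rw [← Finset.prod_zpow]
  refine Finset.prod_congr rfl fun j _ => ?_
  simp only [Equiv.symm_apply_apply]
  rw [zpow_mul]

end quot

/-- Leaf S3b. -/
theorem blockS3b : BlockS3b := by
  intro Γ _ P Q R h1 h2 hc
  refine ⟨h1.le.trans h2.le, hc, fun x hx n hn hxn =>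
    h1.tf x (h2.tf x hx n hn (h1.le hxn)) n hn hxn, ?_⟩
  obtain ⟨A, _, π, -, hk⟩ := exists_abQuot hc
  obtain ⟨s, hs⟩ := h1.rk
  obtain ⟨r, hr⟩ := h2.rk
  refine ⟨s * r, fun x hx => ?_⟩
  choose c hc0 hcQ using fun i : Fin s =>
    hr (fun j => x (finProdFinEquiv (i, j))) fun j => hx _
  obtain ⟨d, hd0, hdP⟩ := hs _ hcQ
  refine ⟨_, mul_ne_zero_fin hd0 hc0, ?_⟩
  have h3 : ∀ i, (List.ofFn fun j => x (finProdFinEquiv (i, j)) ^ c i j).prod ∈ R :=
    fun i => h2.le (hcQ i)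
  have h4 := (hk ⟨_, ofFn_prod_mem h3 d⟩).2 hdP
  rw [map_ofFn_prod π h3 d] at h4
  have h5 := hk ⟨_, ofFn_prod_mem hx (fun t : Fin (s * r) =>
    c (finProdFinEquiv.symm t).1 (finProdFinEquiv.symm t).2 * d (finProdFinEquiv.symm t).1)⟩
  refine h5.1 ?_
  rw [map_ofFn_prod π hx, prod_combine d c, ← h4]
  refine Finset.prod_congr rfl fun i _ => ?_
  congr 1
  exact (map_ofFn_prod π (fun j => hx _) (c i)).symm

/-- bounded rank for finitely many homomorphisms to abelian groups of finite rank -/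
theorem rank_family {Q : Type} [Group Q] : ∀ (k : ℕ) (A : Fin k → Type) [∀ j, CommGroup (A j)]
    (g : ∀ j, Q →* A j),
    (∀ j, ∃ r : ℕ, ∀ a : Fin r → A j, ∃ c : Fin r → ℤ, c ≠ 0 ∧ ∏ i, a i ^ c i = 1) →
    ∃ r : ℕ, ∀ x : Fin r → Q, ∃ c : Fin r → ℤ, c ≠ 0 ∧ ∀ j, ∏ i, g j (x i) ^ c i = 1
  | 0, _, _, _, _ => ⟨1, fun _ => ⟨1, one_ne_zero, fun j => j.elim0⟩⟩
  | k + 1, A, _, g, h => by
    obtain ⟨r, hr⟩ := rank_family k (fun j => A j.castSucc) (fun j => g j.castSucc)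
      fun j => h j.castSucc
    obtain ⟨s, hs⟩ := h (Fin.last k)
    refine ⟨s * r, fun x => ?_⟩
    choose c hc0 hc using fun i : Fin s => hr fun j => x (finProdFinEquiv (i, j))
    obtain ⟨d, hd0, hd⟩ := hs fun i =>
      ∏ j, g (Fin.last k) (x (finProdFinEquiv (i, j))) ^ c i j
    refine ⟨_, mul_ne_zero_fin hd0 hc0, fun j => ?_⟩
    rw [prod_combine d c fun t => g j (x t)]
    refine Fin.lastCases ?_ (fun j => ?_) j
    · exact hd
    · refine Finset.prod_eq_one fun i _ => ?_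
      rw [hc i j, one_zpow]

/-- Leaf S3a. -/
theorem blockS3a : BlockS3a := by
  intro Γ _ P Q k f P' Q' hle hFR hf hmul hP
  choose A inst π hs hk using fun j => exists_abQuot (hFR j).comm
  -- the homomorphisms
  have hg : ∀ j, ∀ x y : Q, π j ⟨f j (x * y : Q), hf j _ (x * y : Q).2⟩ =
      π j ⟨f j x, hf j x x.2⟩ * π j ⟨f j y, hf j y y.2⟩ := by
    intro j x y
    obtain ⟨p, hp, he⟩ := hmul j x x.2 y y.2
    have hpQ : p ∈ Q' j := (hFR j).le hp
    have e : (⟨f j (x * y : Q), hf j _ (x * y : Q).2⟩ : Q' j) =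
        ⟨f j x, hf j x x.2⟩ * ⟨f j y, hf j y y.2⟩ * ⟨p, hpQ⟩ := Subtype.ext he
    rw [e, map_mul, map_mul, (hk j ⟨p, hpQ⟩).2 hp, mul_one]
  let g : ∀ j, Q →* A j := fun j => MonoidHom.mk' (fun x => π j ⟨f j x, hf j x x.2⟩) (hg j)
  have hgP : ∀ x : Q, (x : Γ) ∈ P ↔ ∀ j, g j x = 1 := by
    intro x
    rw [hP x x.2]
    exact forall_congr' fun j => (hk j ⟨f j x, hf j x x.2⟩).symm
  refine ⟨hle, fun x hx y hy => ?_, fun x hx n hn hxn => ?_, ?_⟩
  · have e : ⁅x, y⁆ = ((⁅(⟨x, hx⟩ : Q), ⟨y, hy⟩⁆ : Q) : Γ) := rfl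
    rw [e, hgP]
    intro j
    rw [map_commutatorElement, commutatorElement_eq_one_iff_commute]
    exact Commute.all _ _
  · refine (hgP ⟨x, hx⟩).2 fun j => ?_
    have h1 := (hgP (⟨x, hx⟩ ^ n)).1 hxn j
    rw [map_pow] at h1
    refine (hk j _).2 ((hFR j).tf _ (hf j x hx) n hn ?_)
    have h2 := (hk j (⟨f j x, hf j x hx⟩ ^ n)).1 (by rw [map_pow]; exact h1)
    exact h2
  · obtain ⟨r, hr⟩ := rank_family k A g fun j => by
      obtain ⟨r, hr⟩ := (hFR j).rk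
      refine ⟨r, fun a => ?_⟩
      choose x hx using fun i => hs j (a i)
      obtain ⟨c, hc0, hc⟩ := hr (fun i => (x i : Γ)) fun i => (x i).2
      refine ⟨c, hc0, ?_⟩
      have h1 := (hk j ⟨_, ofFn_prod_mem (fun i => (x i).2) c⟩).2 hc
      rw [map_ofFn_prod] at h1
      rw [← h1]
      exact Finset.prod_congr rfl fun i _ => by rw [← hx i]
    refine ⟨r, fun x hx => ?_⟩
    obtain ⟨c, hc0, hc⟩ := hr fun i => ⟨x i, hx i⟩
    refine ⟨c, hc0, ?_⟩
    refine (hgP ⟨_, ofFn_prod_mem hx c⟩).2 fun j => ?_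
    rw [map_ofFn_prod (g j) hx c]
    exact hc j

end Vale.Agent.P260.LM
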