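import Vale.Agent.P260.LM.Spec6

/-!
P260, last mile: leaves S3d and S3e (torsion-free abelian sections of finite rank).
-/

namespace Vale.Agent.P260.LM

open scoped commutatorElement

variable {Γ : Type} [Group Γ]

namespace S3de

/-- the quotient `Q / P` as an additive group -/
theorem exists_hom {P Q : Subgroup Γ} (h : FR P Q) :
    ∃ (A : Type) (_ : AddCommGroup A) (f : Q →* Multiplicative A), Function.Surjective f ∧
      ∀ x : Q, f x = 1 ↔ (x : Γ) ∈ P := by
  have hn : (P.subgroupOf Q).Normal := by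
    refine ⟨fun x hx g => ?_⟩
    rw [Subgroup.mem_subgroupOf] at hx ⊢
    have h1 := h.comm g g.2 x x.2
    have h2 := P.mul_mem h1 hx
    rw [commutatorElement_def] at h2
    simpa [mul_assoc] using h2
  let G := Q ⧸ P.subgroupOf Q
  have hc : ∀ a b : G, a * b = b * a := by
    intro a b
    obtain ⟨x, rfl⟩ := QuotientGroup.mk_surjective a
    obtain ⟨y, rfl⟩ := QuotientGroup.mk_surjective b
    rw [← QuotientGroup.mk_mul, ← QuotientGroup.mk_mul, QuotientGroup.eq]
    rw [Subgroup.mem_subgroupOf]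
    have h1 := h.comm (y : Γ)⁻¹ (Q.inv_mem y.2) (x : Γ)⁻¹ (Q.inv_mem x.2)
    rw [commutatorElement_def] at h1
    simpa [mul_assoc] using h1
  let _ : CommGroup G := { (inferInstance : Group G) with mul_comm := hc }
  refine ⟨Additive G, inferInstance,
    { toFun := fun x => Multiplicative.ofAdd (Additive.ofMul (QuotientGroup.mk x))
      map_one' := rfl
      map_mul' := fun _ _ => rfl }, ?_, ?_⟩
  · intro a
    obtain ⟨x, hx⟩ := QuotientGroup.mk_surjective (Additive.toMul (Multiplicative.toAdd a))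
    exact ⟨x, by
      change Multiplicative.ofAdd (Additive.ofMul (QuotientGroup.mk x)) = a
      rw [hx]; rfl⟩
  · intro x
    have : (Multiplicative.ofAdd (Additive.ofMul (QuotientGroup.mk x : G)) = 1) ↔
        (QuotientGroup.mk x : G) = 1 := Iff.rfl
    change (Multiplicative.ofAdd (Additive.ofMul (QuotientGroup.mk x : G)) = 1) ↔ _
    rw [this, QuotientGroup.eq_one_iff, Subgroup.mem_subgroupOf]

section

variable {A : Type} [AddCommGroup A]

/-- the isolator of the span of `e` -/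
def iso (S : Submodule ℤ A) : AddSubgroup A where
  carrier := {x | ∃ n : ℤ, n ≠ 0 ∧ n • x ∈ S}
  zero_mem' := ⟨1, one_ne_zero, by simp⟩
  add_mem' := by
    rintro x y ⟨n, hn, hx⟩ ⟨m, hm, hy⟩
    refine ⟨n * m, mul_ne_zero hn hm, ?_⟩
    rw [smul_add]
    refine S.add_mem ?_ ?_
    · rw [mul_comm, mul_smul]; exact S.smul_mem _ hx
    · rw [mul_smul]; exact S.smul_mem _ hy
  neg_mem' := by
    rintro x ⟨n, hn, hx⟩
    exact ⟨n, hn, by rw [smul_neg]; exact S.neg_mem hx⟩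

theorem mem_iso {S : Submodule ℤ A} {x : A} : x ∈ iso S ↔ ∃ n : ℤ, n ≠ 0 ∧ n • x ∈ S := Iff.rfl

/-- a maximal independent family -/
theorem exists_family (r : ℕ) (hr : ∀ x : Fin r → A, ¬ LinearIndependent ℤ x) :
    ∃ (k : ℕ) (e : Fin k → A), LinearIndependent ℤ e ∧
      ∀ x : A, ∃ n : ℤ, n ≠ 0 ∧ n • x ∈ Submodule.span ℤ (Set.range e) := by
  classical
  have hex : ∃ k : ℕ, ∀ x : Fin (k + 1) → A, ¬ LinearIndependent ℤ x := by
    refine ⟨r, fun x hx => hr (fun i => x i.castSucc) ?_⟩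
    exact hx.comp _ (Fin.castSucc_injective r)
  let k := Nat.find hex
  have hk : ∀ x : Fin (k + 1) → A, ¬ LinearIndependent ℤ x := Nat.find_spec hex
  have hk' : ∃ e : Fin k → A, LinearIndependent ℤ e := by
    rcases Nat.eq_zero_or_pos k with h0 | h0
    · refine ⟨fun _ => 0, ?_⟩
      have : IsEmpty (Fin k) := by rw [h0]; infer_instance
      exact linearIndependent_empty_type
    · have h1 := Nat.find_min hex (m := k - 1) (by omega)
      push Not at h1
      obtain ⟨x, hx⟩ := h1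
      have h2 : k - 1 + 1 = k := by omega
      exact ⟨fun i => x (Fin.cast h2.symm i), hx.comp _ (Fin.cast_injective _)⟩
  obtain ⟨e, he⟩ := hk'
  refine ⟨k, e, he, fun x => ?_⟩
  have h1 := hk (Fin.cons x e)
  rw [Fintype.linearIndependent_iff] at h1
  push Not at h1
  obtain ⟨c, hc, i, hi⟩ := h1
  rw [Fin.sum_univ_succ] at hc
  simp only [Fin.cons_zero, Fin.cons_succ] at hc
  have h0 : c 0 ≠ 0 := by
    intro h0
    rw [h0, zero_smul, zero_add] at hc
    have h2 := Fintype.linearIndependent_iff.mp he (fun j => c j.succ) hc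
    refine hi ?_
    rcases Fin.eq_zero_or_eq_succ i with h3 | ⟨j, h3⟩
    · rw [h3, h0]
    · rw [h3]; exact h2 j
  refine ⟨c 0, h0, ?_⟩
  rw [eq_neg_of_add_eq_zero_left hc]
  refine Submodule.neg_mem _ (Submodule.sum_mem _ fun j _ => Submodule.smul_mem _ _ ?_)
  exact Submodule.subset_span ⟨j, rfl⟩

theorem nat_of_iso {S : Submodule ℤ A} {x : A} (h : ∃ n : ℤ, n ≠ 0 ∧ n • x ∈ S) :
    ∃ n : ℕ, n ≠ 0 ∧ n • x ∈ S := by
  obtain ⟨n, hn, hx⟩ := h
  refine ⟨n.natAbs, by omega, ?_⟩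
  rcases Int.natAbs_eq n with h1 | h1
  · rw [h1, natCast_zsmul] at hx; exact hx
  · rw [h1, neg_smul, natCast_zsmul] at hx
    exact (Submodule.neg_mem_iff _).mp hx

end

section

variable {A : Type} [AddCommGroup A] {P Q : Subgroup Γ}

theorem f_prod (f : Q →* Multiplicative A) {r : ℕ} (y : Fin r → Q) (c : Fin r → ℤ) :
    ∃ z : Q, (z : Γ) = (List.ofFn fun i => (y i : Γ) ^ c i).prod ∧
      (f z).toAdd = ∑ i, c i • (f (y i)).toAdd := by
  refine ⟨(List.ofFn fun i => y i ^ c i).prod, ?_, ?_⟩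
  · rw [← Subgroup.subtype_apply, map_list_prod, List.map_ofFn]
    rfl
  · rw [map_list_prod, List.map_ofFn, List.prod_ofFn]
    rw [toAdd_prod]
    exact Finset.sum_congr rfl fun i _ => by
      simp [map_zpow, toAdd_zpow]

theorem dep (h : FR P Q) (f : Q →* Multiplicative A) (hf : Function.Surjective f)
    (hP : ∀ x : Q, f x = 1 ↔ (x : Γ) ∈ P) :
    ∃ r : ℕ, ∀ x : Fin r → A, ¬ LinearIndependent ℤ x := by
  obtain ⟨r, hr⟩ := h.rk
  refine ⟨r, fun x hx => ?_⟩
  choose y hy using fun i => hf (Multiplicative.ofAdd (x i))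
  obtain ⟨c, hc, hc'⟩ := hr (fun i => (y i : Γ)) fun i => (y i).2
  obtain ⟨z, hz, hz'⟩ := f_prod f y c
  rw [← hz, ← hP] at hc'
  rw [hc'] at hz'
  have h1 : ∑ i, c i • x i = 0 := by
    rw [toAdd_one] at hz'
    rw [hz']
    exact Finset.sum_congr rfl fun i _ => by rw [hy i, toAdd_ofAdd]
  refine hc (funext fun i => ?_)
  exact Fintype.linearIndependent_iff.mp hx c h1 i

theorem blockS3e : BlockS3e := by
  intro Γ _ P Q h
  obtain ⟨A, _, f, hf, hP⟩ := exists_hom h
  obtain ⟨r, hr⟩ := dep h f hf hP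
  obtain ⟨k, e, he, hx⟩ := exists_family r hr
  choose y hy using fun i => hf (Multiplicative.ofAdd (e i))
  refine ⟨k, fun i => (y i : Γ), fun i => (y i).2, fun x hxQ => ?_⟩
  obtain ⟨n, hn, hs⟩ := nat_of_iso (hx (f ⟨x, hxQ⟩).toAdd)
  have hlift : ∀ a ∈ Submodule.span ℤ (Set.range e), ∃ z : Q,
      (z : Γ) ∈ Subgroup.closure (Set.range fun i => (y i : Γ)) ∧ (f z).toAdd = a := by
    intro a ha
    induction ha using Submodule.span_induction with
    | mem a ha =>
      obtain ⟨i, rfl⟩ := ha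
      exact ⟨y i, Subgroup.subset_closure ⟨i, rfl⟩, by rw [hy i, toAdd_ofAdd]⟩
    | zero => exact ⟨1, Subgroup.one_mem _, by rw [map_one, toAdd_one]⟩
    | add a b _ _ ha hb =>
      obtain ⟨z, h1, h2⟩ := ha
      obtain ⟨w, h3, h4⟩ := hb
      exact ⟨z * w, Subgroup.mul_mem _ h1 h3, by rw [map_mul, toAdd_mul, h2, h4]⟩
    | smul m a _ ha =>
      obtain ⟨z, h1, h2⟩ := ha
      exact ⟨z ^ m, Subgroup.zpow_mem _ h1 m, by rw [map_zpow, toAdd_zpow, h2]⟩
  obtain ⟨z, hz1, hz2⟩ := hlift _ hs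
  refine ⟨n, hn, z, hz1, (z : Γ)⁻¹ * x ^ n, ?_, by group⟩
  have h1 : f (z⁻¹ * (⟨x, hxQ⟩ : Q) ^ n) = 1 := by
    rw [map_mul, map_inv, map_pow]
    apply Multiplicative.toAdd.injective
    rw [toAdd_mul, toAdd_inv, toAdd_pow, hz2, toAdd_one]
    simp
  exact (hP _).mp h1

/-- the subgroup of `Q` above a subgroup of `A` -/
def pre (f : Q →* Multiplicative A) (B : AddSubgroup A) : Subgroup Γ :=
  ((AddSubgroup.toSubgroup B).comap f).map Q.subtype

theorem mem_pre {f : Q →* Multiplicative A} {B : AddSubgroup A} {x : Γ} :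
    x ∈ pre f B ↔ ∃ h : x ∈ Q, (f ⟨x, h⟩).toAdd ∈ B := by
  constructor
  · rintro ⟨z, hz, rfl⟩
    exact ⟨z.2, hz⟩
  · rintro ⟨h, hx⟩
    exact ⟨⟨x, h⟩, hx, rfl⟩

theorem blockS3d : BlockS3d := by
  intro Γ _ P Q h
  obtain ⟨A, _, f, hf, hP⟩ := exists_hom h
  obtain ⟨r, hr⟩ := dep h f hf hP
  obtain ⟨k, e, he, hx⟩ := exists_family r hr
  let S : ℕ → Submodule ℤ A := fun i => Submodule.span ℤ (e '' {j | (j : ℕ) < i})
  have hSmono : Monotone S := fun i j hij =>
    Submodule.span_mono (Set.image_mono fun l (hl : (l : ℕ) < i) => lt_of_lt_of_le hl hij)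
  have htf : ∀ a : A, ∀ n : ℤ, n ≠ 0 → n • a = 0 → a = 0 := by
    intro a n hn ha
    obtain ⟨m, hm, ha'⟩ := nat_of_iso (S := (⊥ : Submodule ℤ A)) ⟨n, hn, by simpa using ha⟩
    obtain ⟨x, hxa⟩ := hf (Multiplicative.ofAdd a)
    have h1 : f (x ^ m) = 1 := by
      rw [map_pow, hxa]
      apply Multiplicative.toAdd.injective
      rw [toAdd_pow, toAdd_ofAdd, toAdd_one]
      simpa using ha'
    have h2 := (hP _).mp h1
    have h3 := h.tf x x.2 m hm (by simpa using h2)
    rw [← hP, hxa] at h3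
    exact h3
  have hP' : ∀ B : AddSubgroup A, P ≤ pre f B := by
    intro B x hx
    refine mem_pre.mpr ⟨h.le hx, ?_⟩
    rw [(hP ⟨x, h.le hx⟩).mpr hx, toAdd_one]
    exact B.zero_mem
  have hins : ∀ i : Fin k, e '' {j | (j : ℕ) < (i : ℕ) + 1} =
      insert (e i) (e '' {j | (j : ℕ) < i}) := by
    intro i
    rw [← Set.image_insert_eq]
    congr 1
    ext j
    simp only [Set.mem_ofPred_eq, Set.mem_insert_iff, Fin.ext_iff]
    omega
  have hsub : ∀ (B : Submodule ℤ A) (a : A), a ∈ B → a ∈ iso B := fun B a ha =>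
    ⟨1, one_ne_zero, by rwa [one_smul]⟩
  refine ⟨k, fun i => pre f (iso (S i)), ?_, ?_, ?_⟩
  · apply le_antisymm _ (hP' _)
    intro x hx
    obtain ⟨hxQ, n, hn, hx⟩ := mem_pre.mp hx
    have h0 : S 0 = ⊥ := by simp [S]
    rw [h0, Submodule.mem_bot] at hx
    have h1 := htf _ n hn hx
    exact (hP ⟨x, hxQ⟩).mp h1
  · apply le_antisymm
    · intro x hx
      exact (mem_pre.mp hx).1
    · intro x hxQ
      refine mem_pre.mpr ⟨hxQ, ?_⟩
      have h0 : S k = Submodule.span ℤ (Set.range e) := by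
        simp only [S, ← Set.image_univ]
        congr 2
        ext j
        simp
      rw [h0]
      exact hx _
  · intro i hi
    refine ⟨?_, ?_, ?_, ?_, ?_⟩
    · intro x hx
      obtain ⟨hxQ, n, hn, hx⟩ := mem_pre.mp hx
      exact mem_pre.mpr ⟨hxQ, n, hn, hSmono (Nat.le_succ i) hx⟩
    · intro x hx y hy
      exact hP' _ (h.comm x (mem_pre.mp hx).1 y (mem_pre.mp hy).1)
    · intro x hx n hn hxn
      obtain ⟨hxQ, _⟩ := mem_pre.mp hx
      obtain ⟨_, m, hm, hs⟩ := mem_pre.mp hxn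
      refine mem_pre.mpr ⟨hxQ, m * n, mul_ne_zero hm (by exact_mod_cast hn), ?_⟩
      have h1 : f ⟨x ^ n, Q.pow_mem hxQ n⟩ = f ⟨x, hxQ⟩ ^ n := by
        rw [← map_pow]; rfl
      rw [h1, toAdd_pow] at hs
      rwa [mul_smul, natCast_zsmul]
    · obtain ⟨x, hxa⟩ := hf (Multiplicative.ofAdd (e ⟨i, hi⟩))
      refine ⟨x, mem_pre.mpr ⟨x.2, ?_⟩, fun hx => ?_⟩
      · apply hsub
        rw [hxa, toAdd_ofAdd]
        exact Submodule.subset_span ⟨⟨i, hi⟩, by simp, rfl⟩
      · obtain ⟨_, m, hm, hs⟩ := mem_pre.mp hx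
        rw [hxa, toAdd_ofAdd] at hs
        refine hm (he.eq_zero_of_smul_mem_span ⟨i, hi⟩ m ?_)
        refine Submodule.span_mono ?_ hs
        refine Set.image_mono fun j hj => ?_
        simp only [Set.mem_ofPred_eq] at hj
        simp only [Set.mem_sdiff, Set.mem_univ, Set.mem_singleton_iff, true_and]
        rintro rfl
        simp at hj
    · intro x hx y hy
      obtain ⟨hxQ, n, hn, hxs⟩ := mem_pre.mp hx
      obtain ⟨hyQ, m, hm, hys⟩ := mem_pre.mp hy
      have h1 : S (i + 1) = Submodule.span ℤ (insert (e ⟨i, hi⟩) (e '' {j | (j : ℕ) < i})) := by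
        simp only [S]
        rw [← hins ⟨i, hi⟩]
      rw [h1, Submodule.mem_span_insert] at hxs hys
      obtain ⟨α, z, hz, hxs⟩ := hxs
      obtain ⟨β, w, hw, hys⟩ := hys
      have key : ∀ a b : ℤ, a • (f ⟨x, hxQ⟩).toAdd + b • (f ⟨y, hyQ⟩).toAdd ∈ S i →
          x ^ a * y ^ b ∈ pre f (iso (S i)) := by
        intro a b hab
        refine mem_pre.mpr ⟨Q.mul_mem (Q.zpow_mem hxQ a) (Q.zpow_mem hyQ b), hsub _ _ ?_⟩
        have h2 : (⟨x ^ a * y ^ b, Q.mul_mem (Q.zpow_mem hxQ a) (Q.zpow_mem hyQ b)⟩ : Q) =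
            (⟨x, hxQ⟩ : Q) ^ a * (⟨y, hyQ⟩ : Q) ^ b := rfl
        rw [h2, map_mul, map_zpow, map_zpow, toAdd_mul, toAdd_zpow, toAdd_zpow]
        exact hab
      by_cases h0 : α = 0 ∧ β = 0
      · refine ⟨n, 0, Or.inl hn, key _ _ ?_⟩
        rw [zero_smul, add_zero, hxs, h0.1, zero_smul, zero_add]
        exact hz
      · refine ⟨β * n, -(α * m), ?_, key _ _ ?_⟩
        · by_cases hβ : β = 0
          · refine Or.inr (neg_ne_zero.mpr (mul_ne_zero (fun hα => h0 ⟨hα, hβ⟩) hm))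
          · exact Or.inl (mul_ne_zero hβ hn)
        · have h2 : (β * n) • (f ⟨x, hxQ⟩).toAdd + (-(α * m)) • (f ⟨y, hyQ⟩).toAdd =
              β • z - α • w := by
            rw [mul_smul, neg_smul, mul_smul, hxs, hys, smul_add, smul_add, smul_smul, smul_smul,
              mul_comm β α]
            abel
          rw [h2]
          exact Submodule.sub_mem _ (Submodule.smul_mem _ _ hz) (Submodule.smul_mem _ _ hw)

end

end S3de

/-- leaf S3d -/
theorem blockS3d : BlockS3d := S3de.blockS3d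

/-- leaf S3e -/
theorem blockS3e : BlockS3e := S3de.blockS3e

end Vale.Agent.P260.LM
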