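import Vale.Agent.P260.LM.Spec6

/-!
P260, last mile, leaf S4: a filtration of a torsion-free abelian section of finite rank from the
triangularity of solvable linear groups.
-/

namespace Vale.Agent.P260.LM

open scoped commutatorElement

section ch

variable {Γ : Type} [Group Γ] {H P Q : Subgroup Γ}

variable (P Q) in
/-- Complex additive characters of `Q` vanishing on `P`. -/
def Ch : Submodule ℂ (Q → ℂ) where
  carrier := {φ | (∀ x y, φ (x * y) = φ x + φ y) ∧ ∀ x : Q, (x : Γ) ∈ P → φ x = 0}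
  add_mem' := by
    rintro φ ψ ⟨h1, h2⟩ ⟨h3, h4⟩
    refine ⟨fun x y => ?_, fun x hx => ?_⟩
    · rw [Pi.add_apply, Pi.add_apply, Pi.add_apply, h1, h3]
      abel
    · rw [Pi.add_apply, h2 x hx, h4 x hx, add_zero]
  zero_mem' := ⟨fun _ _ => by simp, fun _ _ => rfl⟩
  smul_mem' := by
    rintro c φ ⟨h1, h2⟩
    refine ⟨fun x y => ?_, fun x hx => ?_⟩
    · rw [Pi.smul_apply, Pi.smul_apply, Pi.smul_apply, h1, smul_add]
    · rw [Pi.smul_apply, h2 x hx, smul_zero]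

theorem Ch_mul (φ : Ch P Q) (x y : Q) : φ.1 (x * y) = φ.1 x + φ.1 y := φ.2.1 x y

theorem Ch_one (φ : Ch P Q) : φ.1 1 = 0 := φ.2.2 1 P.one_mem

theorem Ch_inv (φ : Ch P Q) (x : Q) : φ.1 x⁻¹ = -φ.1 x := by
  have h := Ch_mul φ x⁻¹ x
  rw [inv_mul_cancel, Ch_one] at h
  exact eq_neg_of_add_eq_zero_left h.symm

theorem Ch_pow (φ : Ch P Q) (x : Q) (n : ℕ) : φ.1 (x ^ n) = n * φ.1 x := by
  induction n with
  | zero => rw [pow_zero, Ch_one]; simp
  | succ n ih =>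
    rw [pow_succ, Ch_mul, ih]
    push_cast
    ring

theorem Ch_zpow (φ : Ch P Q) (x : Q) (n : ℤ) : φ.1 (x ^ n) = n * φ.1 x := by
  obtain ⟨m, rfl | rfl⟩ := n.eq_nat_or_neg
  · rw [zpow_natCast, Ch_pow]
    simp
  · rw [zpow_neg, Ch_inv, zpow_natCast, Ch_pow]
    push_cast
    ring

/-- The common kernel of a set of characters. -/
def ann (W : Set (Ch P Q)) : Subgroup Γ where
  carrier := {x | ∃ hx : x ∈ Q, ∀ φ ∈ W, φ.1 ⟨x, hx⟩ = 0}
  one_mem' := ⟨Q.one_mem, fun φ _ => Ch_one φ⟩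
  mul_mem' := by
    rintro x y ⟨hx, h1⟩ ⟨hy, h2⟩
    refine ⟨Q.mul_mem hx hy, fun φ hφ => ?_⟩
    have := Ch_mul φ ⟨x, hx⟩ ⟨y, hy⟩
    rw [h1 φ hφ, h2 φ hφ, add_zero] at this
    exact this
  inv_mem' := by
    rintro x ⟨hx, h1⟩
    refine ⟨Q.inv_mem hx, fun φ hφ => ?_⟩
    have := Ch_inv φ ⟨x, hx⟩
    rw [h1 φ hφ, neg_zero] at this
    exact this

theorem mem_ann {W : Set (Ch P Q)} {x : Γ} :
    x ∈ ann W ↔ ∃ hx : x ∈ Q, ∀ φ ∈ W, φ.1 ⟨x, hx⟩ = 0 := Iff.rfl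

theorem ann_le (W : Set (Ch P Q)) : ann W ≤ Q := fun _ ⟨hx, _⟩ => hx

theorem le_ann (hPQ : P ≤ Q) (W : Set (Ch P Q)) : P ≤ ann W :=
  fun _ hx => ⟨hPQ hx, fun φ _ => φ.2.2 _ hx⟩

theorem ann_anti {W W' : Set (Ch P Q)} (h : W ⊆ W') : ann W' ≤ ann W :=
  fun _ ⟨hx, h1⟩ => ⟨hx, fun φ hφ => h1 φ (h hφ)⟩

theorem ann_isolated {W : Set (Ch P Q)} {x : Γ} (hx : x ∈ Q) {n : ℤ} (hn : n ≠ 0)
    (h : x ^ n ∈ ann W) : x ∈ ann W := by
  obtain ⟨h1, h2⟩ := h
  refine ⟨hx, fun φ hφ => ?_⟩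
  have h3 := Ch_zpow φ ⟨x, hx⟩ n
  have h4 : φ.1 (⟨x, hx⟩ ^ n) = 0 := h2 φ hφ
  rw [h4] at h3
  rcases mul_eq_zero.1 h3.symm with h5 | h5
  · exact absurd (by exact_mod_cast h5) hn
  · exact h5

/-- conjugation -/
def cj (hQ : Nrm H Q) (h : H) : Q →* Q where
  toFun x := ⟨h * x * (h : Γ)⁻¹, hQ h h.2 x x.2⟩
  map_one' := by ext; simp
  map_mul' x y := by ext; simp [mul_assoc]

theorem cj_coe (hQ : Nrm H Q) (h : H) (x : Q) : (cj hQ h x : Γ) = h * x * (h : Γ)⁻¹ := rfl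

theorem cj_mul (hQ : Nrm H Q) (g h : H) (x : Q) : cj hQ (g * h) x = cj hQ g (cj hQ h x) := by
  ext
  simp only [cj_coe, Subgroup.coe_mul, mul_inv_rev, mul_assoc]

theorem cj_one (hQ : Nrm H Q) (x : Q) : cj hQ 1 x = x := by
  ext
  simp [cj_coe]

/-- the action on characters -/
def rp (hP : Nrm H P) (hQ : Nrm H Q) : H →* Module.End ℂ (Ch P Q) where
  toFun h :=
    { toFun := fun φ => ⟨fun x => φ.1 (cj hQ h⁻¹ x),
        ⟨fun x y => by simp only [map_mul, Ch_mul], fun x hx => φ.2.2 _ (hP _ (h⁻¹).2 _ hx)⟩⟩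
      map_add' := fun _ _ => rfl
      map_smul' := fun _ _ => rfl }
  map_one' := by
    ext φ x
    change φ.1 (cj hQ 1⁻¹ x) = φ.1 x
    rw [inv_one, cj_one]
  map_mul' g h := by
    ext φ x
    change φ.1 (cj hQ (g * h)⁻¹ x) = φ.1 (cj hQ h⁻¹ (cj hQ g⁻¹ x))
    rw [mul_inv_rev, cj_mul]

theorem rp_apply (hP : Nrm H P) (hQ : Nrm H Q) (h : H) (φ : Ch P Q) (x : Q) :
    (rp hP hQ h φ).1 x = φ.1 (cj hQ h⁻¹ x) := rfl

/-- A maximal independent family. -/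
theorem FR.exists_max (h : FR P Q) : ∃ (r : ℕ) (e : Fin r → Γ), (∀ i, e i ∈ Q) ∧
    ∀ y ∈ Q, ∃ n : ℤ, n ≠ 0 ∧ ∃ z ∈ Subgroup.closure (Set.range e), y ^ n * z ∈ P := by
  classical
  have hr := h.rk
  obtain ⟨s, hs⟩ : ∃ s, Nat.find hr = s + 1 := by
    refine Nat.exists_eq_succ_of_ne_zero fun h0 => ?_
    have h1 := Nat.find_spec hr
    rw [h0] at h1
    obtain ⟨c, hc, -⟩ := h1 (fun i => i.elim0) fun i => i.elim0
    exact hc (funext fun i => i.elim0)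
  have h1 := Nat.find_spec hr
  rw [hs] at h1
  have h2 := Nat.find_min hr (m := s) (by omega)
  push Not at h2
  obtain ⟨e, heQ, he⟩ := h2
  refine ⟨s, e, heQ, fun y hy => ?_⟩
  obtain ⟨c, hc, hcP⟩ := h1 (Fin.cons y e) (fun i => by
    refine Fin.cases ?_ (fun j => ?_) i
    · simpa using hy
    · simpa using heQ j)
  rw [List.ofFn_succ, List.prod_cons] at hcP
  simp only [Fin.cons_zero, Fin.cons_succ] at hcP
  have hz : (List.ofFn fun i : Fin s => e i ^ c i.succ).prod ∈ Subgroup.closure (Set.range e) := by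
    refine Subgroup.list_prod_mem _ fun x hx => ?_
    rw [List.mem_ofFn] at hx
    obtain ⟨i, rfl⟩ := hx
    exact Subgroup.zpow_mem _ (Subgroup.subset_closure (Set.mem_range_self i)) _
  have hc0 : c 0 ≠ 0 := by
    intro h0
    rw [h0, zpow_zero, one_mul] at hcP
    refine he (fun i => c i.succ) (fun h3 => hc ?_) hcP
    funext i
    refine Fin.cases h0 (fun j => ?_) i
    exact congrFun h3 j
  exact ⟨c 0, hc0, _, hz, hcP⟩

theorem Ch_finiteDimensional (h : FR P Q) : FiniteDimensional ℂ (Ch P Q) := by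
  obtain ⟨r, e, he, hm⟩ := h.exists_max
  let ev : Ch P Q →ₗ[ℂ] (Fin r → ℂ) :=
    { toFun := fun φ i => φ.1 ⟨e i, he i⟩
      map_add' := fun _ _ => rfl
      map_smul' := fun _ _ => rfl }
  refine FiniteDimensional.of_injective ev ?_
  rw [injective_iff_map_eq_zero]
  intro φ hφ
  have h0 : ∀ i, φ.1 ⟨e i, he i⟩ = 0 := fun i => congrFun hφ i
  have hcl : Subgroup.closure (Set.range e) ≤ ann {φ} := by
    rw [Subgroup.closure_le]
    rintro _ ⟨i, rfl⟩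
    exact ⟨he i, fun ψ hψ => by rw [Set.mem_singleton_iff.1 hψ]; exact h0 i⟩
  have hP : P ≤ ann {φ} := le_ann h.le _
  refine Subtype.ext (funext fun y => ?_)
  obtain ⟨n, hn, z, hz, hp⟩ := hm y y.2
  have h1 : (y : Γ) ^ n ∈ ann {φ} := by
    have h2 := Subgroup.mul_mem _ (hP hp) (Subgroup.inv_mem _ (hcl hz))
    rwa [mul_inv_cancel_right] at h2
  obtain ⟨_, h3⟩ := ann_isolated y.2 hn h1
  exact h3 φ rfl

theorem Ch_separates (h : FR P Q) {x : Γ} (hx : x ∈ Q) (hxP : x ∉ P) :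
    ∃ φ : Ch P Q, φ.1 ⟨x, hx⟩ ≠ 0 := by
  have hnorm : (P.subgroupOf Q).Normal := by
    constructor
    intro n hn g
    rw [Subgroup.mem_subgroupOf] at hn ⊢
    have h1 := h.comm g g.2 n n.2
    have e : ((g * n * g⁻¹ : Q) : Γ) = ⁅(g : Γ), (n : Γ)⁆ * n := by
      rw [commutatorElement_def]
      push_cast
      group
    rw [e]
    exact P.mul_mem h1 hn
  have hcomm : ∀ a b : Q ⧸ P.subgroupOf Q, a * b = b * a := by
    intro a b
    obtain ⟨x, rfl⟩ := QuotientGroup.mk_surjective a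
    obtain ⟨y, rfl⟩ := QuotientGroup.mk_surjective b
    rw [← QuotientGroup.mk_mul, ← QuotientGroup.mk_mul, QuotientGroup.eq,
      Subgroup.mem_subgroupOf]
    have h1 := h.comm y⁻¹ (Q.inv_mem y.2) x⁻¹ (Q.inv_mem x.2)
    have e : (((x * y)⁻¹ * (y * x) : Q) : Γ) = ⁅(y : Γ)⁻¹, (x : Γ)⁻¹⁆ := by
      rw [commutatorElement_def]
      push_cast
      group
    rw [e]
    exact h1
  let _ : CommGroup (Q ⧸ P.subgroupOf Q) :=
    { (inferInstance : Group (Q ⧸ P.subgroupOf Q)) with mul_comm := hcomm }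
  let A := Additive (Q ⧸ P.subgroupOf Q)
  let π : Q → A := fun y => Additive.ofMul (QuotientGroup.mk y)
  have hπ0 : ∀ y : Q, π y = 0 ↔ (y : Γ) ∈ P := by
    intro y
    change Additive.ofMul (QuotientGroup.mk y) = 0 ↔ _
    rw [ofMul_eq_zero, QuotientGroup.eq_one_iff, Subgroup.mem_subgroupOf]
  have hπmul : ∀ y z : Q, π (y * z) = π y + π z := fun _ _ => rfl
  let a : A := π ⟨x, hx⟩
  let f : ℤ →+ A := (zmultiplesHom A) a
  have hf : Function.Injective f := by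
    rw [injective_iff_map_eq_zero]
    intro n hn
    by_contra h0
    refine hxP (h.tf x hx n.natAbs (Int.natAbs_ne_zero.2 h0) ?_)
    have h1 : π (⟨x, hx⟩ ^ n) = 0 := hn
    rw [hπ0] at h1
    have h2 : x ^ n ∈ P := by simpa using h1
    rcases Int.natAbs_eq n with e | e
    · rw [e, zpow_natCast] at h2
      exact h2
    · rw [e, zpow_neg, zpow_natCast] at h2
      exact P.inv_mem_iff.1 h2
  obtain ⟨g, hg⟩ := (Module.Baer.of_divisible ℂ).extension_property_addMonoidHom f hf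
    (Int.castAddHom ℂ)
  have hg1 : g a = 1 := by
    have := DFunLike.congr_fun hg 1
    simpa [f] using this
  refine ⟨⟨fun y => g (π y), ⟨fun y z => ?_, fun y hy => ?_⟩⟩, ?_⟩
  · simp only [hπmul, map_add]
  · simp only [(hπ0 y).2 hy, map_zero]
  · change g a ≠ 0
    rw [hg1]
    exact one_ne_zero

end ch

/-- Leaf S4. -/
theorem blockS4_of (h1 : BlockS1) (h3c : BlockS3c) : BlockS4 := by
  intro Γ _ H P Q hsol hP hQ hfr
  have := Ch_finiteDimensional hfr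
  obtain ⟨Γ1, hΓ1, W, m, hW0, hWm, hmono, hflag⟩ := h1 (Ch P Q) H (rp hP hQ) hsol
  -- invariance
  have hinv : ∀ g ∈ Γ1, ∀ i, ∀ φ ∈ W i, rp hP hQ g φ ∈ W i := by
    intro g hg i φ hφ
    rcases i with _ | i
    · rw [hW0, Submodule.mem_bot] at hφ
      rw [hφ, map_zero]
      exact Submodule.zero_mem _
    · obtain ⟨c, hc⟩ := hflag g hg i
      have h2 := Submodule.add_mem _ (hmono (Nat.le_succ i) (hc φ hφ)) (Submodule.smul_mem _ c hφ)
      rwa [sub_add_cancel] at h2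
  -- commutators
  have hcomm : ∀ x ∈ Γ1, ∀ y ∈ Γ1, ∀ i, ∀ φ ∈ W (i + 1), rp hP hQ ⁅x, y⁆ φ - φ ∈ W i := by
    intro x hx y hy i φ hφ
    obtain ⟨a, ha⟩ := hflag x hx i
    obtain ⟨b, hb⟩ := hflag y hy i
    set ρ := rp hP hQ with hρ
    have key : ∀ ψ ∈ W (i + 1), ρ (x * y) ψ - ρ (y * x) ψ ∈ W i := by
      intro ψ hψ
      have h2 : ρ x (ρ y ψ - b • ψ) ∈ W i := hinv x hx i _ (hb ψ hψ)
      have h3 : ρ y (ρ x ψ - a • ψ) ∈ W i := hinv y hy i _ (ha ψ hψ)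
      have h4 := Submodule.smul_mem _ b (ha ψ hψ)
      have h5 := Submodule.smul_mem _ a (hb ψ hψ)
      have h6 := Submodule.sub_mem _ (Submodule.add_mem _ h2 h4) (Submodule.add_mem _ h3 h5)
      have e : ρ (x * y) ψ - ρ (y * x) ψ = ρ x (ρ y ψ - b • ψ) + b • (ρ x ψ - a • ψ) -
          (ρ y (ρ x ψ - a • ψ) + a • (ρ y ψ - b • ψ)) := by
        rw [map_mul, map_mul, Module.End.mul_apply, Module.End.mul_apply, map_sub, map_sub,
          map_smul, map_smul, smul_sub, smul_sub, smul_smul, smul_smul, mul_comm a b]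
        abel
      rw [e]
      exact h6
    have h7 := key (ρ (y * x)⁻¹ φ)
      (hinv _ (Γ1.inv_mem (Γ1.mul_mem hy hx)) _ _ hφ)
    have e1 : ρ (x * y) (ρ (y * x)⁻¹ φ) = ρ ⁅x, y⁆ φ := by
      rw [← Module.End.mul_apply, ← map_mul]
      congr 2
      rw [commutatorElement_def]
      group
    have e2 : ρ (y * x) (ρ (y * x)⁻¹ φ) = φ := by
      rw [← Module.End.mul_apply, ← map_mul, mul_inv_cancel, map_one, Module.End.one_apply]
    rwa [e1, e2] at h7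
  let F : ℕ → Subgroup Γ := fun i => ann (W i : Set (Ch P Q))
  have hF : ∀ i, F i = ann (W i : Set (Ch P Q)) := fun _ => rfl
  refine ⟨Γ1.map H.subtype, ?_, ?_, m, F, ⟨?_, ?_, ?_, ?_⟩, ?_⟩
  · rintro _ ⟨g, -, rfl⟩
    exact g.2
  · have e : (Γ1.map H.subtype).relIndex H = Γ1.index := by
      rw [Subgroup.relIndex, Subgroup.subgroupOf, Subgroup.comap_map_eq_self_of_injective
        H.subtype_injective]
    rw [e]
    exact hΓ1.index_ne_zero
  · rw [hF, hW0]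
    refine le_antisymm (ann_le _) fun x hx => ⟨hx, fun φ hφ => ?_⟩
    have h2 : φ = 0 := by simpa using hφ
    rw [h2]
    rfl
  · intro i hi
    have h2 : W i = ⊤ := top_le_iff.1 (hWm ▸ hmono hi)
    rw [hF, h2]
    refine le_antisymm ?_ (le_ann hfr.le _)
    rintro x ⟨hx, h3⟩
    by_contra hxP
    obtain ⟨φ, hφ⟩ := Ch_separates hfr hx hxP
    exact hφ (h3 φ (Set.mem_univ _))
  · intro i
    refine h3c Γ P Q _ _ hfr (le_ann hfr.le _) (ann_anti ?_) (ann_le _) ?_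
    · exact hmono (Nat.le_succ i)
    · intro x hx n hn hxn
      refine ann_isolated (n := n) (ann_le _ hx) (by exact_mod_cast hn) ?_
      rwa [zpow_natCast]
  · rintro i _ ⟨k, hk, rfl⟩ z ⟨hz, hz'⟩
    refine ⟨hQ k k.2 z hz, fun φ hφ => ?_⟩
    have h2 := hz' _ (hinv k⁻¹ (Γ1.inv_mem hk) i φ hφ)
    rw [rp_apply] at h2
    rw [inv_inv] at h2
    exact h2
  · rintro i _ ⟨x, hx, rfl⟩ _ ⟨y, hy, rfl⟩ z ⟨hz, hz'⟩
    set g : H := ⁅x, y⁆ with hg
    have hg' : ⁅(H.subtype x), (H.subtype y)⁆ = (g : Γ) := by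
      rw [hg]
      rfl
    rw [hg', mem_ann]
    have hgz : (g : Γ) * z * (g : Γ)⁻¹ ∈ Q := hQ g g.2 z hz
    refine ⟨?_, fun φ hφ => ?_⟩
    · rw [commutatorElement_def]
      exact Q.mul_mem hgz (Q.inv_mem hz)
    · have h2 := hcomm y hy x hx i φ hφ
      have h3 := hz' _ h2
      have e3 : (⁅y, x⁆ : H)⁻¹ = g := by rw [hg, commutatorElement_inv]
      have h4 : φ.1 (cj hQ g ⟨z, hz⟩) - φ.1 ⟨z, hz⟩ = 0 := by
        rw [← e3]
        exact h3
      have h5 := Ch_mul φ (cj hQ g ⟨z, hz⟩) (⟨z, hz⟩⁻¹)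
      rw [Ch_inv, ← sub_eq_add_neg, h4] at h5
      exact h5

end Vale.Agent.P260.LM
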