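import Vale.Agent.P260.LM.S5a

/-!
P260, last mile, leaf S5: a finitely generated torsion-free virtually solvable group whose abelian
subgroups have bounded rank has a finite index subgroup with a normal series with torsion-free
abelian factors of finite rank, nilpotent-by-abelian.
-/

namespace Vale.Agent.P260.LM

open scoped commutatorElement

namespace S5

variable {Γ : Type} [Group Γ]

theorem cml (u v x : Γ) : ⁅u * v, x⁆ = u * ⁅v, x⁆ * u⁻¹ * ⁅u, x⁆ := by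
  simp only [commutatorElement_def]; group

theorem cil (u x : Γ) : ⁅u⁻¹, x⁆ = u⁻¹ * ⁅u, x⁆⁻¹ * u := by
  simp only [commutatorElement_def]; group

theorem filt_anti {K P Q : Subgroup Γ} {F : ℕ → Subgroup Γ} {m : ℕ} (h : Filt K P Q F m) :
    Antitone F := antitone_nat_of_succ_le fun i => (h.fr i).le

theorem filt_ge {K P Q : Subgroup Γ} {F : ℕ → Subgroup Γ} {m : ℕ} (h : Filt K P Q F m) (i : ℕ) :
    P ≤ F i := by
  rw [← h.last (max i m) (le_max_right _ _)]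
  exact filt_anti h (le_max_left _ _)

theorem filt_le {K P Q : Subgroup Γ} {F : ℕ → Subgroup Γ} {m : ℕ} (h : Filt K P Q F m) (i : ℕ) :
    F i ≤ Q := by
  rw [← h.zero]
  exact filt_anti h (Nat.zero_le _)

theorem finiteIndex_map_subtype (H : Subgroup Γ) (K : Subgroup H) (hH : H.FiniteIndex)
    (hK : K.FiniteIndex) : (K.map H.subtype).FiniteIndex := by
  refine ⟨?_⟩
  rw [Subgroup.index_map, Subgroup.ker_subtype, sup_bot_eq, Subgroup.range_subtype]
  exact mul_ne_zero hK.index_ne_zero hH.index_ne_zero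

/-- A group `Γ1` with a normal subgroup with abelian quotient: some finite index subgroup is an
extension of `ℤ^k` by the same subgroup. -/
theorem exists_free_quotient {Γ1 U : Subgroup Γ} (hfg : Γ1.FG)
    (hΓ1 : Γ1.FiniteIndex) (hUΓ : U ≤ Γ1) (hcomm : ∀ a ∈ Γ1, ∀ b ∈ Γ1, ⁅a, b⁆ ∈ U)
    (hnorm : ∀ a ∈ Γ1, ∀ u ∈ U, a * u * a⁻¹ ∈ U) :
    ∃ G1 : Subgroup Γ, G1.FiniteIndex ∧ G1 ≤ Γ1 ∧ U ≤ G1 ∧ ∃ (k : ℕ)
      (η : G1 →* Multiplicative (Fin k → ℤ)), ∀ g : G1, η g = 1 ↔ (g : Γ) ∈ U := by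
  classical
  let U' : Subgroup Γ1 := U.subgroupOf Γ1
  have hU'n : U'.Normal := by
    constructor
    intro u hu g
    rw [Subgroup.mem_subgroupOf] at hu ⊢
    exact hnorm g g.2 u hu
  have hcommQ : ∀ a b : Γ1 ⧸ U', a * b = b * a := by
    intro a b
    induction a using QuotientGroup.induction_on with | H a => ?_
    induction b using QuotientGroup.induction_on with | H b => ?_
    rw [← QuotientGroup.mk_mul, ← QuotientGroup.mk_mul, QuotientGroup.eq,
      Subgroup.mem_subgroupOf]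
    have h1 := hcomm (b : Γ)⁻¹ (Γ1.inv_mem b.2) (a : Γ)⁻¹ (Γ1.inv_mem a.2)
    have h2 : (((a * b)⁻¹ * (b * a) : Γ1) : Γ) = ⁅(b : Γ)⁻¹, (a : Γ)⁻¹⁆ := by
      rw [commutatorElement_def]; push_cast; group
    rw [h2]; exact h1
  let _ : CommGroup (Γ1 ⧸ U') :=
    { (inferInstance : Group (Γ1 ⧸ U')) with mul_comm := hcommQ }
  have hfgΓ : Group.FG Γ1 := (Group.fg_iff_subgroup_fg Γ1).2 hfg
  have hfgQ : Group.FG (Γ1 ⧸ U') := QuotientGroup.fg _
  obtain ⟨ι, j, hι, hj, p, hp, e, ⟨E⟩⟩ :=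
    CommGroup.equiv_free_prod_prod_multiplicative_zmod (Γ1 ⧸ U')
  let π : Γ1 →* (j → Multiplicative ℤ) × ((i : ι) → Multiplicative (ZMod (p i ^ e i))) :=
    E.toMonoidHom.comp (QuotientGroup.mk' U')
  have hπker : ∀ g : Γ1, π g = 1 ↔ (g : Γ) ∈ U := by
    intro g
    change E (QuotientGroup.mk' U' g) = 1 ↔ _
    rw [map_eq_one_iff E E.injective]
    rw [QuotientGroup.mk'_apply, QuotientGroup.eq_one_iff, Subgroup.mem_subgroupOf]
  have hfinF : Finite ((i : ι) → Multiplicative (ZMod (p i ^ e i))) := by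
    have : ∀ i, NeZero (p i ^ e i) := fun i => ⟨pow_ne_zero _ (hp i).ne_zero⟩
    have : ∀ i, Finite (Multiplicative (ZMod (p i ^ e i))) := fun i =>
      (inferInstance : Finite (ZMod (p i ^ e i)))
    infer_instance
  let π2 : Γ1 →* ((i : ι) → Multiplicative (ZMod (p i ^ e i))) := (MonoidHom.snd _ _).comp π
  let K : Subgroup Γ1 := π2.ker
  have hK : K.FiniteIndex := by
    have : Finite π2.range := inferInstance
    exact Subgroup.finiteIndex_ker π2
  refine ⟨K.map Γ1.subtype, finiteIndex_map_subtype Γ1 K hΓ1 hK, ?_, ?_, Fintype.card j, ?_⟩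
  · rintro _ ⟨x, _, rfl⟩; exact x.2
  · intro u hu
    refine ⟨⟨u, hUΓ hu⟩, ?_, rfl⟩
    change (π ⟨u, hUΓ hu⟩).2 = 1
    rw [(hπker ⟨u, hUΓ hu⟩).2 hu]; rfl
  · let r : j ≃ Fin (Fintype.card j) := Fintype.equivFin j
    have hG1 : ∀ g : K.map Γ1.subtype, (g : Γ) ∈ Γ1 := by
      rintro ⟨_, ⟨x, _, rfl⟩⟩; exact x.2
    have hG1K : ∀ g : K.map Γ1.subtype, (π ⟨g, hG1 g⟩).2 = 1 := by
      rintro ⟨_, ⟨x, hx, rfl⟩⟩; exact hx
    let η : K.map Γ1.subtype →* Multiplicative (Fin (Fintype.card j) → ℤ) :=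
      { toFun := fun g => Multiplicative.ofAdd (fun i => Multiplicative.toAdd
          ((π ⟨g, hG1 g⟩).1 (r.symm i)))
        map_one' := by
          have : π ⟨((1 : K.map Γ1.subtype) : Γ), hG1 1⟩ = 1 := by
            have e1 : (⟨((1 : K.map Γ1.subtype) : Γ), hG1 1⟩ : Γ1) = 1 := rfl
            rw [e1, map_one]
          rw [this]; rfl
        map_mul' := by
          intro a b
          have : π ⟨((a * b : K.map Γ1.subtype) : Γ), hG1 _⟩ = π ⟨a, hG1 a⟩ * π ⟨b, hG1 b⟩ := by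
            rw [← map_mul]; rfl
          rw [this]; rfl }
    refine ⟨η, ?_⟩
    intro g
    rw [← hπker ⟨g, hG1 g⟩]
    constructor
    · intro h
      refine Prod.ext ?_ (hG1K g)
      funext i
      have h1 := congrFun (congrArg Multiplicative.toAdd h) (r i)
      change Multiplicative.toAdd ((π ⟨g, hG1 g⟩).1 (r.symm (r i))) = 0 at h1
      rw [Equiv.symm_apply_apply] at h1
      change (π ⟨g, hG1 g⟩).1 i = 1
      rw [← ofAdd_toAdd ((π ⟨g, hG1 g⟩).1 i), h1, ofAdd_zero]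
    · intro h
      change Multiplicative.ofAdd (fun i => Multiplicative.toAdd
        ((π ⟨g, hG1 g⟩).1 (r.symm i))) = 1
      rw [h]; rfl

/-- extension of `ℤ^k` -/
theorem fr_free {G1 U : Subgroup Γ} (hU : U ≤ G1) (hcomm : ∀ a ∈ G1, ∀ b ∈ G1, ⁅a, b⁆ ∈ U)
    {k : ℕ} (η : G1 →* Multiplicative (Fin k → ℤ)) (hη : ∀ g : G1, η g = 1 ↔ (g : Γ) ∈ U) :
    FR U G1 := by
  refine ⟨hU, hcomm, ?_, k + 1, ?_⟩
  · intro x hx n hn hxn
    have h1 : η (⟨x, hx⟩ ^ n) = 1 := (hη _).2 hxn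
    rw [map_pow] at h1
    refine (hη ⟨x, hx⟩).1 ?_
    have h2 : n • Multiplicative.toAdd (η ⟨x, hx⟩) = 0 := by
      rw [← toAdd_pow, h1]; rfl
    have h3 : Multiplicative.toAdd (η ⟨x, hx⟩) = 0 := by
      funext i
      have := congrFun h2 i
      simpa [hn] using this
    exact Multiplicative.toAdd.injective h3
  · intro x hx
    let y : Fin (k + 1) → G1 := fun i => ⟨x i, hx i⟩
    let v : Fin (k + 1) → (Fin k → ℤ) := fun i => Multiplicative.toAdd (η (y i))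
    have hv : ¬ LinearIndependent ℤ v := by
      intro h
      have := h.fintype_card_le_finrank
      simp at this
    obtain ⟨c, hc, i, hi⟩ := Fintype.not_linearIndependent_iff.1 hv
    refine ⟨c, fun h => hi (by rw [h]; rfl), ?_⟩
    have h1 : (List.ofFn fun i => x i ^ c i).prod = (((List.ofFn fun i => y i ^ c i).prod : G1) : Γ) := by
      change _ = G1.subtype _
      rw [map_list_prod, List.map_ofFn]
      rfl
    rw [h1, ← hη, map_list_prod, List.map_ofFn, List.prod_ofFn]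
    refine Multiplicative.toAdd.injective ?_
    rw [toAdd_prod, toAdd_one, ← hc]
    refine Finset.sum_congr rfl fun i _ => ?_
    simp only [Function.comp, map_zpow, toAdd_zpow, v]

/-- intersection with a subgroup -/
theorem FR.inf {P Q : Subgroup Γ} (h : FR P Q) (K : Subgroup Γ) : FR (P ⊓ K) (Q ⊓ K) := by
  refine ⟨inf_le_inf_right _ h.le, ?_, ?_, ?_⟩
  · rintro x ⟨hx, hx'⟩ y ⟨hy, hy'⟩
    have h1 : ⁅x, y⁆ ∈ K := by
      rw [commutatorElement_def]
      exact mul_mem (mul_mem (mul_mem hx' hy') (inv_mem hx')) (inv_mem hy')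
    exact ⟨h.comm x hx y hy, h1⟩
  · rintro x ⟨hx, hx'⟩ n hn ⟨hxn, _⟩
    exact ⟨h.tf x hx n hn hxn, hx'⟩
  · obtain ⟨r, hr⟩ := h.rk
    refine ⟨r, fun x hx => ?_⟩
    obtain ⟨c, hc, hp⟩ := hr x fun i => (hx i).1
    have h1 : (List.ofFn fun i => x i ^ c i).prod ∈ K := by
      refine list_prod_mem ?_
      intro z hz
      rw [List.mem_ofFn] at hz
      obtain ⟨i, rfl⟩ := hz
      have h2 : x i ∈ K := (hx i).2
      exact K.zpow_mem h2 _
    exact ⟨c, hc, hp, h1⟩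

theorem filt_mono {K K' P Q : Subgroup Γ} {F : ℕ → Subgroup Γ} {m : ℕ} (h : Filt K P Q F m)
    (hK : K' ≤ K) : Filt K' P Q F m :=
  ⟨h.zero, h.last, h.fr, fun i x hx => h.nrm i x (hK hx)⟩

/-- the elements of `K` moving every `F i` one step down -/
def St {K P Q : Subgroup Γ} {F : ℕ → Subgroup Γ} {m : ℕ} (h : Filt K P Q F m) : Subgroup Γ where
  carrier := {u | u ∈ K ∧ ∀ i, ∀ x ∈ F i, ⁅u, x⁆ ∈ F (i + 1)}
  one_mem' := ⟨one_mem _, fun i x _ => by simp⟩
  mul_mem' := by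
    rintro u v ⟨hu, hu'⟩ ⟨hv, hv'⟩
    refine ⟨mul_mem hu hv, fun i x hx => ?_⟩
    rw [cml]
    exact mul_mem (h.nrm _ u hu _ (hv' i x hx)) (hu' i x hx)
  inv_mem' := by
    rintro u ⟨hu, hu'⟩
    refine ⟨inv_mem hu, fun i x hx => ?_⟩
    rw [cil]
    have := h.nrm (i + 1) u⁻¹ (inv_mem hu) _ (inv_mem (hu' i x hx))
    rwa [inv_inv] at this

theorem St_nrm {K P Q : Subgroup Γ} {F : ℕ → Subgroup Γ} {m : ℕ} (h : Filt K P Q F m) :
    Nrm K (St h) := by
  rintro k hk u ⟨hu, hu'⟩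
  refine ⟨mul_mem (mul_mem hk hu) (inv_mem hk), fun i x hx => ?_⟩
  have h1 : ⁅k * u * k⁻¹, x⁆ = k * ⁅u, k⁻¹ * x * k⁆ * k⁻¹ := by
    simp only [commutatorElement_def]; group
  rw [h1]
  refine h.nrm _ k hk _ (hu' i _ ?_)
  have := h.nrm i k⁻¹ (inv_mem hk) x hx
  rwa [inv_inv] at this

end S5

theorem blockS5_of (h2 : BlockS2) (h4 : BlockS4) (h5 : BlockS5a') : BlockS5 := by
  classical
  intro Γ _ hfg htf hr ⟨H, hHfin, hHsol⟩
  obtain ⟨A, B, C, hBH, hCH, nA, nB, nC, frA, frAB, frAC, cA, cB, cmax⟩ := h2 Γ htf hr H hHsol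
  have nbot : Nrm H ⊥ := by
    intro x _ y hy
    rw [Subgroup.mem_bot] at hy ⊢
    simp [hy]
  obtain ⟨K1, hK1, rK1, a, FA, fA, aA⟩ := h4 Γ H ⊥ A hHsol nbot nA frA
  obtain ⟨K2, hK2, rK2, b, FB, fB, aB⟩ := h4 Γ H A B hHsol nA nB frAB
  obtain ⟨K3, hK3, rK3, c, FC, fC, aC⟩ := h4 Γ H A C hHsol nA nC frAC
  -- the intersection
  obtain ⟨K, hKdef⟩ : ∃ K, K = K1 ⊓ (K2 ⊓ K3) := ⟨_, rfl⟩
  have k1 : K ≤ K1 := hKdef.le.trans inf_le_left
  have k2 : K ≤ K2 := hKdef.le.trans (inf_le_right.trans inf_le_left)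
  have k3 : K ≤ K3 := hKdef.le.trans (inf_le_right.trans inf_le_right)
  have kH : K ≤ H := k1.trans hK1
  have hKfin : K.FiniteIndex := by
    refine ⟨?_⟩
    rw [← Subgroup.relIndex_mul_index kH, hKdef]
    exact mul_ne_zero (Subgroup.relIndex_inf_ne_zero rK1 (Subgroup.relIndex_inf_ne_zero rK2 rK3))
      hHfin.index_ne_zero
  have gA := S5.filt_mono fA k1
  have gB := S5.filt_mono fB k2
  have gC := S5.filt_mono fC k3
  obtain ⟨U, hUdef⟩ : ∃ U, U = S5.St gA ⊓ (S5.St gB ⊓ S5.St gC) := ⟨_, rfl⟩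
  have memU : ∀ u, u ∈ U ↔ u ∈ K ∧ (∀ i, ∀ x ∈ FA i, ⁅u, x⁆ ∈ FA (i + 1)) ∧
      (∀ i, ∀ x ∈ FB i, ⁅u, x⁆ ∈ FB (i + 1)) ∧ (∀ i, ∀ x ∈ FC i, ⁅u, x⁆ ∈ FC (i + 1)) := by
    intro u
    rw [hUdef]
    constructor
    · rintro ⟨h1, h2, h3⟩
      exact ⟨h1.1, h1.2, h2.2, h3.2⟩
    · rintro ⟨h, h1, h2, h3⟩
      exact ⟨⟨h, h1⟩, ⟨h, h2⟩, ⟨h, h3⟩⟩
  have hUK : U ≤ K := fun u hu => ((memU u).1 hu).1
  have nU : Nrm K U := by
    intro k hk u hu
    rw [hUdef] at hu ⊢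
    exact ⟨S5.St_nrm gA k hk u hu.1, S5.St_nrm gB k hk u hu.2.1, S5.St_nrm gC k hk u hu.2.2⟩
  have commKU : ∀ x ∈ K, ∀ y ∈ K, ⁅x, y⁆ ∈ U := by
    intro x hx y hy
    refine (memU _).2 ⟨?_, fun i z hz => aA i x (k1 hx) y (k1 hy) z hz,
      fun i z hz => aB i x (k2 hx) y (k2 hy) z hz, fun i z hz => aC i x (k3 hx) y (k3 hy) z hz⟩
    rw [commutatorElement_def]
    exact mul_mem (mul_mem (mul_mem hx hy) (inv_mem hx)) (inv_mem hy)
  have hCU : C ⊓ K ≤ U := by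
    rintro x ⟨hxC, hxK⟩
    refine (memU x).2 ⟨hxK, fun i z hz => ?_, fun i z hz => ?_, fun i z hz => ?_⟩
    · rw [cA x hxC z (S5.filt_le gA i hz)]; exact one_mem _
    · exact S5.filt_ge gB _ (cB x hxC z (S5.filt_le gB i hz))
    · exact S5.filt_ge gC _ (frAC.comm x hxC z (S5.filt_le gC i hz))
  obtain ⟨m, W, W0, frW, nW, cW, lW⟩ := h5 Γ K U A B FA FB a b frA frAB gA gB
    hUK nU (fun u hu => ((memU u).1 hu).2.1) (fun u hu => ((memU u).1 hu).2.2.1)
  have Wm : W m = C ⊓ K := by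
    ext u
    rw [lW m le_rfl u]
    constructor
    · rintro ⟨h1, h2, h3⟩
      exact ⟨cmax u (kH (hUK h1)) h2 h3, hUK h1⟩
    · rintro ⟨h1, h2⟩
      exact ⟨hCU ⟨h1, h2⟩, cA u h1, cB u h1⟩
  -- the top quotient
  have hKfg : K.FG := by
    have := hfg
    exact (Group.fg_iff_subgroup_fg K).1 inferInstance
  obtain ⟨G1, hG1fin, hG1K, hUG1, k, η, hη⟩ := S5.exists_free_quotient hKfg hKfin hUK commKU nU
  have frG : FR U G1 := S5.fr_free hUG1 (fun x hx y hy => commKU x (hG1K hx) y (hG1K hy)) η hη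
  -- the series
  obtain ⟨M, hM⟩ : ∃ M : ℕ → Subgroup Γ, M = fun i =>
    if i ≤ a then FA (a - i) ⊓ K else if i ≤ a + c then FC (a + c - i) ⊓ K else
    if i ≤ a + c + m then W (a + c + m - i) else G1 := ⟨_, rfl⟩
  have m1 : ∀ i ≤ a, M i = FA (a - i) ⊓ K := by
    intro i hi
    rw [hM]; simp only [if_pos hi]
  have hAC : FA 0 = FC c := by rw [gA.zero, gC.last c le_rfl]
  have m2 : ∀ i, a ≤ i → i ≤ a + c → M i = FC (a + c - i) ⊓ K := by
    intro i hi hi'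
    rcases hi.eq_or_lt with h | h
    · subst h
      rw [m1 a le_rfl, Nat.sub_self, hAC, Nat.add_sub_cancel_left]
    · rw [hM]; simp only [if_neg (not_le.2 h), if_pos hi']
  have hCW : FC 0 ⊓ K = W m := by rw [gC.zero, Wm]
  have m3 : ∀ i, a + c ≤ i → i ≤ a + c + m → M i = W (a + c + m - i) := by
    intro i hi hi'
    rcases hi.eq_or_lt with h | h
    · subst h
      rw [m2 (a + c) (by omega) le_rfl, Nat.sub_self, hCW, Nat.add_sub_cancel_left]
    · rw [hM]; simp only [if_neg (not_le.2 h), if_neg (show ¬ i ≤ a by omega), if_pos hi']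
  have m4 : M (a + c + m + 1) = G1 := by
    rw [hM]
    simp only [if_neg (show ¬ a + c + m + 1 ≤ a by omega),
      if_neg (show ¬ a + c + m + 1 ≤ a + c by omega),
      if_neg (show ¬ a + c + m + 1 ≤ a + c + m by omega)]
  have mU : M (a + c + m) = U := by rw [m3 _ (by omega) le_rfl, Nat.sub_self, W0]
  have comm_mem : ∀ x ∈ K, ∀ y ∈ K, ⁅x, y⁆ ∈ K := fun x hx y hy => hUK (commKU x hx y hy)
  refine ⟨G1, M, a + c + m + 1, a + c + m, hG1fin, ⟨Nat.le_succ _, ?_, m4, ?_, ?_, ?_, ?_⟩⟩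
  · rw [m1 0 (Nat.zero_le _), Nat.sub_zero, gA.last a le_rfl, bot_inf_eq]
  · intro i hi
    by_cases h1 : i < a
    · rw [m1 i h1.le, m1 (i + 1) h1]
      obtain ⟨j, rfl⟩ : ∃ j, a = i + 1 + j := ⟨a - (i + 1), by omega⟩
      rw [show i + 1 + j - i = j + 1 by omega, show i + 1 + j - (i + 1) = j by omega]
      exact S5.FR.inf (gA.fr j) K
    by_cases h2 : i < a + c
    · rw [m2 i (by omega) h2.le, m2 (i + 1) (by omega) h2]
      obtain ⟨j, hj⟩ : ∃ j, a + c = i + 1 + j := ⟨a + c - (i + 1), by omega⟩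
      rw [hj, show i + 1 + j - i = j + 1 by omega, show i + 1 + j - (i + 1) = j by omega]
      exact S5.FR.inf (gC.fr j) K
    by_cases h3 : i < a + c + m
    · rw [m3 i (by omega) h3.le, m3 (i + 1) (by omega) h3]
      obtain ⟨j, hj⟩ : ∃ j, a + c + m = i + 1 + j := ⟨a + c + m - (i + 1), by omega⟩
      rw [hj, show i + 1 + j - i = j + 1 by omega, show i + 1 + j - (i + 1) = j by omega]
      exact frW j
    · obtain rfl : i = a + c + m := by omega
      rw [mU, m4]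
      exact frG
  · intro i hi x hx y hy
    have hxK := hG1K hx
    have conjK : ∀ z ∈ K, x * z * x⁻¹ ∈ K := fun z hz => mul_mem (mul_mem hxK hz) (inv_mem hxK)
    by_cases h1 : i ≤ a
    · rw [m1 i h1] at hy ⊢
      exact ⟨gA.nrm _ x hxK y hy.1, conjK y hy.2⟩
    by_cases h2 : i ≤ a + c
    · rw [m2 i (by omega) h2] at hy ⊢
      exact ⟨gC.nrm _ x hxK y hy.1, conjK y hy.2⟩
    by_cases h3 : i ≤ a + c + m
    · rw [m3 i (by omega) h3] at hy ⊢
      exact nW _ x hxK y hy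
    · obtain rfl : i = a + c + m + 1 := by omega
      rw [m4] at hy ⊢
      exact mul_mem (mul_mem hx hy) (inv_mem hx)
  · intro i hi x hx y hy
    rw [mU] at hx
    obtain ⟨hxK, xA, xB, xC⟩ := (memU x).1 hx
    by_cases h1 : i < a
    · rw [m1 (i + 1) h1] at hy
      rw [m1 i h1.le]
      obtain ⟨j, rfl⟩ : ∃ j, a = i + 1 + j := ⟨a - (i + 1), by omega⟩
      rw [show i + 1 + j - (i + 1) = j by omega] at hy
      rw [show i + 1 + j - i = j + 1 by omega]
      exact ⟨xA j y hy.1, comm_mem x hxK y hy.2⟩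
    by_cases h2 : i < a + c
    · rw [m2 (i + 1) (by omega) h2] at hy
      rw [m2 i (by omega) h2.le]
      obtain ⟨j, hj⟩ : ∃ j, a + c = i + 1 + j := ⟨a + c - (i + 1), by omega⟩
      rw [hj, show i + 1 + j - (i + 1) = j by omega] at hy
      rw [hj, show i + 1 + j - i = j + 1 by omega]
      exact ⟨xC j y hy.1, comm_mem x hxK y hy.2⟩
    · rw [m3 (i + 1) (by omega) (by omega)] at hy
      rw [m3 i (by omega) (by omega)]
      obtain ⟨j, hj⟩ : ∃ j, a + c + m = i + 1 + j := ⟨a + c + m - (i + 1), by omega⟩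
      rw [hj, show i + 1 + j - (i + 1) = j by omega] at hy
      rw [hj, show i + 1 + j - i = j + 1 by omega]
      exact cW j x hx y hy
  · intro x hx y hy
    rw [mU]
    exact commKU x (hG1K hx) y (hG1K hy)

/-- leaf S5 -/
theorem blockS5_of' (h2 : BlockS2) (h3a : BlockS3a) (h3e : BlockS3e) (h4 : BlockS4) : BlockS5 :=
  blockS5_of h2 h4 (blockS5a_of' h3a h3e)

end Vale.Agent.P260.LM
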