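import Vale.Agent.P260.LM.Spec6
import Vale.Agent.P260.LM.S3de

/-!
P260, leaf S6: a normal series with factors of finite rank is refined to a chain with rank one steps.
-/

namespace Vale.Agent.P260.LM

namespace S6

variable {Γ : Type} [Group Γ]

/-- gluing the refinements -/
theorem glue (h3 : BlockS3d) (M : ℕ → Subgroup Γ) (t : ℕ) (hM : ∀ i < t, FR (M i) (M (i + 1))) :
    ∃ (N : ℕ → Subgroup Γ) (s : ℕ → ℕ), s 0 = 0 ∧ Monotone s ∧ (∀ i ≥ t, s i = s t) ∧
      (∀ i ≤ t, N (s i) = M i) ∧ ∀ i < s t, RankOne (N i) (N (i + 1)) := by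
  induction t with
  | zero =>
    refine ⟨fun _ => M 0, fun _ => 0, rfl, monotone_const, fun _ _ => rfl, ?_, ?_⟩
    · intro i hi
      obtain rfl : i = 0 := by omega
      rfl
    · intro i hi
      exact absurd hi (Nat.not_lt_zero i)
  | succ t ih =>
    obtain ⟨N, s, s0, mono, hge, hN, hstep⟩ := ih fun i hi => hM i (by omega)
    obtain ⟨k, N', h0, hk, hstep'⟩ := h3 Γ _ _ (hM t (by omega))
    have hNt : N (s t) = M t := hN t le_rfl
    refine ⟨fun n => if n < s t then N n else N' (n - s t),
      fun i => if i ≤ t then s i else s t + k, ?_, ?_, ?_, ?_, ?_⟩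
    · simp [s0]
    · intro i j hij
      by_cases hj : j ≤ t
      · have hi : i ≤ t := le_trans hij hj
        simp only [hi, hj, if_true]
        exact mono hij
      · by_cases hi : i ≤ t
        · simp only [hi, hj, if_true, if_false]
          exact le_trans (mono hi) (Nat.le_add_right _ _)
        · simp only [hi, hj, if_false]
          exact le_rfl
    · intro i hi
      have h1 : ¬ i ≤ t := by omega
      have h2 : ¬ t + 1 ≤ t := by omega
      simp only [h1, h2, if_false]
    · intro i hi
      by_cases h1 : i ≤ t
      · simp only [h1, if_true]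
        by_cases h2 : s i < s t
        · simp only [h2, if_true]
          exact hN i h1
        · have h3 : s i = s t := le_antisymm (mono h1) (by omega)
          simp only [h3, lt_irrefl, if_false, Nat.sub_self]
          rw [h0, ← hNt, ← h3]
          exact hN i h1
      · obtain rfl : i = t + 1 := by omega
        have h2 : ¬ s t + k < s t := by omega
        simp only [h1, h2, if_false, Nat.add_sub_cancel_left]
        exact hk
    · have h2 : ¬ t + 1 ≤ t := by omega
      simp only [h2, if_false]
      intro i hi
      by_cases h1 : i + 1 < s t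
      · have h3 : i < s t := by omega
        simp only [h1, h3, if_true]
        exact hstep i h3
      · by_cases h3 : i < s t
        · have h4 : i + 1 = s t := by omega
          simp only [h3, if_true, h4, lt_irrefl, if_false, Nat.sub_self]
          rw [h0, ← hNt, ← h4]
          exact hstep i h3
        · simp only [h3, h1, if_false]
          have h4 : i + 1 - s t = (i - s t) + 1 := by omega
          rw [h4]
          exact hstep' _ (by omega)

end S6

/-- leaf S6 from leaf S3d -/
theorem blockS6_of (h3 : BlockS3d) : BlockS6 := by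
  intro Γ _ K M t u h
  obtain ⟨N, s, s0, mono, -, hN, hstep⟩ := S6.glue h3 M t h.fr
  refine ⟨N, s t, s, ⟨⟨?_, hstep⟩, ?_, s0, rfl, mono, ?_, ?_⟩, ⟨h.le, ?_, ?_⟩⟩
  · rw [← s0, hN 0 (Nat.zero_le _)]
    exact h.bot
  · rw [hN t le_rfl]
    exact h.top
  · intro i hi x hx y hy
    rw [hN i hi] at hy ⊢
    exact h.nrm i hi x hx y hy
  · intro i hi x hx y hy
    rw [hN (i + 1) hi] at hx hy
    rw [hN i hi.le]
    exact (h.fr i hi).comm x hx y hy
  · intro i hi x hx y hy
    rw [hN u h.le] at hx
    rw [hN (i + 1) (by have := h.le; omega)] at hy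
    rw [hN i (by have := h.le; omega)]
    exact h.cent i hi x hx y hy
  · intro x hx y hy
    rw [hN u h.le]
    exact h.ab x hx y hy

/-- leaf S6 -/
theorem blockS6 : BlockS6 := blockS6_of blockS3d

end Vale.Agent.P260.LM
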