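import Vale.Agent.P260.LM.S1
import Vale.Agent.P260.LM.S2
import Vale.Agent.P260.LM.S3abc
import Vale.Agent.P260.LM.S3de
import Vale.Agent.P260.LM.S4
import Vale.Agent.P260.LM.S5
import Vale.Agent.P260.LM.S6
import Vale.Agent.P260.LM.G

/-!
P260, last mile: block S from its leaves.
-/

namespace Vale.Agent.P260.LM

theorem blockS_of' (h2 : BlockS2) : BlockS :=
  blockS_of (blockS5_of' h2 blockS3a blockS3e (blockS4_of blockS1 blockS3c)) blockS6

end Vale.Agent.P260.LM
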