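import Vale.Agent.P260.LM.S2x
import Vale.Agent.P260.LM.S3abc
import Vale.Agent.P260.LM.S3de

namespace Vale.Agent.P260.LM

theorem blockS2 : BlockS2 := S2x.blockS2_of blockS3a blockS3b blockS3c blockS3e

end Vale.Agent.P260.LM
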