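import Vale.Agent.P260.LM.Asm1
import Vale.Agent.P260.LM.Asm2
import Vale.Agent.P260.LM.S2y

/-!
P260, last mile: groups as in `Geo` which are virtually solvable are virtually poly-`ℤ`, of length 4.
-/

namespace Vale.Agent.P260.LM

theorem blockS : BlockS := blockS_of' blockS2

/-- A virtually solvable group as in `Geo` has a poly-`ℤ` subgroup of finite index, of length 4. -/
theorem main5 : Main5 := main5_of' blockS blockG

end Vale.Agent.P260.LM
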