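import Vale.Agent.P260.LM.Spec5

/-!
P260, last mile: basic properties of the coboundary `dc`, of `InvS`, `CocS`, `ExS`, of left
translates, and the quotient `H q S n`.
-/

namespace Vale.Agent.P260.LM

section dc

variable {α β k : Type} [AddCommGroup k]

theorem dc_nil (f : List α → k) : dc f [] = 0 := by rw [dc]

theorem dc_cons (f : List α → k) (a : α) (l : List α) :
    dc f (a :: l) = f l - dc (fun l => f (a :: l)) l := by rw [dc]

theorem dc_zero : ∀ l : List α, dc (fun _ => (0 : k)) l = 0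
  | [] => dc_nil _
  | a :: l => by rw [dc_cons, dc_zero l, sub_zero]

theorem dc_add : ∀ (f g : List α → k) (l : List α), dc (fun l => f l + g l) l = dc f l + dc g l
  | f, g, [] => by simp only [dc_nil, add_zero]
  | f, g, a :: l => by
    simp only [dc_cons]
    rw [dc_add (fun l => f (a :: l)) (fun l => g (a :: l)) l]
    abel

theorem dc_neg : ∀ (f : List α → k) (l : List α), dc (fun l => -f l) l = -dc f l
  | f, [] => by simp only [dc_nil, neg_zero]
  | f, a :: l => by
    simp only [dc_cons]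
    rw [dc_neg (fun l => f (a :: l)) l]
    abel

theorem dc_sub (f g : List α → k) (l : List α) :
    dc (fun l => f l - g l) l = dc f l - dc g l := by
  have h := dc_add f (fun l => -g l) l
  rw [dc_neg] at h
  simpa [sub_eq_add_neg] using h

theorem dc_smul {R : Type} [CommRing R] : ∀ (c : R) (f : List α → R) (l : List α),
    dc (fun l => c * f l) l = c * dc f l
  | c, f, [] => by simp only [dc_nil, mul_zero]
  | c, f, a :: l => by
    simp only [dc_cons]
    rw [dc_smul c (fun l => f (a :: l)) l, mul_sub]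

theorem dc_sum {ι : Type} (s : Finset ι) (f : ι → List α → k) (l : List α) :
    dc (fun l => ∑ i ∈ s, f i l) l = ∑ i ∈ s, dc (f i) l := by
  classical
  induction s using Finset.induction_on with
  | empty => simp only [Finset.sum_empty]; exact dc_zero l
  | insert i s hi ih =>
    simp only [Finset.sum_insert hi]
    rw [dc_add, ih]

theorem dc_map (φ : α → β) : ∀ (f : List β → k) (l : List α),
    dc f (l.map φ) = dc (fun l => f (l.map φ)) l
  | f, [] => by rw [List.map_nil, dc_nil, dc_nil]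
  | f, a :: l => by
    rw [List.map_cons, dc_cons, dc_cons, dc_map φ (fun l => f (φ a :: l)) l]
    rfl

theorem dc_congr : ∀ {n : ℕ} {f g : List α → k}, (∀ l : List α, l.length = n → f l = g l) →
    ∀ {l : List α}, l.length = n + 1 → dc f l = dc g l
  | n, f, g, h, [], hl => absurd hl (by simp)
  | 0, f, g, h, a :: l, hl => by
    have h1 : l.length = 0 := by simpa using hl
    rw [dc_cons, dc_cons, h l h1]
    have h2 : l = [] := List.length_eq_zero_iff.1 h1
    subst h2
    rw [dc_nil, dc_nil]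
  | n + 1, f, g, h, a :: l, hl => by
    have h1 : l.length = n + 1 := by simpa using hl
    rw [dc_cons, dc_cons, h l h1, dc_congr (fun l' hl' => h (a :: l') (by simp [hl'])) h1]

theorem dc_dc : ∀ (f : List α → k) (l : List α), dc (dc f) l = 0
  | f, [] => dc_nil _
  | f, [a] => by rw [dc_cons, dc_nil, dc_nil, sub_zero]
  | f, a :: b :: l => by
    rw [dc_cons]
    have e : (fun l => dc f (a :: l)) = fun l => f l - dc (fun l => f (a :: l)) l := by
      funext l
      rw [dc_cons]
    rw [e, dc_sub, dc_dc (fun l => f (a :: l)) (b :: l)]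
    abel

end dc

section inv

variable {Γ : Type} [Group Γ] {k : Type}

theorem tr_apply (g : Γ) (f : List Γ → k) (l : List Γ) : tr g f l = f (l.map (g⁻¹ * ·)) := rfl

theorem map_mul_map (a b : Γ) (l : List Γ) :
    (l.map (a * ·)).map (b * ·) = l.map ((b * a) * ·) := by
  rw [List.map_map]
  congr 1
  funext x
  simp [mul_assoc]

theorem tr_tr (g h : Γ) (f : List Γ → k) : tr g (tr h f) = tr (g * h) f := by
  funext l
  simp only [tr_apply, map_mul_map, mul_inv_rev]

theorem tr_one (f : List Γ → k) : tr 1 f = f := by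
  funext l
  simp [tr_apply]

theorem tr_dc [AddCommGroup k] (g : Γ) (f : List Γ → k) : tr g (dc f) = dc (tr g f) := by
  funext l
  rw [tr_apply, dc_map]
  rfl

theorem invS_iff {S : Subgroup Γ} {f : List Γ → k} : InvS S f ↔ ∀ s ∈ S, tr s f = f := by
  constructor
  · intro h s hs
    funext l
    exact h s⁻¹ (S.inv_mem hs) l
  · intro h s hs l
    have := congrFun (h s⁻¹ (S.inv_mem hs)) l
    rw [tr_apply, inv_inv] at this
    exact this

theorem InvS.mono {S T : Subgroup Γ} (hST : S ≤ T) {f : List Γ → k} (h : InvS T f) : InvS S f :=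
  fun s hs => h s (hST hs)

theorem InvS.tr_eq {S : Subgroup Γ} {f : List Γ → k} (h : InvS S f) {s : Γ} (hs : s ∈ S) :
    tr s f = f := invS_iff.1 h s hs

/-- the stabiliser of a function -/
def stab (f : List Γ → k) : Subgroup Γ where
  carrier := {s | tr s f = f}
  one_mem' := tr_one f
  mul_mem' := by
    intro a b ha hb
    have ha' : tr a f = f := ha
    have hb' : tr b f = f := hb
    change tr (a * b) f = f
    rw [← tr_tr, hb', ha']
  inv_mem' := by
    intro a ha
    have ha' : tr a f = f := ha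
    change tr a⁻¹ f = f
    conv_lhs => rw [← ha']
    rw [tr_tr, inv_mul_cancel, tr_one]

theorem mem_stab {f : List Γ → k} {s : Γ} : s ∈ stab f ↔ tr s f = f := Iff.rfl

theorem invS_iff_le {S : Subgroup Γ} {f : List Γ → k} : InvS S f ↔ S ≤ stab f := invS_iff

theorem invS_sup {S T : Subgroup Γ} {f : List Γ → k} (h1 : InvS S f) (h2 : InvS T f) :
    InvS (S ⊔ T) f := invS_iff_le.2 (sup_le (invS_iff_le.1 h1) (invS_iff_le.1 h2))

theorem invS_zpowers {a : Γ} {f : List Γ → k} (h : tr a f = f) :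
    InvS (Subgroup.zpowers a) f := invS_iff_le.2 (Subgroup.zpowers_le.2 h)

/-- normalising a subgroup -/
def Nz (S : Subgroup Γ) (g : Γ) : Prop := ∀ s ∈ S, g⁻¹ * s * g ∈ S

theorem InvS.tr {S : Subgroup Γ} {f : List Γ → k} (h : InvS S f) {g : Γ} (hg : Nz S g) :
    InvS S (tr g f) := by
  rw [invS_iff]
  intro s hs
  rw [tr_tr]
  have e : s * g = g * (g⁻¹ * s * g) := by group
  rw [e, ← tr_tr, h.tr_eq (hg s hs)]

theorem InvS.dc [AddCommGroup k] {S : Subgroup Γ} {f : List Γ → k} (h : InvS S f) :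
    InvS S (dc f) := by
  rw [invS_iff]
  intro s hs
  rw [tr_dc, h.tr_eq hs]

theorem InvS.add [AddCommGroup k] {S : Subgroup Γ} {f g : List Γ → k} (hf : InvS S f)
    (hg : InvS S g) : InvS S fun l => f l + g l := fun s hs l => by
  simp only [hf s hs l, hg s hs l]

theorem InvS.sub [AddCommGroup k] {S : Subgroup Γ} {f g : List Γ → k} (hf : InvS S f)
    (hg : InvS S g) : InvS S fun l => f l - g l := fun s hs l => by
  simp only [hf s hs l, hg s hs l]

theorem InvS.comp {k' : Type} {S : Subgroup Γ} {f : List Γ → k} (hf : InvS S f) (φ : k → k') :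
    InvS S fun l => φ (f l) := fun s hs l => by
  simp only [hf s hs l]

theorem InvS.const {S : Subgroup Γ} (c : k) : InvS S fun _ => c := fun _ _ _ => rfl

theorem InvS.sum [AddCommGroup k] {ι : Type} {S : Subgroup Γ} (s : Finset ι)
    {f : ι → List Γ → k} (hf : ∀ i ∈ s, InvS S (f i)) : InvS S fun l => ∑ i ∈ s, f i l :=
  fun x hx l => Finset.sum_congr rfl fun i hi => hf i hi x hx l

/-- restriction to lists of length `n` -/
def cut [AddCommGroup k] (n : ℕ) (f : List Γ → k) : List Γ → k :=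
  fun l => if l.length = n then f l else 0

omit [Group Γ] in
theorem cut_of [AddCommGroup k] {n : ℕ} {f : List Γ → k} {l : List Γ} (h : l.length = n) :
    cut n f l = f l := if_pos h

theorem tr_cut [AddCommGroup k] (n : ℕ) (g : Γ) (f : List Γ → k) :
    tr g (cut n f) = cut n (tr g f) := by
  funext l
  simp only [tr_apply, cut, List.length_map]

theorem InvS.cut [AddCommGroup k] {S : Subgroup Γ} {f : List Γ → k} (h : InvS S f) (n : ℕ) :
    InvS S (cut n f) := by
  rw [invS_iff]
  intro s hs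
  rw [tr_cut, h.tr_eq hs]

theorem dc_cut [AddCommGroup k] {n : ℕ} (f : List Γ → k) {l : List Γ} (h : l.length = n + 1) :
    LM.dc (LM.cut n f) l = LM.dc f l := dc_congr (fun _ hl => cut_of hl) h

/-- a function, invariant on lists of length `n` -/
theorem cut_tr_eq [AddCommGroup k] {n : ℕ} {f : List Γ → k} {g : Γ}
    (h : ∀ l : List Γ, l.length = n → tr g f l = f l) : tr g (LM.cut n f) = LM.cut n f := by
  funext l
  rw [tr_cut]
  by_cases hl : l.length = n
  · rw [cut_of hl, cut_of hl, h l hl]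
  · simp only [LM.cut, if_neg hl]

end inv

section coc

variable {Γ : Type} [Group Γ] {q : ℕ} {S T : Subgroup Γ} {n : ℕ}

theorem CocS.inv {f : List Γ → ZMod q} (h : CocS q S n f) : InvS S f := h.1

theorem CocS.mono (hST : S ≤ T) {f : List Γ → ZMod q} (h : CocS q T n f) : CocS q S n f :=
  ⟨h.1.mono hST, h.2⟩

theorem CocS.zero : CocS q S n fun _ => 0 := ⟨InvS.const 0, fun l _ => dc_zero l⟩

theorem CocS.add {f g : List Γ → ZMod q} (hf : CocS q S n f) (hg : CocS q S n g) :
    CocS q S n fun l => f l + g l :=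
  ⟨hf.1.add hg.1, fun l hl => by rw [dc_add, hf.2 l hl, hg.2 l hl, add_zero]⟩

theorem CocS.sub {f g : List Γ → ZMod q} (hf : CocS q S n f) (hg : CocS q S n g) :
    CocS q S n fun l => f l - g l :=
  ⟨hf.1.sub hg.1, fun l hl => by rw [dc_sub, hf.2 l hl, hg.2 l hl, sub_zero]⟩

theorem CocS.smul (c : ZMod q) {f : List Γ → ZMod q} (hf : CocS q S n f) :
    CocS q S n fun l => c * f l :=
  ⟨hf.1.comp (c * ·), fun l hl => by rw [dc_smul, hf.2 l hl, mul_zero]⟩

theorem CocS.sum {ι : Type} (s : Finset ι) {f : ι → List Γ → ZMod q}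
    (hf : ∀ i ∈ s, CocS q S n (f i)) : CocS q S n fun l => ∑ i ∈ s, f i l :=
  ⟨InvS.sum s fun i hi => (hf i hi).1, fun l hl => by
    rw [dc_sum]
    exact Finset.sum_eq_zero fun i hi => (hf i hi).2 l hl⟩

theorem CocS.tr {f : List Γ → ZMod q} (hf : CocS q S n f) {g : Γ} (hg : Nz S g) :
    CocS q S n (tr g f) :=
  ⟨hf.1.tr hg, fun l hl => by
    rw [← tr_dc, tr_apply]
    exact hf.2 _ (by simpa using hl)⟩

theorem CocS.dc {h : List Γ → ZMod q} (hh : InvS S h) : CocS q S n (LM.dc h) :=
  ⟨hh.dc, fun l _ => dc_dc h l⟩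

theorem ExS.mono (hST : S ≤ T) {f : List Γ → ZMod q} (h : ExS q T n f) : ExS q S n f := by
  obtain ⟨h, h0, hi, he⟩ := h
  exact ⟨h, h0, hi.mono hST, he⟩

theorem ExS.congr {f g : List Γ → ZMod q} (h : ExS q S n f)
    (hfg : ∀ l : List Γ, l.length = n + 1 → g l = f l) : ExS q S n g := by
  obtain ⟨h, h0, hi, he⟩ := h
  exact ⟨h, h0, hi, fun l hl => by rw [hfg l hl, he l hl]⟩

theorem ExS.zero : ExS q S n fun _ => 0 :=
  ⟨fun _ => 0, fun _ _ => rfl, InvS.const 0, fun l _ => (dc_zero l).symm⟩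

theorem ExS.add {f g : List Γ → ZMod q} (hf : ExS q S n f) (hg : ExS q S n g) :
    ExS q S n fun l => f l + g l := by
  obtain ⟨h, h0, hi, he⟩ := hf
  obtain ⟨h', h0', hi', he'⟩ := hg
  exact ⟨fun l => h l + h' l, fun hn l => by simp only [h0 hn, h0' hn, add_zero], hi.add hi',
    fun l hl => by simp only [dc_add, he l hl, he' l hl]⟩

theorem ExS.smul (c : ZMod q) {f : List Γ → ZMod q} (hf : ExS q S n f) :
    ExS q S n fun l => c * f l := by
  obtain ⟨h, h0, hi, he⟩ := hf
  exact ⟨fun l => c * h l, fun hn l => by simp only [h0 hn, mul_zero], hi.comp (c * ·),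
    fun l hl => by simp only [dc_smul, he l hl]⟩

theorem ExS.neg {f : List Γ → ZMod q} (hf : ExS q S n f) : ExS q S n fun l => -f l :=
  (hf.smul (-1)).congr fun l _ => by ring

theorem ExS.sub {f g : List Γ → ZMod q} (hf : ExS q S n f) (hg : ExS q S n g) :
    ExS q S n fun l => f l - g l :=
  (hf.add hg.neg).congr fun l _ => by ring

theorem ExS.sum {ι : Type} (s : Finset ι) {f : ι → List Γ → ZMod q}
    (hf : ∀ i ∈ s, ExS q S n (f i)) : ExS q S n fun l => ∑ i ∈ s, f i l := by
  classical
  induction s using Finset.induction_on with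
  | empty => exact ExS.zero.congr fun l _ => by simp
  | insert i s hi ih =>
    refine ((hf i (Finset.mem_insert_self i s)).add
      (ih fun j hj => hf j (Finset.mem_insert_of_mem hj))).congr fun l _ => ?_
    rw [Finset.sum_insert hi]

theorem ExS.tr {f : List Γ → ZMod q} (hf : ExS q S n f) {g : Γ} (hg : Nz S g) :
    ExS q S n (tr g f) := by
  obtain ⟨h, h0, hi, he⟩ := hf
  refine ⟨LM.tr g h, fun hn l => ?_, hi.tr hg, fun l hl => ?_⟩
  · rw [tr_apply, h0 hn]
  · rw [← tr_dc, tr_apply, tr_apply]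
    exact he _ (by simpa using hl)

theorem ExS.dc {h : List Γ → ZMod q} (hh : InvS S h) : ExS q S (n + 1) (LM.dc h) :=
  ⟨h, fun hn => absurd hn (by omega), hh, fun _ _ => rfl⟩

/-- exactness in positive degree -/
theorem exS_succ {f : List Γ → ZMod q} : ExS q S (n + 1) f ↔
    ∃ h : List Γ → ZMod q, InvS S h ∧ ∀ l : List Γ, l.length = n + 2 → f l = LM.dc h l :=
  ⟨fun ⟨h, _, hi, he⟩ => ⟨h, hi, he⟩, fun ⟨h, hi, he⟩ => ⟨h, fun hn => absurd hn (by omega), hi, he⟩⟩

theorem exS_zero {f : List Γ → ZMod q} : ExS q S 0 f ↔ ∀ l : List Γ, l.length = 1 → f l = 0 := by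
  constructor
  · rintro ⟨h, h0, -, he⟩ l hl
    rw [he l hl]
    have e : h = fun _ => 0 := funext (h0 rfl)
    rw [e, dc_zero]
  · intro h
    exact ⟨fun _ => 0, fun _ _ => rfl, InvS.const 0, fun l hl => by rw [h l hl, dc_zero]⟩

variable (q S n) in
/-- cocycles -/
def Z : Submodule (ZMod q) (List Γ → ZMod q) where
  carrier := {f | CocS q S n f}
  add_mem' := fun hf hg => CocS.add hf hg
  zero_mem' := CocS.zero
  smul_mem' := fun c _ hf => CocS.smul c hf

variable (q S n) in
/-- coboundaries -/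
def B : Submodule (ZMod q) (List Γ → ZMod q) where
  carrier := {f | ExS q S n f}
  add_mem' := fun hf hg => ExS.add hf hg
  zero_mem' := ExS.zero
  smul_mem' := fun c _ hf => ExS.smul c hf

theorem mem_Z {f : List Γ → ZMod q} : f ∈ Z q S n ↔ CocS q S n f := Iff.rfl

theorem mem_B {f : List Γ → ZMod q} : f ∈ B q S n ↔ ExS q S n f := Iff.rfl

variable (q S n) in
/-- `H^n(S; 𝔽_q)` -/
abbrev H : Type := (Z q S n) ⧸ (B q S n).comap (Z q S n).subtype

/-- the class of a cocycle -/
def cl {f : List Γ → ZMod q} (hf : CocS q S n f) : H q S n := Submodule.Quotient.mk ⟨f, hf⟩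

theorem cl_eq {f g : List Γ → ZMod q} (hf : CocS q S n f) (hg : CocS q S n g) :
    cl hf = cl hg ↔ ExS q S n fun l => f l - g l := by
  rw [cl, cl, Submodule.Quotient.eq, Submodule.mem_comap]
  exact Iff.rfl

theorem cl_eq_zero {f : List Γ → ZMod q} (hf : CocS q S n f) :
    cl hf = 0 ↔ ExS q S n f := by
  rw [cl, Submodule.Quotient.mk_eq_zero, Submodule.mem_comap]
  exact Iff.rfl

theorem exists_cl (w : H q S n) : ∃ (f : List Γ → ZMod q) (hf : CocS q S n f), cl hf = w := by
  obtain ⟨⟨f, hf⟩, rfl⟩ := Submodule.Quotient.mk_surjective _ w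
  exact ⟨f, hf, rfl⟩

theorem finS_iff : FinS q S n ↔ Finite (H q S n) := by
  constructor
  · rintro ⟨F, hF, h⟩
    have hF' : Finite F := hF
    have h1 : ∀ w : H q S n, ∃ (g : F) (hg : CocS q S n (g : List Γ → ZMod q)), cl hg = w := by
      intro w
      obtain ⟨f, hf, rfl⟩ := exists_cl w
      obtain ⟨g, hg, hc, he⟩ := h f hf
      exact ⟨⟨g, hg⟩, hc, ((cl_eq hf hc).2 he).symm⟩
    choose g hg hw using h1
    refine Finite.of_injective g fun w w' hww => ?_
    rw [← hw w, ← hw w', cl_eq]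
    refine ExS.zero.congr fun l _ => ?_
    rw [hww, sub_self]
  · intro hfin
    choose g hg hw using (exists_cl : ∀ w : H q S n, _)
    refine ⟨Set.range g, Set.finite_range g, fun f hf => ⟨g (cl hf), ⟨_, rfl⟩, hg _, ?_⟩⟩
    rw [← cl_eq hf (hg _), hw]

/-- the action of an element normalising `S` -/
noncomputable def act {g : Γ} (hg : Nz S g) : H q S n →ₗ[ZMod q] H q S n :=
  Submodule.mapQ _ _
    { toFun := fun f => ⟨LM.tr g (f : List Γ → ZMod q), CocS.tr f.2 hg⟩
      map_add' := fun _ _ => rfl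
      map_smul' := fun _ _ => rfl }
    (by
      intro f hf
      rw [Submodule.mem_comap, Submodule.mem_comap]
      exact ExS.tr hf hg)

theorem act_cl {g : Γ} (hg : Nz S g) {f : List Γ → ZMod q} (hf : CocS q S n f) :
    act hg (cl hf) = cl (hf.tr hg) := rfl

end coc

end Vale.Agent.P260.LM
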