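import Vale.Agent.P260.LM.Wang

/-!
P260, last mile: the end of the proof.
-/

namespace Vale.Agent.P260.LM

open scoped commutatorElement

/-- A rank one step with a generator is an infinite cyclic step. -/
theorem RankOne.equiv_int {Γ : Type} [Group Γ] {N G : Subgroup Γ} (h : RankOne N G) {a : Γ}
    (ha : a ∈ G) (hg : ∀ x ∈ G, ∃ e : ℤ, x * a ^ e ∈ N) :
    ∃ _ : (N.subgroupOf G).Normal, Nonempty (Multiplicative ℤ ≃* (G ⧸ N.subgroupOf G)) := by
  have ha' : a ∉ N := by
    intro haN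
    obtain ⟨x, hx, hx'⟩ := h.ne
    obtain ⟨e, he⟩ := hg x hx
    exact hx' ((N.mul_mem_cancel_right (N.zpow_mem haN e)).1 he)
  refine ⟨h.normal, ⟨?_⟩⟩
  have := h.normal
  refine MulEquiv.ofBijective (zpowersHom _ ((⟨a, ha⟩ : G) : G ⧸ N.subgroupOf G)) ⟨?_, ?_⟩
  · rw [injective_iff_map_eq_one]
    intro z hz
    rw [zpowersHom_apply, ← QuotientGroup.mk_zpow, QuotientGroup.eq_one_iff,
      Subgroup.mem_subgroupOf] at hz
    have h1 : a ^ Multiplicative.toAdd z ∈ N := by simpa using hz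
    have h2 := h.zpow_mem ha ha' h1
    exact toAdd_eq_zero.1 h2
  · intro x
    obtain ⟨⟨x, hx⟩, rfl⟩ := QuotientGroup.mk_surjective x
    obtain ⟨e, he⟩ := hg x hx
    refine ⟨Multiplicative.ofAdd (-e), ?_⟩
    rw [zpowersHom_apply, toAdd_ofAdd, ← QuotientGroup.mk_zpow, QuotientGroup.eq,
      Subgroup.mem_subgroupOf]
    have e1 : ((((⟨a, ha⟩ : G) ^ (-e))⁻¹ * ⟨x, hx⟩ : G) : Γ) = x⁻¹ * (x * a ^ e) * x := by
      push_cast
      group
    rw [e1]
    exact h.conj' hx he

/-- The end of the proof. -/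
theorem main5_of (hA : BlockA) (hB : BlockB) (hK : BlockK) (hM : BlockM) (hS : BlockS)
    (hG : BlockG) (hC : BlockC) : Main5 := by
  intro Γ _ hgeo hsol
  obtain ⟨K, N, h, s, t, u, hKf, hser, hnil⟩ := hS Γ hgeo.fg hgeo.tf (hM Γ hgeo.tf hgeo.bd) hsol
  have hfg : Group.FG Γ := hgeo.fg
  have hKfg : K.FG := (Group.fg_iff_subgroup_fg K).1 (Subgroup.fg_of_index_ne_zero K)
  obtain ⟨m, hm, hMG⟩ := hG Γ K N h s t u hKfg hser hnil
  have hro : ∀ i < h, RankOne (N i) (N (i + 1)) := hser.chain.step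
  -- a good prime
  have h4 : h ≤ 4 := by
    obtain ⟨q, hq1, hq2⟩ := Nat.exists_infinite_primes (m + 1)
    have : Fact q.Prime := ⟨hq2⟩
    have hqm : ¬ q ∣ m := fun hd => by
      have := Nat.le_of_dvd (Nat.pos_of_ne_zero hm) hd
      omega
    obtain ⟨K', hK', f, hf, hf'⟩ := hB Γ q K N h s t hKf hser fun i hi =>
      (hC Γ (N i) (N (i + 1)) m hm (hro i hi) (hMG i hi)).1 q hqm
    by_contra hlt
    exact hf' (hgeo.five q K' hK' h (by omega) f hf)
  -- all primes
  have hall : ∀ (p : ℕ) [Fact p.Prime], h = 4 ∧ ∀ i < h, ¬ PDiv p (N i) (N (i + 1)) := by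
    intro p _
    classical
    obtain ⟨G', hG', hfour⟩ := hgeo.four p
    have hch : Chain (fun i => N i ⊓ G') h :=
      ⟨by simp [hser.chain.bot], fun i hi => (hK Γ p _ _ G' (hro i hi) hG').1⟩
    obtain ⟨f, hf, hf'⟩ := hfour (K ⊓ G') inferInstance inf_le_right
    have h5 := (hA Γ p (fun i => N i ⊓ G') h hch).2
    set S := (Finset.range h).filter fun i => ¬ PDiv p (N i ⊓ G') (N (i + 1) ⊓ G') with hS'
    have h6 : 4 ≤ S.card := by
      by_contra hlt
      have h7 := h5 4 (by convert not_le.1 hlt) f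
      simp only [hser.top] at h7
      exact hf' (h7 hf)
    have h7 : S.card ≤ h := by
      have := Finset.card_le_card (Finset.filter_subset (fun i => ¬ PDiv p (N i ⊓ G')
        (N (i + 1) ⊓ G')) (Finset.range h))
      rw [Finset.card_range] at this
      exact this
    have h8 : h = 4 := by omega
    refine ⟨h8, fun i hi => ?_⟩
    have h9 : S = Finset.range h :=
      Finset.eq_of_subset_of_card_le (Finset.filter_subset _ _) (by rw [Finset.card_range]; omega)
    have h10 : i ∈ S := by rw [h9]; exact Finset.mem_range.2 hi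
    have h11 := (Finset.mem_filter.1 h10).2
    intro hp
    exact h11 ((hK Γ p _ _ G' (hro i hi) hG').2.2 hp)
  obtain ⟨rfl, -⟩ := hall 2
  refine ⟨K, hKf, N, hser.chain.bot, hser.top, fun i hi => ⟨(hro i hi).le, ?_⟩⟩
  obtain ⟨a, ha, hga⟩ := (hC Γ (N i) (N (i + 1)) m hm (hro i hi) (hMG i hi)).2
    fun q _ => (hall q).2 i hi
  exact (hro i hi).equiv_int ha hga

end Vale.Agent.P260.LM
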