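import Vale.Agent.P260.LM.GeoAsm

/-!
P260, last mile, block GEO: the field `five` of `Geo` (no cohomology above degree four).
-/

namespace Vale.Agent.P260.LM.F286

open Finsupp
open Vale.Agent.P239
open Vale.Agent.P239.M (Ch ext cone bdL bd pf pr prL Sup sup_bdL ext_congr ext_bdL bd_single
  pf_single pf_cone pr_single)

section Prism

variable {k : Type} [CommRing k] {V : Type}

theorem sup_prL (f g : V → V) : ∀ l : List V,
    Sup (fun l' => l'.length = l.length + 1) (prL k f g l)
  | [] => M.Sup.zero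
  | x :: l => by
    rw [prL]
    refine (M.Sup.single 1 (by simp)).sub (M.Sup.cone _ ?_)
    exact M.Sup.mono (fun l' hl' => by simp [hl']) (sup_prL f g l)

theorem prL_map (f g s : V → V) (hf : ∀ x, f (s x) = s (f x)) (hg : ∀ x, g (s x) = s (g x)) :
    ∀ l : List V, prL k f g (l.map s) = pf s (prL k f g l)
  | [] => by rw [List.map_nil, prL, map_zero]
  | x :: l => by
    rw [List.map_cons, prL, prL, map_sub, pf_single, pf_cone, prL_map f g s hf hg l, hf, hg]
    congr 2
    simp only [List.map_cons, List.map_map]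
    rw [show g ∘ s = s ∘ g from funext hg]

end Prism

variable {Γ : Type} [Group Γ] {K : Subgroup Γ} {q : ℕ} [Fact q.Prime] {n : ℕ}

/-- Two equivariant maps give cohomologous cocycles. -/
theorem exS_prism {r : Γ → Γ} (hr : ∀ s ∈ K, ∀ x, r (s * x) = s * r x)
    {f : List Γ → ZMod q} (hf : CocS q K n f) :
    ∃ h : List Γ → ZMod q, h [] = 0 ∧ InvS K h ∧
      ∀ l : List Γ, l.length = n + 1 → f (l.map r) - f l = dc h l := by
  refine ⟨fun l => ext f (prL (ZMod q) id r l), ?_, fun s hs l => ?_, fun l hl => ?_⟩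
  · change ext f (prL (ZMod q) id r []) = 0
    rw [prL, map_zero]
  · change ext f (prL (ZMod q) id r (l.map (s * ·))) = ext f (prL (ZMod q) id r l)
    rw [prL_map id r (s * ·) (fun _ => rfl) (hr s hs), pf, Finsupp.lmapDomain_apply,
      Finsupp.linearCombination_mapDomain]
    refine ext_congr (P := fun _ => True) (fun _ _ => trivial) fun l' _ => ?_
    exact hf.1 s hs l'
  · have h1 := M.bd_pr (k := ZMod q) id r (single l 1)
    have h2 := congrArg (M.ext f) h1
    rw [map_add, map_sub, pr_single, one_smul, pf_single, pf_single, bd_single, one_smul,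
      M.SupA.ext_single, M.SupA.ext_single, one_smul, one_smul, List.map_id] at h2
    rw [← h2]
    have h3 : ext f (bd (prL (ZMod q) id r l)) = 0 := by
      rw [ext_bdL, ← M.SpA.ext_zero (k := ZMod q) (M := ZMod q) (prL (ZMod q) id r l)]
      refine ext_congr (sup_prL id r l) fun l' hl' => ?_
      rw [← dc_eq_ext]
      exact hf.2 l' (by rw [hl', hl])
    rw [h3, zero_add, dc_eq_ext]
    rw [pr, M.SupA.map_ext]

/-- Vanishing for the group `K` gives `Van`. -/
theorem van_of_exG (h : ∀ f : List K → ZMod q, A.CocG n f → A.ExG n f) : Van q K n := by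
  obtain ⟨ρ, h1, h2⟩ := exists_retr K
  intro f hf
  have e1 : ExS q K n fun l => f ((l.map ρ).map ((↑) : K → Γ)) :=
    exS_retr h1 (h _ (cocG_res hf))
  obtain ⟨g, g0, gi, ge⟩ := exS_prism (K := K) (r := fun x => ((ρ x : K) : Γ))
    (fun s hs x => by
      have := h1 ⟨s, hs⟩ x
      change ((ρ (s * x) : K) : Γ) = s * (ρ x : K)
      rw [show ρ (s * x) = (⟨s, hs⟩ : K) * ρ x from this]
      rfl) hf
  have e2 : ExS q K n fun l => f (l.map fun x => ((ρ x : K) : Γ)) - f l := by
    rcases n with _ | n
    · refine ⟨fun _ => 0, fun _ _ => rfl, InvS.const 0, fun l hl => ?_⟩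
      change f (l.map fun x => ((ρ x : K) : Γ)) - f l = _
      rw [ge l hl, dc_zero]
      obtain ⟨x, rfl⟩ := List.length_eq_one_iff.1 hl
      rw [dc_cons, dc_nil, sub_zero, g0]
    · exact ⟨g, fun hc => absurd hc (by omega), gi, ge⟩
  refine (e1.sub e2).congr fun l _ => ?_
  rw [List.map_map]
  simp only [Function.comp_def]
  ring

/-- The field `five` of `Geo`. -/
theorem blockFive : BlockFive := by
  intro M X Γ _ _ _ _ _ _ _ _ _ p hp q _ K hK n hn
  have : SecondCountableTopology M :=
    ChartedSpace.secondCountable_of_sigmaCompact (EuclideanSpace ℝ (Fin 4)) M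
  have : TopologicalSpace.MetrizableSpace M := inferInstance
  let _ : MetricSpace M := TopologicalSpace.metrizableSpaceMetric M
  obtain ⟨N, _, _, _, _, r, hr⟩ := A7.exists_quot (n := 4) hp K hK
  refine van_of_exG fun f hf => ?_
  obtain ⟨Φ, hΦ⟩ := H672.a1s (ZMod q) r hr
  have hE : Module.finrank ℝ (EuclideanSpace ℝ (Fin 4)) = 4 := by simp
  exact hΦ.inj n f hf (P216.Ch2.D246.exL_above_mfd (E := EuclideanSpace ℝ (Fin 4))
    (P216.Ch2.ok (ZMod q)) hE (by norm_num) (by omega) (hΦ.coc n f hf))

/-- **Block GEO.** -/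
theorem blockGeo : BlockGeo := blockGeo_of_five blockFive

end Vale.Agent.P260.LM.F286
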