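import Vale.Agent.P260.LM.Asm3
import Vale.Agent.P260.LM.GeoFive2
import Vale.Agent.P260.T4

/-!
P260: closed aspherical 4-manifolds with virtually solvable, or amenable and residually finite,
fundamental group: the fundamental group is virtually poly-`ℤ`, of length 4.
-/

namespace Vale.Agent.P260.LM

/-- A closed aspherical 4-manifold with virtually solvable fundamental group has a virtually
poly-`ℤ` fundamental group. -/
theorem polyZ_of_vsolv {M X Γ : Type} [TopologicalSpace M] [T2Space M] [CompactSpace M]
    [ChartedSpace (EuclideanSpace ℝ (Fin 4)) M] [TopologicalSpace X] [ContractibleSpace X]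
    [Group Γ] [MulAction Γ X] [ContinuousConstSMul Γ X] (p : X → M)
    (hp : IsQuotientCoveringMap p Γ) (h : ∃ H : Subgroup Γ, H.FiniteIndex ∧ Group.IsSolvable H) :
    ∃ K : Subgroup Γ, K.FiniteIndex ∧ PolyZ K 4 :=
  main5 Γ (F286.blockGeo p hp) h

/-- The final theorem. -/
theorem polyZ_of_amenable {M X Γ : Type} [TopologicalSpace M] [T2Space M] [CompactSpace M]
    [ChartedSpace (EuclideanSpace ℝ (Fin 4)) M] [TopologicalSpace X] [ContractibleSpace X]
    [Group Γ] [MulAction Γ X] [ContinuousConstSMul Γ X] (p : X → M)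
    (hp : IsQuotientCoveringMap p Γ) (hF : Folner Γ) (hres : ResFin Γ) :
    ∃ K : Subgroup Γ, K.FiniteIndex ∧ PolyZ K 4 :=
  polyZ_of_vsolv p hp (main4 p hp hF hres)

end Vale.Agent.P260.LM
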