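import Vale.Agent.P260.LM.GeoBd1
import Vale.Agent.P260.H20.A0
import Vale.Agent.P260.H20.Fin
import Vale.Agent.P260.H672.Cmp

/-!
P260, last mile, block GEO, `bd`, part 2: labels, and the bound of the cohomological dimension
of all the subgroups.
-/

set_option linter.all false

open Set (univ image mem_iUnion₂)

namespace Vale.Agent.P260.LM

open Vale.Agent.P260.A (Cov)
open Vale.Agent.P239.M (Ch ext bd bdL pf cone Sup CFillS FillS SmG CoAct sup_bdL ext_congr Sup.mono
  ext_bdL htp)
open Vale.Agent.P260.H672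

/-- Equivariant labels. -/
theorem exists_label {G X M : Type} [Group G] [MetricSpace X] [MetricSpace M] [MulAction G X]
    {p : X → M} (hc : Cov G p) : ∃ (m : ℕ) (c : X → Fin m) (θ : X → G) (κ : ℝ), 0 < κ ∧
      (∀ (g : G) x, c (g • x) = c x) ∧ (∀ (g : G) x, θ (g • x) = g * θ x) ∧
      ∀ x y, dist x y < κ → c x = c y → θ x = θ y := by
  classical
  obtain ⟨ρ, hρ, hinj⟩ := hc.inj
  obtain ⟨B, hB, hcov⟩ := hc.act.cocomp
  obtain ⟨t, -, ht⟩ := hB.elim_nhds_subcover (fun z => Metric.ball z (ρ / 4))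
    fun z _ => Metric.ball_mem_nhds z (by positivity)
  let e : t ≃ Fin t.card := t.equivFin
  let z : Fin t.card → X := fun j => (e.symm j : X)
  -- every point is close to a translate of a centre
  have h1 : ∀ x : X, ∃ (j : Fin t.card) (g : G), dist x (g • z j) < ρ / 4 := by
    intro x
    obtain ⟨g, y, hy, rfl⟩ := hcov x
    obtain ⟨w, hw, hyw⟩ := mem_iUnion₂.1 (ht hy)
    refine ⟨e ⟨w, hw⟩, g, ?_⟩
    have : z (e ⟨w, hw⟩) = w := by simp [z]
    rw [this, hc.iso]
    exact hyw
  have uniq : ∀ (j : Fin t.card) (x : X) (g g' : G), dist x (g • z j) < ρ / 2 →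
      dist x (g' • z j) < ρ / 2 → g = g' := by
    intro j x g g' h h'
    have h2 : dist (g • z j) ((g' * g⁻¹) • (g • z j)) < ρ := by
      rw [smul_smul, inv_mul_cancel_right]
      have := dist_triangle_left (g • z j) (g' • z j) x
      linarith
    have h3 := hinj _ _ h2
    exact (mul_inv_eq_one.1 h3).symm
  -- lifts
  have hs : ∀ y : M, ∃ x : X, p x = y := hc.surj
  choose σ hσ using hs
  choose j hj using fun y : M => h1 (σ y)
  have h2 : ∀ x : X, ∃ g : G, dist x (g • z (j (p x))) < ρ / 4 := by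
    intro x
    obtain ⟨g, hg⟩ := (hc.fib (σ (p x)) x).1 (hσ (p x))
    obtain ⟨g', hg'⟩ := hj (p x)
    refine ⟨g * g', ?_⟩
    conv_lhs => rw [hg]
    have : p (g • σ (p x)) = p x := by rw [← hg]
    rw [this, mul_smul, hc.iso]
    exact hg'
  choose θ hθ using h2
  have hinv : ∀ (g : G) x, p (g • x) = p x := fun g x => ((hc.fib x (g • x)).2 ⟨g, rfl⟩).symm
  refine ⟨t.card, fun x => j (p x), θ, ρ / 4, by positivity, fun g x => congrArg j (hinv g x),
    fun g x => ?_, fun x y hxy hcxy => ?_⟩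
  · refine uniq (j (p x)) (g • x) _ _ ?_ ?_
    · have := hθ (g • x)
      rw [hinv] at this
      linarith
    · rw [mul_smul, hc.iso]
      have := hθ x
      linarith
  · have a1 := hθ x
    have a2 := hθ y
    have hcxy' : j (p x) = j (p y) := hcxy
    rw [← hcxy'] at a2
    refine uniq (j (p x)) x _ _ (by linarith) ?_
    have := dist_triangle x y (θ y • z (j (p x)))
    linarith

theorem dc_eq_ext {k : Type} [CommRing k] {α : Type} (f : List α → k) :
    ∀ l : List α, dc f l = ext f (bdL k l) := by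
  intro l
  induction l generalizing f with
  | nil => rw [dc_nil, bdL, map_zero]
  | cons a l ih =>
    rw [dc_cons, bdL, map_sub, Finsupp.linearCombination_single, one_smul, ih]
    congr 1
    have : (ext f).comp (cone a) = (ext (fun l => f (a :: l)) : Ch k α →ₗ[k] k) :=
      lin_ext' fun l => by
        rw [LinearMap.comp_apply]
        simp [cone]
    exact (DFunLike.congr_fun this _).symm

/-- A bound, uniform in the subgroup `S`. -/
theorem bd_of_cov {q : ℕ} [Fact q.Prime] {G X M : Type} [Group G] [MetricSpace X] [MetricSpace M]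
    [MulAction G X] {p : X → M} (hc : Cov G p) (hF : FillS (ZMod q) X)
    (hC : ∀ i, CFillS (ZMod q) G i) {m : ℕ} (c : X → Fin m) (θ : X → G) {κ : ℝ} (hκ : 0 < κ)
    (hcinv : ∀ (g : G) x, c (g • x) = c x) (hθ : ∀ (g : G) x, θ (g • x) = g * θ x)
    (hsm : ∀ x y, dist x y < κ → c x = c y → θ x = θ y) (S : Subgroup G) (n : ℕ) (hn : m ≤ n)
    (hn0 : n ≠ 0) : Van q S n := by
  intro f hf
  -- the colour lemma
  let T : Set (Fin m × G → Fin m × G) := {t | ∃ s ∈ S, t = fun v => (v.1, s * v.2)}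
  obtain ⟨h, hh1, hh2⟩ := colour (k := ZMod q) (V := Fin m × G) Prod.fst T
    (by rintro t ⟨s, -, rfl⟩ v; rfl) hn (u := fun l => f (l.map Prod.snd))
    (by
      rintro t ⟨s, hs, rfl⟩ l
      have e : (l.map fun v : Fin m × G => (v.1, s * v.2)).map Prod.snd =
          (l.map Prod.snd).map (s * ·) := by
        rw [List.map_map, List.map_map]
        rfl
      change f ((l.map fun v : Fin m × G => (v.1, s * v.2)).map Prod.snd) = f (l.map Prod.snd)
      rw [e, hf.1 s hs])
    (fun l hl => by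
      rw [← dc_map]
      exact hf.2 _ (by rw [List.length_map, hl]))
  have hh1' : ∀ s ∈ S, ∀ l : List (Fin m × G), h (l.map fun v => (v.1, s * v.2)) = h l :=
    fun s hs l => hh1 _ ⟨s, hs, rfl⟩ l
  -- the chain map
  obtain ⟨C, hCc, HQ⟩ := exists_Q (k := ZMod q) hc.act.cont hF hC ∅ (n + 1)
  obtain ⟨Q, hQ0, hQe, hQb, hQs, -⟩ := HQ κ hκ
  let lam : X → Fin m × G := fun x => (c x, θ x)
  let Φ : List G → Ch (ZMod q) G := fun l => pf θ (Q l)
  have hΦ0 : Φ [] = Finsupp.single [] 1 := by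
    change pf θ (Q []) = _
    rw [hQ0, Vale.Agent.P239.M.pf_single, List.map_nil]
  have hΦb : ∀ l, l.length ≤ n + 1 → bd (Φ l) = ext Φ (bdL (ZMod q) l) := by
    intro l hl
    change bd (pf θ (Q l)) = _
    rw [Vale.Agent.P239.M.bd_pf, hQb l hl]
    exact Vale.Agent.P239.M.SupA.map_ext (pf θ) Q (bdL (ZMod q) l)
  have hΦs : ∀ l, l.length ≤ n + 1 → Sup (fun l' => l'.length = l.length) (Φ l) := by
    intro l hl
    refine Vale.Agent.P239.M.Sup.pf (R := fun l' : List G => l'.length = l.length) θ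
      (Sup.mono (fun l' hl' => ?_) (hQs l hl))
    obtain ⟨g, hg⟩ := hl'
    rw [List.length_map]
    exact hg.1
  have hΦe : ∀ (g : G) l, Φ (l.map fun x => g • x) = H672.tr g (Φ l) := by
    intro g l
    change pf θ (Q _) = H672.tr g (pf θ (Q l))
    rw [hQe, pf_theta_tr hθ]
  -- small lists have admissible labels
  have hadm : ∀ (g : G) (r : ℕ) (l : List X), Sz g C κ r l → Adm Prod.fst (l.map lam) := by
    intro g r l hl a ha b hb hab
    obtain ⟨x, hx, rfl⟩ := List.mem_map.1 ha
    obtain ⟨y, hy, rfl⟩ := List.mem_map.1 hb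
    have h1 := hl.2.1 _ (List.mem_map.2 ⟨x, hx, rfl⟩) _ (List.mem_map.2 ⟨y, hy, rfl⟩)
    rw [hc.iso] at h1
    exact Prod.ext hab (hsm x y h1 hab)
  have key : ∀ l : List G, l.length = n + 1 →
      f l = dc (fun l' => ext f (htp hdG Φ l') + ext h (pf lam (Q l'))) l := by
    intro l hl
    have h1 := coc_htp (f := f) (fun l hl => by rw [← dc_eq_ext]; exact hf.2 l hl) hΦ0 hΦb hΦs hl
    have h2 : ext f (Φ l) = ext (dc h) (pf lam (Q l)) := by
      change ext f (pf θ (Q l)) = _
      rw [ext_pf, ext_pf]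
      refine ext_congr (hQs l hl.le) fun l' hl' => ?_
      obtain ⟨g, hg⟩ := hl'
      rw [← hh2 _ (by rw [List.length_map, hg.1, hl]) (hadm g _ l' hg), List.map_map]
      rfl
    have h3 : ext (dc h) (pf lam (Q l)) = ext h (bd (pf lam (Q l))) := by
      rw [ext_bdL]
      congr 1
      congr 1
      funext l'
      exact dc_eq_ext h l'
    have h4 : ext h (bd (pf lam (Q l))) = ext (fun l' => ext h (pf lam (Q l'))) (bdL (ZMod q) l) := by
      rw [Vale.Agent.P239.M.bd_pf, hQb l hl.le]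
      exact Vale.Agent.P239.M.SupA.map_ext ((ext h).comp (pf lam)) Q (bdL (ZMod q) l)
    rw [h1, h2, h3, h4, dc_eq_ext, Vale.Agent.P239.M.SupA.ext_add]
  refine ⟨fun l' => ext f (htp hdG Φ l') + ext h (pf lam (Q l')), fun h => absurd h hn0,
    fun s hs l => ?_, key⟩
  have e1 : htp hdG Φ (l.map fun x => s * x) = H672.tr s (htp hdG Φ l) :=
    htp_equiv hdG_smul hΦe s l
  have e2 : Q (l.map fun x => s * x) = H672.tr s (Q l) := hQe s l
  have e3 : ext f (H672.tr s (htp hdG Φ l)) = ext f (htp hdG Φ l) := by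
    rw [ext_tr]
    refine congrArg (fun u => ext u (htp hdG Φ l)) ?_
    funext l'
    exact hf.1 s hs l'
  have e4 : ext h (pf lam (H672.tr s (Q l))) = ext h (pf lam (Q l)) := by
    rw [ext_pf, ext_pf, ext_tr]
    refine congrArg (fun u => ext u (Q l)) ?_
    funext l'
    refine Eq.trans ?_ (hh1' s hs (l'.map lam))
    rw [List.map_map, List.map_map]
    congr 1
    refine List.map_congr_left fun x _ => ?_
    simp only [Function.comp_apply, lam]
    rw [hcinv, hθ]
  change ext f (htp hdG Φ (l.map fun x => s * x)) + ext h (pf lam (Q (l.map fun x => s * x))) = _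
  rw [e1, e2, e3, e4]

/-- **GEO, `bd`.** -/
theorem geo_bd {M : Type} {X : Type} {Γ : Type}
    [TopologicalSpace M] [T2Space M] [CompactSpace M] [ChartedSpace (EuclideanSpace ℝ (Fin 4)) M]
    [TopologicalSpace X] [ContractibleSpace X] [Group Γ] [MulAction Γ X]
    [ContinuousConstSMul Γ X] (p : X → M) (hp : IsQuotientCoveringMap p Γ) :
    ∃ m : ℕ, ∀ (q : ℕ) [Fact q.Prime] (S : Subgroup Γ), ∀ n ≥ m, Van q S n := by
  haveI : SecondCountableTopology M :=
    ChartedSpace.secondCountable_of_sigmaCompact (EuclideanSpace ℝ (Fin 4)) M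
  haveI : TopologicalSpace.MetrizableSpace M := inferInstance
  letI : MetricSpace M := TopologicalSpace.metrizableSpaceMetric M
  have hC : ∀ (q : ℕ) [Fact q.Prime] (i : ℕ), CFillS (ZMod q) Γ i := fun q _ i =>
    Vale.Agent.P260.A.cfill_cover hp (ZMod q) i
  obtain ⟨mX, hmt, hcov⟩ := Vale.Agent.P260.A.exists_cov hp
  subst hmt
  obtain ⟨m, c, θ, κ, hκ, h1, h2, h3⟩ := exists_label hcov
  refine ⟨m + 1, fun q _ S n hn => bd_of_cov hcov (Vale.Agent.P239.M.fillS (ZMod q) X) (hC q) c θ
    hκ h1 h2 h3 S n (by omega) (by omega)⟩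

/-- The field `bd` of `Geo`. -/
theorem geo_bd_two {M : Type} {X : Type} {Γ : Type}
    [TopologicalSpace M] [T2Space M] [CompactSpace M] [ChartedSpace (EuclideanSpace ℝ (Fin 4)) M]
    [TopologicalSpace X] [ContractibleSpace X] [Group Γ] [MulAction Γ X]
    [ContinuousConstSMul Γ X] (p : X → M) (hp : IsQuotientCoveringMap p Γ) :
    ∃ m : ℕ, ∀ S : Subgroup Γ, ∀ n ≥ m, Van 2 S n := by
  obtain ⟨m, h⟩ := geo_bd p hp
  exact ⟨m, fun S n hn => h 2 S n hn⟩

end Vale.Agent.P260.LM
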