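import Vale.Agent.P260.LM.GeoFour
import Vale.Agent.P260.LM.GeoBd
import Vale.Agent.P239.Bdl.B9

/-!
P260, last mile, block GEO: assembly of `Geo` from its fields.
-/

namespace Vale.Agent.P260.LM

section Fields

variable {M X Γ : Type}
  [TopologicalSpace M] [T2Space M] [CompactSpace M] [ChartedSpace (EuclideanSpace ℝ (Fin 4)) M]
  [TopologicalSpace X] [ContractibleSpace X] [Group Γ] [MulAction Γ X] {p : X → M}

/-- The field `fg` of `Geo`. -/
theorem geo_fg (hp : IsQuotientCoveringMap p Γ) : Group.FG Γ := by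
  have : SecondCountableTopology M :=
    ChartedSpace.secondCountable_of_sigmaCompact (EuclideanSpace ℝ (Fin 4)) M
  have : TopologicalSpace.MetrizableSpace M := inferInstance
  let _ : MetricSpace M := TopologicalSpace.metrizableSpaceMetric M
  exact A.fg_cover hp

omit [ChartedSpace (EuclideanSpace ℝ (Fin 4)) M] in
/-- The field `tf` of `Geo`. -/
theorem geo_tf (hp : IsQuotientCoveringMap p Γ) : TF Γ := by
  have hX : LocallyCompactSpace X := (A.exists_cocomp hp).1
  intro g n hn hg
  by_contra h1
  exact Vale.Agent.P239.TF.torsion_free hp g h1 n hn hg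

end Fields

/-- The field `five` of `Geo`. -/
def BlockFive : Prop :=
  ∀ {M : Type} {X : Type} {Γ : Type}
    [TopologicalSpace M] [T2Space M] [CompactSpace M] [ChartedSpace (EuclideanSpace ℝ (Fin 4)) M]
    [TopologicalSpace X] [ContractibleSpace X] [Group Γ] [MulAction Γ X]
    [ContinuousConstSMul Γ X] (p : X → M), IsQuotientCoveringMap p Γ →
    ∀ (q : ℕ) [Fact q.Prime] (K : Subgroup Γ), K.FiniteIndex → ∀ n ≥ 5, Van q K n

/-- The field `bd` of `Geo`. -/
def BlockBd : Prop :=
  ∀ {M : Type} {X : Type} {Γ : Type}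
    [TopologicalSpace M] [T2Space M] [CompactSpace M] [ChartedSpace (EuclideanSpace ℝ (Fin 4)) M]
    [TopologicalSpace X] [ContractibleSpace X] [Group Γ] [MulAction Γ X]
    [ContinuousConstSMul Γ X] (p : X → M), IsQuotientCoveringMap p Γ →
    ∃ m : ℕ, ∀ S : Subgroup Γ, ∀ n ≥ m, Van 2 S n

/-- **Block GEO** from `five` and `bd`. -/
theorem blockGeo_of (h5 : BlockFive) (hb : BlockBd) : BlockGeo := by
  intro M X Γ _ _ _ _ _ _ _ _ _ p hp
  exact
    { fg := geo_fg hp
      tf := geo_tf hp
      bd := hb p hp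
      five := fun q _ K hK n hn => h5 p hp q K hK n hn
      four := fun q _ => geo_four hp q }

theorem blockBd : BlockBd := by
  intro M X Γ _ _ _ _ _ _ _ _ _ p hp
  exact geo_bd_two p hp

/-- **Block GEO** from `five`. -/
theorem blockGeo_of_five (h5 : BlockFive) : BlockGeo := blockGeo_of h5 blockBd

end Vale.Agent.P260.LM
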