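import Vale.Agent.P260.LM.Coh
import Mathlib.Data.List.Duplicate

/-!
P260, last mile, block GEO, `bd`, part 1: the colour lemma. Let `V` be coloured with `m` colours.
A cocycle of degree `n ≥ m` is, on the lists whose entries of the same colour are equal, the
coboundary of a cochain with the same symmetries.
-/

namespace Vale.Agent.P260.LM

section

variable {V k : Type} [AddCommGroup k]

theorem dc_congr_erase : ∀ {l : List V} {f g : List V → k},
    (∀ i < l.length, f (l.eraseIdx i) = g (l.eraseIdx i)) → dc f l = dc g l
  | [], f, g, _ => by rw [dc_nil, dc_nil]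
  | a :: l, f, g, h => by
    rw [dc_cons, dc_cons]
    have h0 : f l = g l := h 0 (by simp)
    have h1 : dc (fun l => f (a :: l)) l = dc (fun l => g (a :: l)) l :=
      dc_congr_erase fun i hi => h (i + 1) (by simpa using hi)
    rw [h0, h1]

/-- entries of the same colour are equal -/
def Adm {ι : Type} (c : V → ι) (l : List V) : Prop := ∀ a ∈ l, ∀ b ∈ l, c a = c b → a = b

theorem Adm.sub {ι : Type} {c : V → ι} {l l' : List V} (h : Adm c l) (hl : l' ⊆ l) : Adm c l' :=
  fun a ha b hb => h a (hl ha) b (hl hb)

theorem colour_step {m : ℕ} (c : V → Fin m) (T : Set (V → V)) (hT : ∀ t ∈ T, ∀ v, c (t v) = c v)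
    {n : ℕ} {u : List V → k} (hu : ∀ t ∈ T, ∀ l : List V, u (l.map t) = u l)
    (hc : ∀ l : List V, l.length = n + 2 → dc u l = 0) (j : ℕ) :
    ∃ h : List V → k, (∀ t ∈ T, ∀ l : List V, h (l.map t) = h l) ∧
      ∀ l : List V, l.length = n + 1 → Adm c l → (∃ a, List.Duplicate a l ∧ (c a : ℕ) < j) →
        u l = dc h l := by
  classical
  induction j with
  | zero => exact ⟨fun _ => 0, fun _ _ _ => rfl, fun l _ _ ⟨a, _, ha⟩ => absurd ha (by omega)⟩
  | succ j ih =>
    obtain ⟨h, hT', hh⟩ := ih
    let v : List V → k := fun l => u l - dc h l
    have hv1 : ∀ t ∈ T, ∀ l : List V, v (l.map t) = v l := by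
      intro t ht l
      change u (l.map t) - dc h (l.map t) = u l - dc h l
      rw [hu t ht, dc_map]
      congr 2
      funext l'
      exact hT' t ht l'
    have hv2 : ∀ l : List V, l.length = n + 2 → dc v l = 0 := by
      intro l hl
      have : dc v l = dc u l - dc (dc h) l := dc_sub u (dc h) l
      rw [this, hc l hl, dc_dc, sub_zero]
    have hv3 : ∀ l : List V, l.length = n + 1 → Adm c l →
        (∃ a, List.Duplicate a l ∧ (c a : ℕ) < j) → v l = 0 := by
      intro l h1 h2 h3
      change u l - dc h l = 0
      rw [hh l h1 h2 h3, sub_self]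
    let w : List V → k := fun l => match l.find? (fun a => decide ((c a : ℕ) = j)) with
      | some a => v (a :: l)
      | none => 0
    have w_some : ∀ (l : List V) (a : V), a ∈ l → (c a : ℕ) = j → Adm c l → w l = v (a :: l) := by
      intro l a ha hca hl
      have hsome : (l.find? (fun a => decide ((c a : ℕ) = j))).isSome := by
        rw [List.find?_isSome]
        exact ⟨a, ha, by simpa using hca⟩
      obtain ⟨b, hb⟩ := Option.isSome_iff_exists.1 hsome
      have hb1 : (c b : ℕ) = j := by simpa using List.find?_some hb
      have hb2 : b ∈ l := List.mem_of_find?_eq_some hb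
      have e : b = a := hl b hb2 a ha (Fin.ext (hb1.trans hca.symm))
      subst e
      change (match l.find? (fun a => decide ((c a : ℕ) = j)) with
        | some a => v (a :: l)
        | none => 0) = _
      rw [hb]
    have w_none : ∀ l : List V, (∀ a ∈ l, (c a : ℕ) ≠ j) → w l = 0 := by
      intro l ha
      have hn : l.find? (fun a => decide ((c a : ℕ) = j)) = none := by
        rw [List.find?_eq_none]
        intro a hal
        simpa using ha a hal
      change (match l.find? (fun a => decide ((c a : ℕ) = j)) with
        | some a => v (a :: l)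
        | none => 0) = _
      rw [hn]
    have w_inv : ∀ t ∈ T, ∀ l : List V, w (l.map t) = w l := by
      intro t ht l
      change (match (l.map t).find? (fun a => decide ((c a : ℕ) = j)) with
        | some a => v (a :: l.map t)
        | none => 0) = (match l.find? (fun a => decide ((c a : ℕ) = j)) with
        | some a => v (a :: l)
        | none => 0)
      have e : (fun a => decide ((c a : ℕ) = j)) ∘ t = fun a => decide ((c a : ℕ) = j) := by
        funext a
        simp only [Function.comp_apply, hT t ht]
      rw [List.find?_map, e]
      cases hfi : l.find? (fun a => decide ((c a : ℕ) = j)) with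
      | none => rfl
      | some a =>
        simp only [Option.map_some]
        rw [← List.map_cons, hv1 t ht]
    refine ⟨fun l => h l + w l, fun t ht l => by simp only [hT' t ht l, w_inv t ht l], ?_⟩
    rintro l hl hA ⟨a₀, hd, hj⟩
    have goal : v l = dc w l := by
      by_cases hex : ∃ a ∈ l, (c a : ℕ) = j
      · obtain ⟨a, ha, hca⟩ := hex
        have h1 : dc w l = dc (fun l' => v (a :: l')) l := by
          refine dc_congr_erase fun i hi => ?_
          by_cases hai : a ∈ l.eraseIdx i
          · exact w_some _ a hai hca (hA.sub (List.eraseIdx_subset))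
          · have hnone : w (l.eraseIdx i) = 0 := w_none _ fun b hb hcb => by
              have : b = a := hA b (List.eraseIdx_subset hb) a ha (Fin.ext (hcb.trans hca.symm))
              exact hai (this ▸ hb)
            rw [hnone]
            have hperm : List.Perm (l[i] :: l.eraseIdx i) l := List.getElem_cons_eraseIdx_perm hi
            have hia : l[i] = a := by
              have : a ∈ l[i] :: l.eraseIdx i := hperm.mem_iff.2 ha
              rcases List.mem_cons.1 this with h | h
              · exact h.symm
              · exact absurd h hai
            rw [hia] at hperm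
            symm
            refine hv3 _ (by rw [hperm.length_eq, hl]) (hA.sub hperm.subset) ⟨a₀, ?_, ?_⟩
            · rw [List.duplicate_iff_two_le_count] at hd ⊢
              rwa [hperm.count_eq]
            · by_contra hcon
              have hcj : (c a₀ : ℕ) = j := by omega
              have e : a₀ = a := hA a₀ hd.mem a ha (Fin.ext (hcj.trans hca.symm))
              subst e
              rw [List.duplicate_iff_two_le_count] at hd
              have h3 : (a₀ :: l.eraseIdx i).count a₀ = l.count a₀ := hperm.count_eq a₀
              rw [List.count_cons_self, List.count_eq_zero_of_not_mem hai] at h3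
              omega
        have h2 := hv2 (a :: l) (by simp [hl])
        rw [dc_cons] at h2
        rw [h1]
        exact sub_eq_zero.1 h2
      · push Not at hex
        have h1 : dc w l = dc (fun _ => (0 : k)) l :=
          dc_congr_erase fun i hi => w_none _ fun a ha => hex a (List.eraseIdx_subset ha)
        rw [h1, dc_zero]
        refine hv3 l hl hA ⟨a₀, hd, ?_⟩
        have := hex a₀ hd.mem
        omega
    rw [dc_add, ← goal]
    change u l = dc h l + (u l - dc h l)
    abel

/-- **The colour lemma.** -/
theorem colour {m : ℕ} (c : V → Fin m) (T : Set (V → V)) (hT : ∀ t ∈ T, ∀ v, c (t v) = c v)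
    {n : ℕ} (hn : m ≤ n) {u : List V → k} (hu : ∀ t ∈ T, ∀ l : List V, u (l.map t) = u l)
    (hc : ∀ l : List V, l.length = n + 2 → dc u l = 0) :
    ∃ h : List V → k, (∀ t ∈ T, ∀ l : List V, h (l.map t) = h l) ∧
      ∀ l : List V, l.length = n + 1 → Adm c l → u l = dc h l := by
  classical
  obtain ⟨h, h1, h2⟩ := colour_step c T hT hu hc m
  refine ⟨h, h1, fun l hl hA => h2 l hl hA ?_⟩
  have hnd : ¬ l.Nodup := by
    intro hnd
    have h3 : (l.map c).Nodup := List.Nodup.map_on (fun a ha b hb hab => hA a ha b hb hab) hnd
    have h4 := h3.length_le_card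
    rw [List.length_map, hl, Fintype.card_fin] at h4
    omega
  obtain ⟨a, ha⟩ := List.exists_duplicate_iff_not_nodup.2 hnd
  exact ⟨a, ha, (c a).2⟩

end

end Vale.Agent.P260.LM
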