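import Vale.Agent.P260.LM.Coh
import Vale.Agent.P260.H20.BlockPD

/-!
P260, last mile, block GEO: the field `four` of `Geo` (a finite index subgroup, small enough, has
nonzero cohomology in degree four), and the transfer between cochains on lists of elements of a
subgroup and invariant cochains on lists of elements of the ambient group.
-/

namespace Vale.Agent.P260.LM

open Set
open Vale.Agent.P216 Vale.Agent.P216.PS
open Vale.Agent.P216.Sl (dl)

/-- The two coboundaries agree. -/
theorem dc_eq_dl {α k : Type} [Field k] : ∀ (f : List α → k) (l : List α), dc f l = dl f l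
  | f, [] => by rw [dc_nil, Vale.Agent.P216.Sl.dl_nil]
  | f, a :: l => by
    rw [dc_cons, Vale.Agent.P216.Sl.dl_cons, dc_eq_dl (fun l => f (a :: l)) l]

section Retr

variable {Γ : Type} [Group Γ] (K : Subgroup Γ)

/-- An equivariant retraction onto a subgroup. -/
theorem exists_retr : ∃ ρ : Γ → K, (∀ (s : K) (x : Γ), ρ (s * x) = s * ρ x) ∧ ∀ s : K, ρ s = s := by
  let t : Γ → Γ := fun x => (Quotient.mk (QuotientGroup.rightRel K) x).out
  have ht : ∀ x, x * (t x)⁻¹ ∈ K := fun x => by
    have h := Quotient.mk_out (s := QuotientGroup.rightRel K) x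
    exact QuotientGroup.rightRel_apply.1 h
  have hst : ∀ (s : K) (x : Γ), t (s * x) = t x := fun s x => by
    have h : (Quotient.mk (QuotientGroup.rightRel K) (s * x)) =
        Quotient.mk (QuotientGroup.rightRel K) x := by
      refine Quotient.sound (s := QuotientGroup.rightRel K) (QuotientGroup.rightRel_apply.2 ?_)
      rw [mul_inv_rev, ← mul_assoc, mul_inv_cancel, one_mul]
      exact K.inv_mem s.2
    exact congrArg Quotient.out h
  have h1 : t 1 ∈ K := by
    have := K.inv_mem (ht 1)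
    rwa [one_mul, inv_inv] at this
  refine ⟨fun x => ⟨x * (t x)⁻¹ * t 1, K.mul_mem (ht x) h1⟩, fun s x => ?_, fun s => ?_⟩
  · refine Subtype.ext ?_
    change (s : Γ) * x * (t (s * x))⁻¹ * t 1 = s * (x * (t x)⁻¹ * t 1)
    rw [hst]
    simp only [mul_assoc]
  · refine Subtype.ext ?_
    change (s : Γ) * (t s)⁻¹ * t 1 = s
    have h2 := hst s 1
    rw [mul_one] at h2
    rw [h2, inv_mul_cancel_right]

variable {K}

theorem map_retr {ρ : Γ → K} (hρ : ∀ (s : K) (x : Γ), ρ (s * x) = s * ρ x) (s : K) (l : List Γ) :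
    (l.map ((s : Γ) * ·)).map ρ = (l.map ρ).map (s * ·) := by
  rw [List.map_map, List.map_map]
  exact List.map_congr_left fun x _ => hρ s x

theorem map_retr_coe {ρ : Γ → K} (hρ : ∀ s : K, ρ s = s) (l : List K) :
    (l.map ((↑) : K → Γ)).map ρ = l := by
  rw [List.map_map]
  conv_rhs => rw [← List.map_id l]
  exact List.map_congr_left fun x _ => hρ x

theorem map_coe_mul (s : K) (l : List K) :
    (l.map (s * ·)).map ((↑) : K → Γ) = (l.map ((↑) : K → Γ)).map ((s : Γ) * ·) := by
  rw [List.map_map, List.map_map]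
  exact List.map_congr_left fun x _ => rfl

variable {q : ℕ} [Fact q.Prime] {n : ℕ}

/-- pull back along the retraction -/
theorem cocS_retr {ρ : Γ → K} (hρ : ∀ (s : K) (x : Γ), ρ (s * x) = s * ρ x)
    {f : List K → ZMod q} (hf : A.CocG n f) : CocS q K n fun l => f (l.map ρ) := by
  refine ⟨fun s hs l => ?_, fun l hl => ?_⟩
  · have h := map_retr hρ ⟨s, hs⟩ l
    change f ((l.map (s * ·)).map ρ) = f (l.map ρ)
    rw [h]
    exact hf.1 ⟨s, hs⟩ _
  · rw [← dc_map, dc_eq_dl]
    exact hf.2 _ (by rw [List.length_map, hl])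

/-- restriction to the lists of elements of the subgroup -/
theorem cocG_res {f : List Γ → ZMod q} (hf : CocS q K n f) :
    A.CocG n fun l : List K => f (l.map ((↑) : K → Γ)) := by
  refine ⟨fun s l => ?_, fun l hl => ?_⟩
  · change f ((l.map (s * ·)).map _) = _
    rw [map_coe_mul]
    exact hf.1 s s.2 _
  · rw [← dc_eq_dl, ← dc_map]
    exact hf.2 _ (by rw [List.length_map, hl])

theorem exG_res {f : List Γ → ZMod q} (hf : ExS q K n f) :
    A.ExG n fun l : List K => f (l.map ((↑) : K → Γ)) := by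
  obtain ⟨h, h0, hi, he⟩ := hf
  refine ⟨fun l => h (l.map ((↑) : K → Γ)), fun hn l => h0 hn _, fun s l => ?_, fun l hl => ?_⟩
  · change h ((l.map (s * ·)).map _) = _
    rw [map_coe_mul]
    exact hi s s.2 _
  · rw [← dc_eq_dl, ← dc_map]
    exact he _ (by rw [List.length_map, hl])

theorem exS_retr {ρ : Γ → K} (hρ : ∀ (s : K) (x : Γ), ρ (s * x) = s * ρ x)
    {f : List K → ZMod q} (hf : A.ExG n f) : ExS q K n fun l => f (l.map ρ) := by
  obtain ⟨h, h0, hi, he⟩ := hf
  refine ⟨fun l => h (l.map ρ), fun hn l => h0 hn _, fun s hs l => ?_, fun l hl => ?_⟩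
  · change h ((l.map (s * ·)).map ρ) = h (l.map ρ)
    rw [map_retr hρ ⟨s, hs⟩ l]
    exact hi ⟨s, hs⟩ _
  · rw [← dc_map, dc_eq_dl]
    exact he _ (by rw [List.length_map, hl])

/-- A cocycle of the group `K` which is not exact gives a cocycle in the sense of `Non`. -/
theorem non_of_exG {f : List K → ZMod q} (hf : A.CocG n f) (h : ¬ A.ExG n f) : Non q K n := by
  obtain ⟨ρ, h1, h2⟩ := exists_retr K
  refine ⟨fun l => f (l.map ρ), cocS_retr h1 hf, fun he => h ?_⟩
  have h3 := exG_res he
  obtain ⟨g, g0, gi, ge⟩ := h3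
  refine ⟨g, g0, gi, fun l hl => ?_⟩
  have := ge l hl
  simpa only [map_retr_coe h2] using this

end Retr

section Four

variable {M X Γ : Type}
  [TopologicalSpace M] [T2Space M] [CompactSpace M] [ChartedSpace (EuclideanSpace ℝ (Fin 4)) M]
  [TopologicalSpace X] [ContractibleSpace X] [Group Γ] [MulAction Γ X] {p : X → M}

/-- The field `four` of `Geo`. -/
theorem geo_four (hp : IsQuotientCoveringMap p Γ) (q : ℕ) [Fact q.Prime] :
    ∃ G' : Subgroup Γ, G'.FiniteIndex ∧
      ∀ K : Subgroup Γ, K.FiniteIndex → K ≤ G' → Non q K 4 := by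
  have : SecondCountableTopology M :=
    ChartedSpace.secondCountable_of_sigmaCompact (EuclideanSpace ℝ (Fin 4)) M
  have : TopologicalSpace.MetrizableSpace M := inferInstance
  let _ : MetricSpace M := TopologicalSpace.metrizableSpaceMetric M
  obtain ⟨χ, hχ⟩ := A.chi_mfd (n := 4) (by norm_num) hp (ZMod q)
  obtain ⟨-, h2, -⟩ := A.coprime_index χ
  refine ⟨χ.ker, h2, fun K hK hle => ?_⟩
  obtain ⟨N, _, _, _, _, r, hr⟩ := A7.exists_quot (n := 4) hp K hK
  obtain ⟨w, -, hw, hw0⟩ := hχ K hle N r hr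
  obtain ⟨Φ, hΦ, hs⟩ := A.cmp_surj hr (ZMod q)
  obtain ⟨f, hf, hwf⟩ := hs 4 w hw
  refine non_of_exG hf fun h2 => hw0 ?_
  refine A.exL_congr (A.exL_add hwf (hΦ.ex 4 f h2)) fun l _ => ?_
  ring

end Four

end Vale.Agent.P260.LM
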