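import Vale.Agent.P260.LM.Wang

/-!
P260, last mile: block R2, vanishing.
-/

namespace Vale.Agent.P260.LM

variable {Γ : Type} [Group Γ] {N G : Subgroup Γ} {q n : ℕ}

/-- An invariant cochain whose coboundary agrees with a `G`-cocycle: its differences `tr a y - y`
are cocycles of `N`. -/
theorem cocS_tr_sub {z y : List Γ → ZMod q} (hz : InvS G z) (hy : InvS N y)
    (hzy : ∀ l : List Γ, l.length = n + 2 → z l = dc y l) {a : Γ} (ha : a ∈ G) (hnz : Nz N a) :
    CocS q N n fun l => tr a y l - y l := by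
  refine ⟨(hy.tr hnz).sub hy, fun l hl => ?_⟩
  rw [dc_sub, ← tr_dc, tr_apply, ← hzy l hl, ← hzy _ (by simpa using hl)]
  have := congrFun (hz.tr_eq ha) l
  rw [tr_apply] at this
  rw [this, sub_self]

/-- **Block R2.** -/
theorem blockR2 : BlockR2 := by
  intro Γ _ q hq N G h n h0 h1 z hz
  obtain ⟨y, hy, hzy⟩ := exS_succ.1 (h1 z (hz.mono h.le))
  have : NeZero q := ⟨hq.out.ne_zero⟩
  refine glue h fun a ha ha' => ?_
  have h2 := exS_dc_of_tr h ha ha' hy (h0 _ (cocS_tr_sub hz.1 hy hzy ha (h.nz ha)))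
  exact h2.congr hzy

end Vale.Agent.P260.LM
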