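import Vale.Agent.P260.LM.Coh

/-!
P260, last mile: elementary facts on rank one quotients.
-/

namespace Vale.Agent.P260.LM

open scoped commutatorElement

variable {Γ : Type} [Group Γ] {N G : Subgroup Γ}

theorem RankOne.conj (h : RankOne N G) {x n : Γ} (hx : x ∈ G) (hn : n ∈ N) :
    x * n * x⁻¹ ∈ N := by
  have h1 := h.comm x hx n (h.le hn)
  have e : x * n * x⁻¹ = ⁅x, n⁆ * n := by rw [commutatorElement_def]; group
  rw [e]
  exact N.mul_mem h1 hn

theorem RankOne.conj' (h : RankOne N G) {x n : Γ} (hx : x ∈ G) (hn : n ∈ N) :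
    x⁻¹ * n * x ∈ N := by
  have := h.conj (G.inv_mem hx) hn
  rwa [inv_inv] at this

theorem RankOne.nz (h : RankOne N G) {x : Γ} (hx : x ∈ G) : Nz N x := fun _ hs => h.conj' hx hs

theorem RankOne.normal (h : RankOne N G) : (N.subgroupOf G).Normal := by
  constructor
  intro n hn g
  rw [Subgroup.mem_subgroupOf] at hn ⊢
  exact h.conj g.2 hn

/-- The quotient map to the (multiplicative) quotient group, which is commutative. -/
theorem RankOne.exists_quot (h : RankOne N G) : ∃ (A : Type) (_ : CommGroup A) (π : G →* A),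
    Function.Surjective π ∧ (∀ x : G, π x = 1 ↔ (x : Γ) ∈ N) ∧
    (∀ (a : A) (n : ℕ), n ≠ 0 → a ^ n = 1 → a = 1) ∧
    (∀ a b : A, ∃ i j : ℤ, (i ≠ 0 ∨ j ≠ 0) ∧ a ^ i * b ^ j = 1) := by
  have hn := h.normal
  have hc : ∀ a b : G ⧸ N.subgroupOf G, a * b = b * a := by
    intro a b
    obtain ⟨x, rfl⟩ := QuotientGroup.mk_surjective a
    obtain ⟨y, rfl⟩ := QuotientGroup.mk_surjective b
    rw [← QuotientGroup.mk_mul, ← QuotientGroup.mk_mul, QuotientGroup.eq,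
      Subgroup.mem_subgroupOf]
    have h1 := h.comm y⁻¹ (G.inv_mem y.2) x⁻¹ (G.inv_mem x.2)
    have e : (((x * y)⁻¹ * (y * x) : G) : Γ) = ⁅(y : Γ)⁻¹, (x : Γ)⁻¹⁆ := by
      rw [commutatorElement_def]
      push_cast
      group
    rw [e]
    exact h1
  letI : CommGroup (G ⧸ N.subgroupOf G) :=
    { (inferInstance : Group (G ⧸ N.subgroupOf G)) with mul_comm := hc }
  have h1 : ∀ x : G, (QuotientGroup.mk' (N.subgroupOf G)) x = 1 ↔ (x : Γ) ∈ N := by
    intro x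
    rw [QuotientGroup.mk'_apply, QuotientGroup.eq_one_iff, Subgroup.mem_subgroupOf]
  refine ⟨G ⧸ N.subgroupOf G, inferInstance, QuotientGroup.mk' _,
    QuotientGroup.mk'_surjective _, h1, ?_, ?_⟩
  · intro a n hn0 han
    obtain ⟨x, rfl⟩ := QuotientGroup.mk'_surjective _ a
    rw [← map_pow, h1] at han
    rw [h1]
    exact h.tf x x.2 n hn0 (by simpa using han)
  · intro a b
    obtain ⟨x, rfl⟩ := QuotientGroup.mk'_surjective _ a
    obtain ⟨y, rfl⟩ := QuotientGroup.mk'_surjective _ b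
    obtain ⟨i, j, hij, hxy⟩ := h.one x x.2 y y.2
    refine ⟨i, j, hij, ?_⟩
    rw [← map_zpow, ← map_zpow, ← map_mul, h1]
    simpa using hxy

section comm

variable {A : Type} [CommGroup A]

/-- torsion-free, integer exponents -/
theorem tf_zpow (htf : ∀ (a : A) (n : ℕ), n ≠ 0 → a ^ n = 1 → a = 1) {a : A} {i : ℤ}
    (hi : i ≠ 0) (h : a ^ i = 1) : a = 1 := by
  refine htf a i.natAbs (Int.natAbs_ne_zero.2 hi) ?_
  rcases Int.natAbs_eq i with e | e
  · rw [e, zpow_natCast] at h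
    exact h
  · rw [e, zpow_neg, inv_eq_one, zpow_natCast] at h
    exact h

/-- Two elements of a torsion-free group of rank one are powers of one element. -/
theorem exists_common (htf : ∀ (a : A) (n : ℕ), n ≠ 0 → a ^ n = 1 → a = 1)
    (hr : ∀ a b : A, ∃ i j : ℤ, (i ≠ 0 ∨ j ≠ 0) ∧ a ^ i * b ^ j = 1) (a b : A) :
    ∃ (c : A) (i j : ℤ), a = c ^ i ∧ b = c ^ j := by
  obtain ⟨i, j, hij, h⟩ := hr a b
  have hg : Int.gcd i j ≠ 0 := by
    intro h0
    rw [Int.gcd_eq_zero_iff] at h0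
    rcases hij with h1 | h1
    · exact h1 h0.1
    · exact h1 h0.2
  obtain ⟨i', hi'⟩ : (Int.gcd i j : ℤ) ∣ i := Int.gcd_dvd_left ..
  obtain ⟨j', hj'⟩ : (Int.gcd i j : ℤ) ∣ j := Int.gcd_dvd_right ..
  set g : ℤ := (Int.gcd i j : ℤ) with hgdef
  have hg' : g ≠ 0 := by
    rw [hgdef]
    exact_mod_cast hg
  have h1 : a ^ i' * b ^ j' = 1 := by
    refine tf_zpow htf hg' ?_
    rw [mul_zpow, ← zpow_mul, ← zpow_mul, mul_comm i' g, mul_comm j' g, ← hi', ← hj']
    exact h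
  -- Bezout
  have hb : g = i * Int.gcdA i j + j * Int.gcdB i j := Int.gcd_eq_gcd_ab i j
  set u := Int.gcdA i j
  set v := Int.gcdB i j
  have hb' : i' * u + j' * v = 1 := by
    have h2 : g * (i' * u + j' * v) = g * 1 := by
      calc g * (i' * u + j' * v) = (g * i') * u + (g * j') * v := by ring
        _ = i * u + j * v := by rw [← hi', ← hj']
        _ = g * 1 := by rw [mul_one]; exact hb.symm
    exact mul_left_cancel₀ hg' h2
  have h2 : b ^ j' = a ^ (-i') := by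
    rw [zpow_neg]
    exact eq_inv_of_mul_eq_one_right h1
  have h3 : a ^ i' = b ^ (-j') := by
    rw [zpow_neg, h2, zpow_neg, inv_inv]
  refine ⟨a ^ v * b ^ (-u), j', -i', ?_, ?_⟩
  · calc a = a ^ (i' * u + j' * v) := by rw [hb', zpow_one]
      _ = (a ^ i') ^ u * a ^ (v * j') := by rw [zpow_add, zpow_mul, mul_comm j' v]
      _ = (b ^ (-j')) ^ u * a ^ (v * j') := by rw [h3]
      _ = (a ^ v * b ^ (-u)) ^ j' := by
        rw [mul_zpow, ← zpow_mul, ← zpow_mul, ← zpow_mul, mul_comm (b ^ _)]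
        congr 2
        ring
  · calc b = b ^ (i' * u + j' * v) := by rw [hb', zpow_one]
      _ = b ^ (u * i') * (b ^ j') ^ v := by rw [zpow_add, zpow_mul b j' v, mul_comm i' u]
      _ = b ^ (u * i') * (a ^ (-i')) ^ v := by rw [h2]
      _ = (a ^ v * b ^ (-u)) ^ (-i') := by
        rw [mul_zpow, ← zpow_mul, ← zpow_mul, ← zpow_mul, mul_comm (b ^ _)]
        congr 2
        · ring
        · ring

end comm

/-- Two elements of `G` are, modulo `N`, powers of one element. -/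
theorem RankOne.exists_gen (h : RankOne N G) {x y : Γ} (hx : x ∈ G) (hy : y ∈ G) :
    ∃ c ∈ G, ∃ i j : ℤ, x * (c ^ i)⁻¹ ∈ N ∧ y * (c ^ j)⁻¹ ∈ N := by
  obtain ⟨A, _, π, hs, hk, htf, hr⟩ := h.exists_quot
  obtain ⟨c, i, j, hi, hj⟩ := exists_common htf hr (π ⟨x, hx⟩) (π ⟨y, hy⟩)
  obtain ⟨c, rfl⟩ := hs c
  refine ⟨c, c.2, i, j, ?_, ?_⟩
  · have h1 : π (⟨x, hx⟩ * (c ^ i)⁻¹) = 1 := by
      rw [map_mul, map_inv, map_zpow, hi, mul_inv_cancel]
    have h2 := (hk _).1 h1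
    simpa using h2
  · have h1 : π (⟨y, hy⟩ * (c ^ j)⁻¹) = 1 := by
      rw [map_mul, map_inv, map_zpow, hj, mul_inv_cancel]
    have h2 := (hk _).1 h1
    simpa using h2

/-- the subgroup generated by `N` and `a` -/
abbrev Pa (N : Subgroup Γ) (a : Γ) : Subgroup Γ := N ⊔ Subgroup.zpowers a

theorem mem_Pa_self (N : Subgroup Γ) (a : Γ) : a ∈ Pa N a :=
  (le_sup_right : Subgroup.zpowers a ≤ _) (Subgroup.mem_zpowers a)

theorem le_Pa (N : Subgroup Γ) (a : Γ) : N ≤ Pa N a := le_sup_left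

theorem Pa_le {a : Γ} (h : N ≤ G) (ha : a ∈ G) : Pa N a ≤ G :=
  sup_le h (Subgroup.zpowers_le.2 ha)

theorem Pa_le_Pa {a c : Γ} {i : ℤ} (h : a * (c ^ i)⁻¹ ∈ N) : Pa N a ≤ Pa N c := by
  refine sup_le (le_Pa N c) (Subgroup.zpowers_le.2 ?_)
  have e : a = (a * (c ^ i)⁻¹) * c ^ i := by group
  rw [e]
  exact Subgroup.mul_mem _ (le_Pa N c h) (Subgroup.zpow_mem _ (mem_Pa_self N c) i)

theorem RankOne.directed (h : RankOne N G) {a b : Γ} (ha : a ∈ G) (hb : b ∈ G) :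
    ∃ c ∈ G, Pa N a ≤ Pa N c ∧ Pa N b ≤ Pa N c := by
  obtain ⟨c, hc, i, j, h1, h2⟩ := h.exists_gen ha hb
  exact ⟨c, hc, Pa_le_Pa h1, Pa_le_Pa h2⟩

end Vale.Agent.P260.LM
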