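import Vale.Agent.P260.LM.Spec5

/-!
P260, last mile: statements of the leaves of block S (structure of solvable groups, Mal'cev).
-/

namespace Vale.Agent.P260.LM

open scoped commutatorElement

variable {Γ : Type} [Group Γ]

/-- `Q / P` is torsion-free abelian of finite rank. -/
structure FR (P Q : Subgroup Γ) : Prop where
  le : P ≤ Q
  comm : ∀ x ∈ Q, ∀ y ∈ Q, ⁅x, y⁆ ∈ P
  tf : ∀ x ∈ Q, ∀ n : ℕ, n ≠ 0 → x ^ n ∈ P → x ∈ P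
  rk : ∃ r : ℕ, ∀ x : Fin r → Γ, (∀ i, x i ∈ Q) →
    ∃ c : Fin r → ℤ, c ≠ 0 ∧ (List.ofFn fun i => x i ^ c i).prod ∈ P

/-- `K` normalises `P` -/
def Nrm (K P : Subgroup Γ) : Prop := ∀ x ∈ K, ∀ y ∈ P, x * y * x⁻¹ ∈ P

/-- Leaf S1, Lie–Kolchin–Mal'cev. -/
def BlockS1 : Prop :=
  ∀ (V : Type) [AddCommGroup V] [Module ℂ V] [FiniteDimensional ℂ V] (Γ : Type) [Group Γ]
    (ρ : Γ →* Module.End ℂ V), Group.IsSolvable Γ →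
    ∃ Γ1 : Subgroup Γ, Γ1.FiniteIndex ∧ ∃ (F : ℕ → Submodule ℂ V) (m : ℕ), F 0 = ⊥ ∧ F m = ⊤ ∧
      Monotone F ∧ ∀ g ∈ Γ1, ∀ i, ∃ c : ℂ, ∀ x ∈ F (i + 1), ρ g x - c • x ∈ F i

/-- Leaf S2. -/
def BlockS2 : Prop :=
  ∀ (Γ : Type) [Group Γ], TF Γ → (∃ m, RankB Γ m) → ∀ H : Subgroup Γ, Group.IsSolvable H →
    ∃ A B C : Subgroup Γ, B ≤ H ∧ C ≤ H ∧ Nrm H A ∧ Nrm H B ∧ Nrm H C ∧
      FR ⊥ A ∧ FR A B ∧ FR A C ∧ (∀ c ∈ C, ∀ a ∈ A, ⁅c, a⁆ = 1) ∧ (∀ c ∈ C, ∀ b ∈ B, ⁅c, b⁆ ∈ A) ∧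
      ∀ g ∈ H, (∀ a ∈ A, ⁅g, a⁆ = 1) → (∀ b ∈ B, ⁅g, b⁆ ∈ A) → g ∈ C

/-- Leaf S3a: a criterion for `FR`. -/
def BlockS3a : Prop :=
  ∀ (Γ : Type) [Group Γ] (P Q : Subgroup Γ) (k : ℕ) (f : Fin k → Γ → Γ)
    (P' Q' : Fin k → Subgroup Γ), P ≤ Q → (∀ j, FR (P' j) (Q' j)) → (∀ j, ∀ x ∈ Q, f j x ∈ Q' j) →
    (∀ j, ∀ x ∈ Q, ∀ y ∈ Q, ∃ p ∈ P' j, f j (x * y) = f j x * f j y * p) →
    (∀ x ∈ Q, x ∈ P ↔ ∀ j, f j x ∈ P' j) → FR P Q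

/-- Leaf S3b: extensions. -/
def BlockS3b : Prop :=
  ∀ (Γ : Type) [Group Γ] (P Q R : Subgroup Γ), FR P Q → FR Q R →
    (∀ x ∈ R, ∀ y ∈ R, ⁅x, y⁆ ∈ P) → FR P R

/-- Leaf S3c: sections. -/
def BlockS3c : Prop :=
  ∀ (Γ : Type) [Group Γ] (P Q P' Q' : Subgroup Γ), FR P Q → P ≤ P' → P' ≤ Q' → Q' ≤ Q →
    (∀ x ∈ Q', ∀ n : ℕ, n ≠ 0 → x ^ n ∈ P' → x ∈ P') → FR P' Q'

/-- Leaf S3d: refinement to rank one steps. -/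
def BlockS3d : Prop :=
  ∀ (Γ : Type) [Group Γ] (P Q : Subgroup Γ), FR P Q →
    ∃ (k : ℕ) (N : ℕ → Subgroup Γ), N 0 = P ∧ N k = Q ∧ ∀ i < k, RankOne (N i) (N (i + 1))

/-- Leaf S3e: a finite set of representatives up to torsion. -/
def BlockS3e : Prop :=
  ∀ (Γ : Type) [Group Γ] (P Q : Subgroup Γ), FR P Q →
    ∃ (r : ℕ) (e : Fin r → Γ), (∀ i, e i ∈ Q) ∧ ∀ x ∈ Q, ∃ n : ℕ, n ≠ 0 ∧
      ∃ y ∈ Subgroup.closure (Set.range e), ∃ p ∈ P, x ^ n = y * p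

/-- A filtration of `Q / P`, normalised by `K`, with torsion-free factors. -/
structure Filt (K P Q : Subgroup Γ) (F : ℕ → Subgroup Γ) (m : ℕ) : Prop where
  zero : F 0 = Q
  last : ∀ i ≥ m, F i = P
  fr : ∀ i, FR (F (i + 1)) (F i)
  nrm : ∀ i, Nrm K (F i)

/-- Leaf S4: from a solvable action on `Q / P`. -/
def BlockS4 : Prop :=
  ∀ (Γ : Type) [Group Γ] (H P Q : Subgroup Γ), Group.IsSolvable H → Nrm H P → Nrm H Q → FR P Q →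
    ∃ K ≤ H, K.relIndex H ≠ 0 ∧ ∃ (m : ℕ) (F : ℕ → Subgroup Γ), Filt K P Q F m ∧
      ∀ i, ∀ x ∈ K, ∀ y ∈ K, ∀ z ∈ F i, ⁅⁅x, y⁆, z⁆ ∈ F (i + 1)

/-- Leaf S5a: the stability filtration. `W j` is the set of the elements of `U` which move `A i`
into `A (i + j)` and `B i` into `B (i + j)`. -/
def BlockS5a : Prop :=
  ∀ (Γ : Type) [Group Γ] (K U A B : Subgroup Γ) (FA FB : ℕ → Subgroup Γ) (a b : ℕ),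
    Filt K ⊥ A FA a → Filt K A B FB b → U ≤ K → Nrm K U →
    (∀ u ∈ U, ∀ i, ∀ x ∈ FA i, ⁅u, x⁆ ∈ FA (i + 1)) →
    (∀ u ∈ U, ∀ i, ∀ x ∈ FB i, ⁅u, x⁆ ∈ FB (i + 1)) →
    ∃ (m : ℕ) (W : ℕ → Subgroup Γ), W 0 = U ∧ (∀ i, FR (W (i + 1)) (W i)) ∧ (∀ i, Nrm K (W i)) ∧
      (∀ i, ∀ u ∈ U, ∀ x ∈ W i, ⁅u, x⁆ ∈ W (i + 1)) ∧
      ∀ i ≥ m, ∀ u, u ∈ W i ↔ u ∈ U ∧ (∀ x ∈ A, ⁅u, x⁆ = 1) ∧ ∀ x ∈ B, ⁅u, x⁆ ∈ A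

/-- A normal series of `K` with torsion-free abelian factors of finite rank, central in `M u` up to
`M u`, with `K / M u` abelian. -/
structure NSer (K : Subgroup Γ) (M : ℕ → Subgroup Γ) (t u : ℕ) : Prop where
  le : u ≤ t
  bot : M 0 = ⊥
  top : M t = K
  fr : ∀ i < t, FR (M i) (M (i + 1))
  nrm : ∀ i ≤ t, Nrm K (M i)
  cent : ∀ i < u, ∀ x ∈ M u, ∀ y ∈ M (i + 1), ⁅x, y⁆ ∈ M i
  ab : ∀ x ∈ K, ∀ y ∈ K, ⁅x, y⁆ ∈ M u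

/-- Leaf S5, from S2, S4, S5a (and S3c). -/
def BlockS5 : Prop :=
  ∀ (Γ : Type) [Group Γ], Group.FG Γ → TF Γ → (∃ m, RankB Γ m) →
    (∃ H : Subgroup Γ, H.FiniteIndex ∧ Group.IsSolvable H) →
    ∃ (K : Subgroup Γ) (M : ℕ → Subgroup Γ) (t u : ℕ), K.FiniteIndex ∧ NSer K M t u

/-- Leaf S6, from S3d. -/
def BlockS6 : Prop :=
  ∀ (Γ : Type) [Group Γ] (K : Subgroup Γ) (M : ℕ → Subgroup Γ) (t u : ℕ), NSer K M t u →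
    ∃ (N : ℕ → Subgroup Γ) (h : ℕ) (s : ℕ → ℕ), Ser K N h s t ∧ NilAb K N s t u

theorem blockS_of (h5 : BlockS5) (h6 : BlockS6) : BlockS := by
  intro Γ _ hfg htf hr hs
  obtain ⟨K, M, t, u, hK, hM⟩ := h5 Γ hfg htf hr hs
  obtain ⟨N, h, s, h1, h2⟩ := h6 Γ K M t u hM
  exact ⟨K, N, h, s, t, u, hK, h1, h2⟩

end Vale.Agent.P260.LM
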