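import Vale.Agent.P188.H754.Malcev1
import Vale.Agent.P260.LM.Spec6

/-!
Lie-Kolchin-Malcev for solvable groups, no finite generation: a solvable group acting on a
finite dimensional complex vector space has a finite index subgroup preserving a full flag, acting
by scalars on the successive quotients.
-/

universe u v

namespace Vale.Agent.P260.LM

open Module
open scoped commutatorElement
open Vale.Agent.P188.H754

section rep

variable {Γ : Type u} [Group Γ] {V : Type v} [AddCommGroup V] [Module ℂ V]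
  (ρ : Γ →* Module.End ℂ V) [FiniteDimensional ℂ V]

/-- conjugation by `ρ g` on `End V` -/
noncomputable def cjE (g : Γ) : Module.End ℂ (Module.End ℂ V) :=
  (LinearMap.mulLeft ℂ (ρ g)) * (LinearMap.mulRight ℂ (ρ g⁻¹))

omit [FiniteDimensional ℂ V] in
theorem cjE_apply (g : Γ) (X : Module.End ℂ V) : cjE ρ g X = ρ g * (X * ρ g⁻¹) := rfl

/-- Lemma B, without finite generation. -/
theorem scal_of_commutator' [Nontrivial V] (hirr : StrongIrr ρ) (C : Subgroup Γ) [C.Normal]
    (hC : ∀ a ∈ C, ∀ b ∈ C, Scal ρ ⁅a, b⁆) : ∀ a ∈ C, Scal ρ a := by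
  classical
  set d := finrank ℂ V with hd
  have hdpos : 0 < d := finrank_pos
  -- the commutation scalar
  have hlam : ∀ a ∈ C, ∀ b ∈ C, ∃ l : ℂ, ρ a * ρ b = l • (ρ b * ρ a) := by
    intro a ha b hb
    obtain ⟨l, hl⟩ := hC a ha b hb
    refine ⟨l, ?_⟩
    have h2 : a * b = ⁅a, b⁆ * (b * a) := by rw [commutatorElement_def]; group
    rw [← map_mul, h2, map_mul, hl, smul_mul_assoc, one_mul, map_mul]
  let D : Subgroup Γ :=
    { carrier := {c | c ∈ C ∧ ∀ b ∈ C, ρ c * ρ b = ρ b * ρ c}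
      one_mem' := ⟨C.one_mem, by simp⟩
      mul_mem' := by
        rintro a b ⟨ha, ha'⟩ ⟨hb, hb'⟩
        refine ⟨C.mul_mem ha hb, fun c hc => ?_⟩
        rw [map_mul, mul_assoc, hb' c hc, ← mul_assoc, ha' c hc, mul_assoc]
      inv_mem' := by
        rintro a ⟨ha, ha'⟩
        refine ⟨C.inv_mem ha, fun c hc => ?_⟩
        calc ρ a⁻¹ * ρ c = ρ a⁻¹ * ρ c * (ρ a * ρ a⁻¹) := by rw [ρ_mul_inv, mul_one]
          _ = ρ a⁻¹ * (ρ c * ρ a) * ρ a⁻¹ := by simp only [mul_assoc]
          _ = ρ a⁻¹ * (ρ a * ρ c) * ρ a⁻¹ := by rw [ha' c hc]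
          _ = (ρ a⁻¹ * ρ a) * ρ c * ρ a⁻¹ := by simp only [mul_assoc]
          _ = ρ c * ρ a⁻¹ := by rw [ρ_inv_mul, one_mul] }
  have hDn : D.Normal := by
    constructor
    rintro a ⟨ha, ha'⟩ g
    refine ⟨Subgroup.Normal.conj_mem inferInstance a ha g, fun b hb => ?_⟩
    have hb1 : g⁻¹ * b * g ∈ C := by
      have := Subgroup.Normal.conj_mem (inferInstance : C.Normal) b hb g⁻¹
      simpa using this
    have h1 := ha' _ hb1
    rw [← map_mul, ← map_mul] at h1 ⊢
    have h2 : g * a * g⁻¹ * b = g * (a * (g⁻¹ * b * g)) * g⁻¹ := by group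
    have h3 : b * (g * a * g⁻¹) = g * ((g⁻¹ * b * g) * a) * g⁻¹ := by group
    rw [h2, h3, map_mul, map_mul, h1, ← map_mul, ← map_mul]
  have hDscal : ∀ a ∈ D, Scal ρ a := scal_of_comm ρ hirr D (fun a ha b hb => ha.2 b hb.1)
  -- the quotient is finite: conjugation by `C` on `End V`
  have hnorm : (D.subgroupOf C).Normal := inferInstance
  have hfin : Finite (C ⧸ D.subgroupOf C) := by
    let f : C → Module.End ℂ (Module.End ℂ V) := fun b => cjE ρ b
    have hmulf : ∀ a b : C, f a * f b = cjE ρ ((a : Γ) * b) := by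
      intro a b
      ext1 X
      change ρ a * ((ρ b * (X * ρ (b : Γ)⁻¹)) * ρ (a : Γ)⁻¹) = ρ ((a : Γ) * b) * (X * ρ ((a : Γ) * b)⁻¹)
      rw [mul_inv_rev, map_mul, map_mul]
      simp only [mul_assoc]
    have hf : ∀ i j, Commute (f i) (f j) := by
      intro a b
      change f a * f b = f b * f a
      rw [hmulf, hmulf]
      obtain ⟨l, hl⟩ := hlam a a.2 b b.2
      have hl0 : l ≠ 0 := by
        intro h0
        rw [h0, zero_smul, ← map_mul] at hl
        have := det_ne_zero ρ ((a : Γ) * b)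
        rw [hl, LinearMap.det_zero'' ] at this
        · exact this rfl
      have hl2 : ρ ((a : Γ) * b) = l • ρ ((b : Γ) * a) := by rw [map_mul, map_mul, hl]
      have hl3 : ρ ((a : Γ) * b)⁻¹ = l⁻¹ • ρ ((b : Γ) * a)⁻¹ := by
        calc ρ ((a : Γ) * b)⁻¹ = ρ ((a : Γ) * b)⁻¹ * (ρ ((b : Γ) * a) * ρ ((b : Γ) * a)⁻¹) := by
              rw [ρ_mul_inv, mul_one]
          _ = (ρ ((a : Γ) * b)⁻¹ * (l⁻¹ • ρ ((a : Γ) * b))) * ρ ((b : Γ) * a)⁻¹ := by
              rw [hl2, smul_smul, inv_mul_cancel₀ hl0, one_smul, mul_assoc]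
          _ = l⁻¹ • ρ ((b : Γ) * a)⁻¹ := by
              rw [mul_smul_comm, ρ_inv_mul, smul_mul_assoc, one_mul]
      ext1 X
      change ρ ((a : Γ) * b) * (X * ρ ((a : Γ) * b)⁻¹) = ρ ((b : Γ) * a) * (X * ρ ((b : Γ) * a)⁻¹)
      rw [hl2, hl3, mul_smul_comm, smul_mul_smul_comm, mul_inv_cancel₀ hl0, one_smul]
    have hind : iSupIndep fun χ : C → ℂ ↦ ⨅ i, (f i).maxGenEigenspace (χ i) :=
      Module.End.independent_iInf_maxGenEigenspace_of_forall_mapsTo f
        (fun i j φ => Module.End.mapsTo_maxGenEigenspace_of_comm (hf j i) φ)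
    let E : (C → ℂ) → Submodule ℂ (Module.End ℂ V) := fun χ => ⨅ i, (f i).eigenspace (χ i)
    have hEle : ∀ χ, E χ ≤ ⨅ i, (f i).maxGenEigenspace (χ i) := fun χ =>
      iInf_mono fun i => Module.End.eigenspace_le_maxGenEigenspace
    have hEind : iSupIndep E := hind.mono hEle
    have hEfin : {χ : C → ℂ | E χ ≠ ⊥}.Finite := WellFoundedGT.finite_ne_bot_of_iSupIndep hEind
    have hmemE : ∀ χ x, x ∈ E χ ↔ ∀ i, f i x = χ i • x := by
      intro χ x
      simp [E, Submodule.mem_iInf, Module.End.mem_eigenspace_iff]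
    -- the character of `a`
    have hchar : ∀ a : C, ∀ b : C, ∃ l : ℂ, f b (ρ a) = l • ρ (a : Γ) := by
      intro a b
      obtain ⟨l, hl⟩ := hlam b b.2 a a.2
      refine ⟨l, ?_⟩
      change ρ (b : Γ) * (ρ (a : Γ) * ρ (b : Γ)⁻¹) = _
      rw [← mul_assoc, hl, smul_mul_assoc, mul_assoc, ρ_mul_inv, mul_one]
    choose χ hχ using hchar
    have hne : ∀ a : C, ρ (a : Γ) ≠ 0 := by
      intro a h0
      have := ρ_mul_inv ρ (a : Γ)
      rw [h0, zero_mul] at this
      exact zero_ne_one this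
    have hrange : (Set.range χ).Finite := by
      refine hEfin.subset ?_
      rintro _ ⟨a, rfl⟩ hbot
      have h1 : ρ (a : Γ) ∈ E (χ a) := (hmemE _ _).2 (hχ a)
      rw [hbot, Submodule.mem_bot] at h1
      exact hne a h1
    have hFI : (D.subgroupOf C).FiniteIndex := by
      refine finiteIndex_of_finite_range (D.subgroupOf C) χ hrange ?_
      intro a b hab
      rw [Subgroup.mem_subgroupOf]
      refine ⟨SetLike.coe_mem _, fun c hc => ?_⟩
      have h1 := hχ a ⟨c, hc⟩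
      have h2 := hχ b ⟨c, hc⟩
      rw [hab] at h1
      change ρ c * (ρ (a : Γ) * ρ c⁻¹) = _ at h1
      change ρ c * (ρ (b : Γ) * ρ c⁻¹) = _ at h2
      have h1' : ρ c * ρ (a : Γ) = χ b ⟨c, hc⟩ • (ρ (a : Γ) * ρ c) := by
        calc ρ c * ρ (a : Γ) = ρ c * (ρ (a : Γ) * ρ c⁻¹) * ρ c := by
              simp only [mul_assoc]; rw [ρ_inv_mul, mul_one]
          _ = _ := by rw [h1, smul_mul_assoc]
      have h2' : ρ c * ρ (b : Γ) = χ b ⟨c, hc⟩ • (ρ (b : Γ) * ρ c) := by
        calc ρ c * ρ (b : Γ) = ρ c * (ρ (b : Γ) * ρ c⁻¹) * ρ c := by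
              simp only [mul_assoc]; rw [ρ_inv_mul, mul_one]
          _ = _ := by rw [h2, smul_mul_assoc]
      have hl0 : χ b ⟨c, hc⟩ ≠ 0 := by
        intro h0
        rw [h0, zero_smul, ← map_mul] at h2'
        have h3 := ρ_mul_inv ρ (c * (b : Γ))
        rw [h2', zero_mul] at h3
        exact zero_ne_one h3
      push_cast
      -- `ρ (a⁻¹ b)` commutes with `ρ c`
      have h4 : ρ (a : Γ)⁻¹ * ρ c = χ b ⟨c, hc⟩ • (ρ c * ρ (a : Γ)⁻¹) := by
        calc ρ (a : Γ)⁻¹ * ρ c = ρ (a : Γ)⁻¹ * (ρ c * ρ (a : Γ)) * ρ (a : Γ)⁻¹ := by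
              simp only [mul_assoc]; rw [ρ_mul_inv, mul_one]
          _ = _ := by
              rw [h1', mul_smul_comm, smul_mul_assoc, ← mul_assoc, ρ_inv_mul, one_mul]
      rw [map_mul]
      calc ρ (a : Γ)⁻¹ * ρ (b : Γ) * ρ c = ρ (a : Γ)⁻¹ * (ρ (b : Γ) * ρ c) := mul_assoc _ _ _
        _ = ρ (a : Γ)⁻¹ * ((χ b ⟨c, hc⟩)⁻¹ • (ρ c * ρ (b : Γ))) := by
            rw [h2', smul_smul, inv_mul_cancel₀ hl0, one_smul]
        _ = (χ b ⟨c, hc⟩)⁻¹ • (ρ (a : Γ)⁻¹ * ρ c * ρ (b : Γ)) := by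
            rw [mul_smul_comm, mul_assoc]
        _ = ρ c * (ρ (a : Γ)⁻¹ * ρ (b : Γ)) := by
            rw [h4, smul_mul_assoc, smul_smul, inv_mul_cancel₀ hl0, one_smul, mul_assoc]
    exact Subgroup.finite_quotient_of_finiteIndex
  intro c hc
  refine scal_of_finite_orbit ρ hirr c ?_
  have hsub : (Set.range fun g => ρ (g * c * g⁻¹)) ⊆
      ⋃ q : C ⧸ D.subgroupOf C, (fun z : ℂ => z • ρ (q.out : Γ)) ''
        {z : ℂ | z ^ d = LinearMap.det (ρ c) / LinearMap.det (ρ (q.out : Γ))} := by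
    rintro _ ⟨g, rfl⟩
    have hx : g * c * g⁻¹ ∈ C := Subgroup.Normal.conj_mem inferInstance c hc g
    refine Set.mem_iUnion.2 ⟨((⟨g * c * g⁻¹, hx⟩ : C) : C ⧸ D.subgroupOf C), ?_⟩
    set q : C ⧸ D.subgroupOf C := ((⟨g * c * g⁻¹, hx⟩ : C) : C ⧸ D.subgroupOf C) with hq
    have h1 : ((q.out : C) : C ⧸ D.subgroupOf C) = ((⟨g * c * g⁻¹, hx⟩ : C) : C ⧸ _) := by
      rw [← hq]; simp
    rw [QuotientGroup.eq, Subgroup.mem_subgroupOf] at h1
    obtain ⟨z, hz⟩ := hDscal _ h1
    have h2 : ρ (g * c * g⁻¹) = z • ρ (q.out : Γ) := by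
      have h3 : g * c * g⁻¹ = (q.out : Γ) * ((((q.out : C))⁻¹ * ⟨g * c * g⁻¹, hx⟩ : C) : Γ) := by
        push_cast; group
      rw [h3, map_mul, hz, mul_smul_comm, mul_one]
    refine ⟨z, ?_, h2.symm⟩
    have h4 := congrArg LinearMap.det h2
    rw [det_comm, LinearMap.det_smul] at h4
    change z ^ d = _
    rw [h4, mul_div_assoc, div_self (det_ne_zero ρ _), mul_one]
  refine Set.Finite.subset (Set.finite_iUnion fun q => ?_) hsub
  exact (finite_roots hdpos _).image _

/-- A strongly irreducible representation of a solvable group is by scalars. -/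
theorem scal_of_strongIrr' [Nontrivial V] (hirr : StrongIrr ρ) (hs : Group.IsSolvable Γ) :
    ∀ a, Scal ρ a := by
  obtain ⟨n, hn⟩ := hs.solvable
  have key : ∀ i, i ≤ n → ∀ a ∈ derivedSeries Γ (n - i), Scal ρ a := by
    intro i
    induction i with
    | zero =>
      intro _ a ha
      rw [Nat.sub_zero, hn, Subgroup.mem_bot] at ha
      subst ha
      exact ⟨1, by simp⟩
    | succ i ih =>
      intro hi
      refine scal_of_commutator' ρ hirr _ ?_
      intro a ha b hb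
      refine ih (by omega) _ ?_
      have : n - i = (n - (i + 1)) + 1 := by omega
      rw [this, derivedSeries_succ]
      exact Subgroup.commutator_mem_commutator ha hb
  intro a
  refine key n le_rfl a ?_
  rw [Nat.sub_self, derivedSeries_zero]; trivial

end rep

/-- **Lie-Kolchin-Malcev**, all solvable groups. -/
theorem exists_flag {V : Type v} [AddCommGroup V] [Module ℂ V] [FiniteDimensional ℂ V]
    {Γ : Type u} [Group Γ] (ρ : Γ →* Module.End ℂ V) (hs : Group.IsSolvable Γ) : HasFlag ρ := by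
  classical
  generalize hn : finrank ℂ V = n
  induction n using Nat.strong_induction_on generalizing V Γ with
  | _ n ih =>
  rcases subsingleton_or_nontrivial V with hV | hV
  · refine ⟨⊤, inferInstance, fun _ => ⊤, 0, Subsingleton.elim _ _, rfl, fun _ _ _ => le_rfl, ?_⟩
    intro g _ i
    exact ⟨0, fun x _ => trivial⟩
  by_cases hirr : StrongIrr ρ
  · have hsc := scal_of_strongIrr' ρ hirr hs
    refine ⟨⊤, inferInstance, fun i => if i = 0 then ⊥ else ⊤, 1, by simp, by simp, ?_, ?_⟩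
    · apply monotone_nat_of_le_succ
      intro i
      simp
    · intro g _ i
      obtain ⟨c, hc⟩ := hsc g
      refine ⟨c, fun x _ => ?_⟩
      rw [hc]; simp
  · unfold StrongIrr at hirr
    push Not at hirr
    obtain ⟨H, hH, W, hW, hW0, hW1⟩ := hirr
    have hsol : Group.IsSolvable H := inferInstance
    have hlt1 : finrank ℂ W < n := hn ▸ Submodule.finrank_lt hW1
    have hlt2 : finrank ℂ (V ⧸ W) < n := by
      have h1 := Submodule.finrank_quotient_add_finrank W
      have h2 : 0 < finrank ℂ W := by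
        have : Nontrivial W := Submodule.nontrivial_iff_ne_bot.2 hW0
        exact finrank_pos
      omega
    exact hasFlag_combine ρ H hH W hW (ih _ hlt1 (resRep ρ H W hW) hsol rfl)
      (ih _ hlt2 (quoRep ρ H W hW) hsol rfl)

theorem blockS1 : BlockS1 := by
  intro V _ _ _ Γ _ ρ hs
  exact exists_flag ρ hs

end Vale.Agent.P260.LM
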