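import Vale.Agent.P260.LM.Spec6

/-!
P260, last mile, leaf S2: the structure of solvable groups, Mal'cev.
-/

namespace Vale.Agent.P260.LM.S2x

open scoped commutatorElement

variable {Γ : Type} [Group Γ]

/-! ### maximal subgroups -/

lemma exists_max (H U Z L : Subgroup Γ) (hL : L ≤ U) (hn : Nrm H L)
    (hc : ∀ x ∈ L, ∀ y ∈ L, ⁅x, y⁆ ∈ Z) :
    ∃ A : Subgroup Γ, L ≤ A ∧ A ≤ U ∧ Nrm H A ∧ (∀ x ∈ A, ∀ y ∈ A, ⁅x, y⁆ ∈ Z) ∧
      ∀ A' : Subgroup Γ, A ≤ A' → A' ≤ U → Nrm H A' → (∀ x ∈ A', ∀ y ∈ A', ⁅x, y⁆ ∈ Z) →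
        A' ≤ A := by
  obtain ⟨A, hLA, hA⟩ := zorn_le_nonempty₀
    {A : Subgroup Γ | A ≤ U ∧ Nrm H A ∧ ∀ x ∈ A, ∀ y ∈ A, ⁅x, y⁆ ∈ Z} (by
      intro c hc1 hch y hy
      have hdir : DirectedOn (· ≤ ·) c := hch.directedOn
      have hmem : ∀ x, x ∈ sSup c ↔ ∃ S ∈ c, x ∈ S := fun x =>
        Subgroup.mem_sSup_of_directedOn ⟨y, hy⟩ hdir
      refine ⟨sSup c, ⟨?_, ?_, ?_⟩, fun z hz => le_sSup hz⟩
      · exact sSup_le fun S hS => (hc1 hS).1
      · intro x hx z hz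
        obtain ⟨S, hS, hzS⟩ := (hmem z).1 hz
        exact (hmem _).2 ⟨S, hS, (hc1 hS).2.1 x hx z hzS⟩
      · intro x hx z hz
        obtain ⟨S, hS, hxS⟩ := (hmem x).1 hx
        obtain ⟨T, hT, hzT⟩ := (hmem z).1 hz
        obtain ⟨R, hR, h1, h2⟩ := hdir S hS T hT
        exact (hc1 hR).2.2 x (h1 hxS) z (h2 hzT)) L ⟨hL, hn, hc⟩
  refine ⟨A, hLA, hA.1.1, hA.1.2.1, hA.1.2.2, fun A' h1 h2 h3 h4 => ?_⟩
  exact hA.2 (y := A') ⟨h2, h3, h4⟩ h1

/-! ### commutators -/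

lemma one_iff {x y : Γ} : ⁅x, y⁆ = 1 ↔ x * y = y * x := commutatorElement_eq_one_iff_mul_comm

lemma comm_mul_left' (x y b : Γ) : ⁅x * y, b⁆ = x * ⁅y, b⁆ * x⁻¹ * ⁅x, b⁆ := by
  simp only [commutatorElement_def]; group

/-- `x b x⁻¹ = ⁅x, b⁆ b` with `⁅x, b⁆` commuting with `x`: powers on the left -/
lemma comm_pow_left {x b : Γ} (h : x * ⁅x, b⁆ = ⁅x, b⁆ * x) (n : ℕ) : ⁅x ^ n, b⁆ = ⁅x, b⁆ ^ n := by
  induction n with
  | zero => simp
  | succ n ih =>
    rw [pow_succ, comm_mul_left', ]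
    have h1 : x ^ n * ⁅x, b⁆ * (x ^ n)⁻¹ = ⁅x, b⁆ := by
      have : Commute (x ^ n) ⁅x, b⁆ := Commute.pow_left h n
      rw [this.eq, mul_assoc, mul_inv_cancel, mul_one]
    rw [h1, ih, ← pow_succ']

/-- powers on the right -/
lemma comm_pow_right {x b : Γ} (h : b * ⁅x, b⁆ = ⁅x, b⁆ * b) (n : ℕ) : ⁅x, b ^ n⁆ = ⁅x, b⁆ ^ n := by
  have h1 : ⁅b, x⁆ = ⁅x, b⁆⁻¹ := (commutatorElement_inv x b).symm
  have h2 : b * ⁅b, x⁆ = ⁅b, x⁆ * b := by
    rw [h1]
    have : Commute b ⁅x, b⁆ := h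
    exact (this.inv_right).eq
  have h3 := comm_pow_left h2 n
  have h4 : ⁅x, b ^ n⁆ = ⁅b ^ n, x⁆⁻¹ := (commutatorElement_inv (b ^ n) x).symm
  rw [h4, h3, h1, inv_pow, inv_inv]

/-- the set of the elements commuting with `g` -/
def Cg (g : Γ) : Subgroup Γ := Subgroup.centralizer {g}

lemma mem_Cg {g x : Γ} : x ∈ Cg g ↔ g * x = x * g := by
  unfold Cg
  rw [Subgroup.mem_centralizer_iff]
  constructor
  · intro h; exact h g rfl
  · intro h y hy
    rw [Set.mem_singleton_iff.1 hy]; exact h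

/-- all the commuting conditions for `S3a`: the map `x ↦ ⁅x, b⁆`, with values in an abelian
subgroup centralised by `Q` -/
lemma hom_comm {A : Subgroup Γ} {x y b : Γ} (hA : ∀ u ∈ A, ∀ v ∈ A, u * v = v * u)
    (hx : ∀ a ∈ A, x * a = a * x) (hxb : ⁅x, b⁆ ∈ A) (hyb : ⁅y, b⁆ ∈ A) :
    ⁅x * y, b⁆ = ⁅x, b⁆ * ⁅y, b⁆ := by
  rw [comm_mul_left', hx _ hyb, mul_assoc ⁅y, b⁆, mul_inv_cancel, mul_one, hA _ hyb _ hxb]

/-! ### the derived series -/

/-- the derived series of a subgroup -/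
def Dr (D : Subgroup Γ) : ℕ → Subgroup Γ
  | 0 => D
  | n + 1 => ⁅Dr D n, Dr D n⁆

lemma Dr_nrm {H D : Subgroup Γ} (h : Nrm H D) (n : ℕ) : Nrm H (Dr D n) := by
  induction n with
  | zero => exact h
  | succ n ih =>
    intro x hx y hy
    have h1 : (⁅Dr D n, Dr D n⁆).map (MulAut.conj x).toMonoidHom ≤ ⁅Dr D n, Dr D n⁆ := by
      rw [Subgroup.map_commutator]
      have h2 : (Dr D n).map (MulAut.conj x).toMonoidHom ≤ Dr D n := by
        rintro _ ⟨z, hz, rfl⟩
        exact ih x hx z hz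
      exact Subgroup.commutator_mono h2 h2
    exact h1 ⟨y, hy, rfl⟩

lemma Dr_le {H D : Subgroup Γ} (h : D ≤ H) (n : ℕ) :
    Dr D n ≤ (derivedSeries H n).map H.subtype := by
  induction n with
  | zero =>
    intro x hx
    exact ⟨⟨x, h hx⟩, by simp [derivedSeries_zero], rfl⟩
  | succ n ih =>
    change ⁅Dr D n, Dr D n⁆ ≤ _
    rw [derivedSeries_succ, Subgroup.map_commutator]
    exact Subgroup.commutator_mono ih ih

lemma Dr_anti (D : Subgroup Γ) (n : ℕ) : Dr D n ≤ D := by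
  induction n with
  | zero => exact le_rfl
  | succ n ih =>
    change ⁅Dr D n, Dr D n⁆ ≤ _
    rw [Subgroup.commutator_le]
    intro x hx y hy
    rw [commutatorElement_def]
    exact D.mul_mem (D.mul_mem (D.mul_mem (ih hx) (ih hy)) (D.inv_mem (ih hx))) (D.inv_mem (ih hy))

/-! ### the group theory -/

/-- `A` abelian normal in `H`, `B / A` abelian, centralised by `A`, with `C_H(B) = A`. -/
theorem exists_AB (H : Subgroup Γ) (hs : Group.IsSolvable H) :
    ∃ A B : Subgroup Γ, A ≤ B ∧ B ≤ H ∧ Nrm H A ∧ Nrm H B ∧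
      (∀ x ∈ A, ∀ y ∈ B, x * y = y * x) ∧ (∀ x ∈ B, ∀ y ∈ B, ⁅x, y⁆ ∈ A) ∧
      ∀ g ∈ H, (∀ b ∈ B, g * b = b * g) → g ∈ A := by
  obtain ⟨A, -, hAH, hAn, hAc, hAm⟩ := exists_max H H ⊥ ⊥ bot_le
    (by intro x _ y hy; rw [Subgroup.mem_bot] at hy ⊢; subst hy; simp)
    (by intro x hx y _; rw [Subgroup.mem_bot] at hx ⊢; subst hx; simp)
  have hAc' : ∀ x ∈ A, ∀ y ∈ A, x * y = y * x := fun x hx y hy => one_iff.1 (by
    simpa using hAc x hx y hy)
  -- the centraliser of `A` in `H`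
  let U : Subgroup Γ := H ⊓ Subgroup.centralizer (A : Set Γ)
  have hUmem : ∀ x, x ∈ U ↔ x ∈ H ∧ ∀ a ∈ A, a * x = x * a := by
    intro x
    simp only [U, Subgroup.mem_inf, Subgroup.mem_centralizer_iff, SetLike.mem_coe]
  obtain ⟨B, hAB, hBU, hBn, hBc, hBm⟩ := exists_max H U A A
    (fun x hx => (hUmem x).2 ⟨hAH hx, fun a ha => hAc' a ha x hx⟩) hAn
    (fun x hx y hy => by
      have := hAc x hx y hy
      rw [Subgroup.mem_bot] at this
      rw [this]; exact A.one_mem)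
  have hBH : B ≤ H := fun x hx => ((hUmem x).1 (hBU hx)).1
  have hBA : ∀ x ∈ A, ∀ y ∈ B, x * y = y * x := fun x hx y hy => ((hUmem y).1 (hBU hy)).2 x hx
  refine ⟨A, B, hAB, hBH, hAn, hBn, hBA, hBc, ?_⟩
  -- the centraliser of `B` in `H`
  let D : Subgroup Γ := H ⊓ Subgroup.centralizer (B : Set Γ)
  have hDmem : ∀ x, x ∈ D ↔ x ∈ H ∧ ∀ b ∈ B, b * x = x * b := by
    intro x
    simp only [D, Subgroup.mem_inf, Subgroup.mem_centralizer_iff, SetLike.mem_coe]
  have hDn : Nrm H D := by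
    intro x hx y hy
    obtain ⟨hy1, hy2⟩ := (hDmem y).1 hy
    refine (hDmem _).2 ⟨H.mul_mem (H.mul_mem hx hy1) (H.inv_mem hx), fun b hb => ?_⟩
    have h1 : x⁻¹ * b * x ∈ B := by
      have := hBn x⁻¹ (H.inv_mem hx) b hb
      rwa [inv_inv] at this
    have h2 := hy2 _ h1
    calc b * (x * y * x⁻¹) = x * ((x⁻¹ * b * x) * y) * x⁻¹ := by group
      _ = x * (y * (x⁻¹ * b * x)) * x⁻¹ := by rw [h2]
      _ = x * y * x⁻¹ * b := by group
  -- `B ⊓ D = A`
  have hBD : B ⊓ D ≤ A := by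
    refine hAm (B ⊓ D) ?_ (fun x hx => hBH hx.1) ?_ ?_
    · intro x hx
      exact ⟨hAB hx, (hDmem x).2 ⟨hAH hx, fun b hb => (hBA x hx b hb).symm⟩⟩
    · intro x hx y hy
      exact ⟨hBn x hx y hy.1, hDn x hx y hy.2⟩
    · intro x hx y hy
      rw [Subgroup.mem_bot, one_iff]
      exact ((hDmem y).1 hy.2).2 x hx.1
  -- the derived series of `D`
  have hDH : D ≤ H := fun x hx => ((hDmem x).1 hx).1
  have hex : ∃ n, Dr D n ≤ A := by
    obtain ⟨n, hn⟩ := hs.solvable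
    refine ⟨n, (Dr_le hDH n).trans ?_⟩
    rw [hn, Subgroup.map_bot]
    exact bot_le
  have hDA : D ≤ A := by
    classical
    obtain ⟨n, hn, hmin⟩ : ∃ n, Dr D n ≤ A ∧ ∀ k < n, ¬ Dr D k ≤ A :=
      ⟨Nat.find hex, Nat.find_spec hex, fun k hk => Nat.find_min hex hk⟩
    rcases n with _ | k
    · exact hn
    · exfalso
      apply hmin k (Nat.lt_succ_self k)
      let E := Dr D k
      have hED : E ≤ D := Dr_anti D k
      have hEn : Nrm H E := Dr_nrm hDn k
      have hEc : ∀ x ∈ E, ∀ y ∈ E, ⁅x, y⁆ ∈ A := fun x hx y hy =>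
        hn (Subgroup.commutator_mem_commutator hx hy)
      have hEB : ∀ x ∈ E, ∀ y ∈ B, y * x = x * y := fun x hx y hy => ((hDmem x).1 (hED hx)).2 y hy
      -- the product `E B`
      let F : Subgroup Γ :=
        { carrier := {z | ∃ x ∈ E, ∃ y ∈ B, z = x * y}
          one_mem' := ⟨1, E.one_mem, 1, B.one_mem, by simp⟩
          mul_mem' := by
            rintro _ _ ⟨x, hx, y, hy, rfl⟩ ⟨x', hx', y', hy', rfl⟩
            refine ⟨x * x', E.mul_mem hx hx', y * y', B.mul_mem hy hy', ?_⟩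
            calc x * y * (x' * y') = x * (y * x') * y' := by group
              _ = x * (x' * y) * y' := by rw [hEB x' hx' y hy]
              _ = _ := by group
          inv_mem' := by
            rintro _ ⟨x, hx, y, hy, rfl⟩
            refine ⟨x⁻¹, E.inv_mem hx, y⁻¹, B.inv_mem hy, ?_⟩
            rw [mul_inv_rev]
            exact hEB x⁻¹ (E.inv_mem hx) y⁻¹ (B.inv_mem hy) }
      have hF : F ≤ B := by
        refine hBm F (fun y hy => ⟨1, E.one_mem, y, hy, by simp⟩) ?_ ?_ ?_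
        · rintro _ ⟨x, hx, y, hy, rfl⟩
          refine U.mul_mem ((hUmem x).2 ⟨hDH (hED hx), fun a ha => ?_⟩) (hBU hy)
          exact hEB x hx a (hAB ha)
        · rintro g hg _ ⟨x, hx, y, hy, rfl⟩
          exact ⟨g * x * g⁻¹, hEn g hg x hx, g * y * g⁻¹, hBn g hg y hy, by group⟩
        · rintro _ ⟨x, hx, y, hy, rfl⟩ _ ⟨x', hx', y', hy', rfl⟩
          have h1 : ⁅x * y, x' * y'⁆ = ⁅x, x'⁆ * ⁅y, y'⁆ := by
            have e1 := hEB x hx y hy
            have e2 := hEB x' hx' y' hy'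
            have e3 := hEB x hx y' hy'
            have e4 := hEB x' hx' y hy
            have c1 : Commute y x := e1
            have c2 : Commute y' x' := e2
            have c3 : Commute y' x := e3
            have c4 : Commute y x' := e4
            rw [commutatorElement_def, commutatorElement_def, commutatorElement_def, mul_inv_rev,
              mul_inv_rev]
            calc x * y * (x' * y') * (y⁻¹ * x⁻¹) * (y'⁻¹ * x'⁻¹)
                = x * (y * x') * y' * y⁻¹ * (x⁻¹ * y'⁻¹) * x'⁻¹ := by group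
              _ = x * (x' * y) * y' * y⁻¹ * (y'⁻¹ * x⁻¹) * x'⁻¹ := by
                  rw [c4.eq, (c3.inv_inv).eq]
              _ = x * x' * ((y * y' * y⁻¹ * y'⁻¹) * (x⁻¹ * x'⁻¹)) := by group
              _ = x * x' * ((x⁻¹ * x'⁻¹) * (y * y' * y⁻¹ * y'⁻¹)) := by
                  have c5 : Commute (y * y' * y⁻¹ * y'⁻¹) (x⁻¹ * x'⁻¹) := by
                    have a1 : Commute (y * y' * y⁻¹ * y'⁻¹) x :=
                      ((c1.mul_left c3).mul_left c1.inv_left).mul_left c3.inv_left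
                    have a2 : Commute (y * y' * y⁻¹ * y'⁻¹) x' :=
                      ((c4.mul_left c2).mul_left c4.inv_left).mul_left c2.inv_left
                    exact a1.inv_right.mul_right a2.inv_right
                  rw [c5.eq]
              _ = x * x' * x⁻¹ * x'⁻¹ * (y * y' * y⁻¹ * y'⁻¹) := by group
          rw [h1]
          exact A.mul_mem (hEc x hx x' hx') (hBc y hy y' hy')
      intro x hx
      exact hBD ⟨hF ⟨x, hx, 1, B.one_mem, by simp⟩, hED hx⟩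
  intro g hg hgB
  exact hDA ((hDmem g).2 ⟨hg, fun b hb => (hgB b hb).symm⟩)

/-! ### ranks -/

lemma tf_one (htf : TF Γ) {g : Γ} {n : ℕ} (hn : n ≠ 0) (h : g ^ n = 1) : g = 1 := htf g n hn h

/-- an abelian subgroup -/
lemma fr_bot (htf : TF Γ) (hr : ∃ m, RankB Γ m) {A : Subgroup Γ}
    (hA : ∀ x ∈ A, ∀ y ∈ A, x * y = y * x) : FR ⊥ A := by
  refine ⟨bot_le, fun x hx y hy => ?_, fun x _ n hn h => ?_, ?_⟩
  · rw [Subgroup.mem_bot, one_iff]; exact hA x hx y hy
  · rw [Subgroup.mem_bot] at h ⊢; exact htf x n hn h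
  · obtain ⟨m, hm⟩ := hr
    refine ⟨m, fun x hx => ?_⟩
    obtain ⟨c, hc, h⟩ := hm x fun i j => hA _ (hx i) _ (hx j)
    exact ⟨c, hc, by rw [h]; exact Subgroup.one_mem _⟩

/-- commuting with generators up to torsion -/
lemma commute_of_gen (htf : TF Γ) {A D : Subgroup Γ} {r : ℕ} {e : Fin r → Γ}
    (he : ∀ x ∈ D, ∃ n : ℕ, n ≠ 0 ∧ ∃ y ∈ Subgroup.closure (Set.range e), ∃ p ∈ A, x ^ n = y * p)
    {g : Γ} (hgA : ∀ a ∈ A, g * a = a * g) (hge : ∀ i, g * e i = e i * g)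
    (hDA : ∀ x ∈ D, ∀ a ∈ A, x * a = a * x)
    {x : Γ} (hx : x ∈ D) (hgx : ⁅g, x⁆ ∈ A) : g * x = x * g := by
  obtain ⟨n, hn, y, hy, p, hp, h⟩ := he x hx
  have h1 : y ∈ Cg g := by
    refine (Subgroup.closure_le (Cg g)).2 ?_ hy
    rintro _ ⟨i, rfl⟩
    exact mem_Cg.2 (hge i)
  have h2 : x ^ n ∈ Cg g := by
    rw [h]; exact (Cg g).mul_mem h1 (mem_Cg.2 (hgA p hp))
  have h3 : ⁅g, x ^ n⁆ = ⁅g, x⁆ ^ n := comm_pow_right (hDA x hx _ hgx) n
  have h4 : ⁅g, x ^ n⁆ = 1 := one_iff.2 (mem_Cg.1 h2)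
  rw [h4] at h3
  exact one_iff.1 (htf _ n hn h3.symm)

theorem blockS2_of (h3a : BlockS3a) (h3b : BlockS3b) (h3c : BlockS3c) (h3e : BlockS3e) :
    BlockS2 := by
  intro Γ _ htf hr H hs
  obtain ⟨A, B, hAB, hBH, hAn, hBn, hBA, hBc, hcen⟩ := exists_AB H hs
  have hAA : ∀ x ∈ A, ∀ y ∈ A, x * y = y * x := fun x hx y hy => hBA x hx y (hAB hy)
  have hAH : A ≤ H := hAB.trans hBH
  -- the group `C`
  let C : Subgroup Γ :=
    { carrier := {g | g ∈ H ∧ (∀ a ∈ A, g * a = a * g) ∧ ∀ b ∈ B, ⁅g, b⁆ ∈ A}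
      one_mem' := ⟨H.one_mem, by simp, by intro b _; simp [A.one_mem]⟩
      mul_mem' := by
        rintro x y ⟨hx, hxa, hxb⟩ ⟨hy, hya, hyb⟩
        refine ⟨H.mul_mem hx hy, fun a ha => ?_, fun b hb => ?_⟩
        · rw [mul_assoc, hya a ha, ← mul_assoc, hxa a ha, mul_assoc]
        · rw [hom_comm hAA hxa (hxb b hb) (hyb b hb)]
          exact A.mul_mem (hxb b hb) (hyb b hb)
      inv_mem' := by
        rintro x ⟨hx, hxa, hxb⟩
        have hxa' : ∀ a ∈ A, x⁻¹ * a = a * x⁻¹ := fun a ha => by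
          have : Commute x a := hxa a ha
          exact this.inv_left.eq
        refine ⟨H.inv_mem hx, hxa', fun b hb => ?_⟩
        have h1 : ⁅x⁻¹, b⁆ = x⁻¹ * ⁅x, b⁆⁻¹ * x := by
          simp only [commutatorElement_def]; group
        rw [h1, hxa' _ (A.inv_mem (hxb b hb)), mul_assoc, inv_mul_cancel, mul_one]
        exact A.inv_mem (hxb b hb) }
  have hCmem : ∀ g, g ∈ C ↔ g ∈ H ∧ (∀ a ∈ A, g * a = a * g) ∧ ∀ b ∈ B, ⁅g, b⁆ ∈ A :=
    fun g => Iff.rfl
  have hCn : Nrm H C := by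
    rintro x hx y ⟨hy, hya, hyb⟩
    refine ⟨H.mul_mem (H.mul_mem hx hy) (H.inv_mem hx), fun a ha => ?_, fun b hb => ?_⟩
    · have h1 : x⁻¹ * a * x ∈ A := by
        have := hAn x⁻¹ (H.inv_mem hx) a ha
        rwa [inv_inv] at this
      calc x * y * x⁻¹ * a = x * (y * (x⁻¹ * a * x)) * x⁻¹ := by group
        _ = x * ((x⁻¹ * a * x) * y) * x⁻¹ := by rw [hya _ h1]
        _ = _ := by group
    · have h1 : x⁻¹ * b * x ∈ B := by
        have := hBn x⁻¹ (H.inv_mem hx) b hb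
        rwa [inv_inv] at this
      have h2 := hAn x hx _ (hyb _ h1)
      have h3 : ⁅x * y * x⁻¹, b⁆ = x * ⁅y, x⁻¹ * b * x⁆ * x⁻¹ := by
        simp only [commutatorElement_def]; group
      rw [h3]; exact h2
  have hAC : A ≤ C := fun a ha => ⟨hAH ha, fun b hb => hAA a ha b hb, fun b hb => by
    rw [one_iff.2 (hBA a ha b hb)]; exact A.one_mem⟩
  -- torsion-freeness in general
  have htor : ∀ x ∈ H, (∀ a ∈ A, x * a = a * x) → (∀ b ∈ B, ⁅x, b⁆ ∈ A) → ∀ n : ℕ, n ≠ 0 →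
      x ^ n ∈ A → x ∈ A := by
    intro x hx hxa hxb n hn h
    refine hcen x hx fun b hb => ?_
    have h1 : ⁅x ^ n, b⁆ = ⁅x, b⁆ ^ n := comm_pow_left (hxa _ (hxb b hb)) n
    have h2 : ⁅x ^ n, b⁆ = 1 := one_iff.2 (hBA _ h b hb)
    rw [h2] at h1
    exact one_iff.1 (htf _ n hn h1.symm)
  have hBtf : ∀ x ∈ B, ∀ n : ℕ, n ≠ 0 → x ^ n ∈ A → x ∈ A := fun x hx =>
    htor x (hBH hx) (fun a ha => (hBA a ha x hx).symm) (fun b hb => hBc x hx b hb)
  have frA : FR ⊥ A := fr_bot htf hr hAA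
  -- the maximal abelian subgroup `D` between `A` and `B`
  obtain ⟨D, hAD, hDB, -, hDc, hDm⟩ := exists_max (⊥ : Subgroup Γ) B ⊥ A hAB
    (by intro x hx y hy; rw [Subgroup.mem_bot] at hx; subst hx; simpa using hy)
    (fun x hx y hy => by rw [Subgroup.mem_bot, one_iff]; exact hAA x hx y hy)
  have hDD : ∀ x ∈ D, ∀ y ∈ D, x * y = y * x := fun x hx y hy => one_iff.1 (by
    simpa using hDc x hx y hy)
  have frD : FR ⊥ D := fr_bot htf hr hDD
  have frAD : FR A D := h3c Γ ⊥ D A D frD bot_le hAD le_rfl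
    (fun x hx n hn h => hBtf x (hDB hx) n hn h)
  obtain ⟨r, e, heD, he⟩ := h3e Γ A D frAD
  have frDB : FR D B := by
    refine h3a Γ D B r (fun j x => ⁅x, e j⁆) (fun _ => ⊥) (fun _ => A) hDB (fun _ => frA)
      (fun j x hx => hBc x hx _ (hDB (heD j))) ?_ ?_
    · intro j x hx y hy
      refine ⟨1, Subgroup.one_mem _, ?_⟩
      rw [mul_one]
      exact hom_comm hAA (fun a ha => (hBA a ha x hx).symm) (hBc x hx _ (hDB (heD j)))
        (hBc y hy _ (hDB (heD j)))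
    · intro x hx
      constructor
      · intro hxD j
        rw [Subgroup.mem_bot, one_iff]
        exact hDD x hxD _ (heD j)
      · intro h
        have h1 : ∀ z ∈ D, x * z = z * x := fun z hz =>
          commute_of_gen htf he (fun a ha => (hBA a ha x hx).symm)
            (fun i => one_iff.1 (by simpa using h i))
            (fun y hy a ha => (hBA a ha y (hDB hy)).symm) hz (hBc x hx z (hDB hz))
        -- the group generated by `D` and `x`
        have h2 : D ⊔ Subgroup.closure {x} ≤ D := by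
          have hcl : ∀ z ∈ D ⊔ Subgroup.closure {x}, z ∈ Cg x ∧ ∀ y ∈ D, y * z = z * y := by
            have e1 : D ⊔ Subgroup.closure {x} ≤ Cg x ⊓ Subgroup.centralizer (D : Set Γ) := by
              refine sup_le ?_ ?_
              · intro z hz
                exact ⟨mem_Cg.2 (h1 z hz), Subgroup.mem_centralizer_iff.2 fun y hy =>
                  hDD y hy z hz⟩
              · rw [Subgroup.closure_le]
                intro z hz
                rw [Set.mem_singleton_iff.1 hz]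
                exact ⟨mem_Cg.2 rfl, Subgroup.mem_centralizer_iff.2 fun y hy =>
                  (h1 y hy).symm⟩
            intro z hz
            obtain ⟨e2, e3⟩ := e1 hz
            exact ⟨e2, fun y hy => Subgroup.mem_centralizer_iff.1 e3 y hy⟩
          refine hDm _ le_sup_left (sup_le hDB ?_) ?_ ?_
          · rw [Subgroup.closure_le]
            intro z hz
            rw [Set.mem_singleton_iff.1 hz]; exact hx
          · intro y hy z hz
            rw [Subgroup.mem_bot] at hy; subst hy; simpa using hz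
          · intro y hy z hz
            rw [Subgroup.mem_bot, one_iff]
            have e4 : D ⊔ Subgroup.closure {x} ≤ Cg z := by
              refine sup_le (fun w hw => mem_Cg.2 ((hcl z hz).2 w hw).symm) ?_
              rw [Subgroup.closure_le]
              intro w hw
              rw [Set.mem_singleton_iff.1 hw]
              exact mem_Cg.2 (mem_Cg.1 (hcl z hz).1).symm
            exact (mem_Cg.1 (e4 hy)).symm
        exact h2 (le_sup_right (a := D) (Subgroup.subset_closure rfl))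
  have frAB : FR A B := h3b Γ A D B frAD frDB hBc
  obtain ⟨r', e', heB', he'⟩ := h3e Γ A B frAB
  have frAC : FR A C := by
    refine h3a Γ A C r' (fun j x => ⁅x, e' j⁆) (fun _ => ⊥) (fun _ => A) hAC (fun _ => frA)
      (fun j x hx => hx.2.2 _ (heB' j)) ?_ ?_
    · intro j x hx y hy
      refine ⟨1, Subgroup.one_mem _, ?_⟩
      rw [mul_one]
      exact hom_comm hAA hx.2.1 (hx.2.2 _ (heB' j)) (hy.2.2 _ (heB' j))
    · intro x hx
      constructor
      · intro hxA j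
        rw [Subgroup.mem_bot, one_iff]
        exact hBA x hxA _ (heB' j)
      · intro h
        refine hcen x hx.1 fun b hb => ?_
        exact commute_of_gen htf he' hx.2.1 (fun i => one_iff.1 (by simpa using h i))
          (fun y hy a ha => (hBA a ha y hy).symm) hb (hx.2.2 b hb)
  refine ⟨A, B, C, hBH, fun x hx => hx.1, hAn, hBn, hCn, frA, frAB, frAC,
    fun c hc a ha => one_iff.2 (hc.2.1 a ha), fun c hc b hb => hc.2.2 b hb, ?_⟩
  intro g hg h1 h2
  exact ⟨hg, fun a ha => one_iff.1 (h1 a ha), h2⟩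

end Vale.Agent.P260.LM.S2x
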