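import Vale.Agent.P260.LM.Spec6

/-!
P260, last mile: leaves S3a, S3b, S3c, S3d, S3e (torsion-free abelian sections of finite rank).
-/

namespace Vale.Agent.P260.LM.H25

open scoped commutatorElement

namespace S3

/-- The quotient of `Q` by `P`. -/
theorem exists_quot {Γ : Type} [Group Γ] {P Q : Subgroup Γ} (hle : P ≤ Q)
    (hc : ∀ x ∈ Q, ∀ y ∈ Q, ⁅x, y⁆ ∈ P) :
    ∃ (A : Type) (_ : CommGroup A) (π : Q →* A), Function.Surjective π ∧
      ∀ x : Q, π x = 1 ↔ (x : Γ) ∈ P := by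
  have hn : (P.subgroupOf Q).Normal := by
    constructor
    intro n hn g
    rw [Subgroup.mem_subgroupOf] at hn ⊢
    have h1 := hc g g.2 n (hle hn)
    have e : ((g * n * g⁻¹ : Q) : Γ) = ⁅(g : Γ), (n : Γ)⁆ * n := by
      rw [commutatorElement_def]
      push_cast
      group
    rw [e]
    exact P.mul_mem h1 hn
  have hc' : ∀ a b : Q ⧸ P.subgroupOf Q, a * b = b * a := by
    intro a b
    obtain ⟨x, rfl⟩ := QuotientGroup.mk_surjective a
    obtain ⟨y, rfl⟩ := QuotientGroup.mk_surjective b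
    rw [← QuotientGroup.mk_mul, ← QuotientGroup.mk_mul, QuotientGroup.eq,
      Subgroup.mem_subgroupOf]
    have h1 := hc y⁻¹ (Q.inv_mem y.2) x⁻¹ (Q.inv_mem x.2)
    have e : (((x * y)⁻¹ * (y * x) : Q) : Γ) = ⁅(y : Γ)⁻¹, (x : Γ)⁻¹⁆ := by
      rw [commutatorElement_def]
      push_cast
      group
    rw [e]
    exact h1
  letI : CommGroup (Q ⧸ P.subgroupOf Q) :=
    { (inferInstance : Group (Q ⧸ P.subgroupOf Q)) with mul_comm := hc' }
  refine ⟨Q ⧸ P.subgroupOf Q, inferInstance, QuotientGroup.mk' _,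
    QuotientGroup.mk'_surjective _, fun x => ?_⟩
  rw [QuotientGroup.mk'_apply, QuotientGroup.eq_one_iff, Subgroup.mem_subgroupOf]

/-- Products of powers in the quotient. -/
theorem prod_mem_iff {Γ : Type} [Group Γ] {P Q : Subgroup Γ} {A : Type} [CommGroup A]
    (π : Q →* A) (hπ : ∀ x : Q, π x = 1 ↔ (x : Γ) ∈ P) {r : ℕ} (x : Fin r → Γ)
    (hx : ∀ i, x i ∈ Q) (c : Fin r → ℤ) :
    (List.ofFn fun i => x i ^ c i).prod ∈ P ↔ ∏ i, π ⟨x i, hx i⟩ ^ c i = 1 := by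
  have e1 : (List.ofFn fun i => x i ^ c i).prod =
      (((List.ofFn fun i => (⟨x i, hx i⟩ : Q) ^ c i).prod : Q) : Γ) := by
    rw [← Subgroup.subtype_apply, map_list_prod, List.map_ofFn]
    rfl
  rw [e1, ← hπ, map_list_prod, List.map_ofFn, List.prod_ofFn]
  simp

/-- Regrouping of a product. -/
theorem prod_regroup {A : Type} [CommGroup A] {r s : ℕ} (x : Fin (r * s) → A)
    (c : Fin r → Fin s → ℤ) (d : Fin r → ℤ) :
    ∏ i, x i ^ (c (finProdFinEquiv.symm i).1 (finProdFinEquiv.symm i).2 *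
        d (finProdFinEquiv.symm i).1) =
      ∏ a, (∏ b, x (finProdFinEquiv (a, b)) ^ c a b) ^ d a := by
  rw [← finProdFinEquiv.prod_comp, Fintype.prod_prod_type]
  refine Finset.prod_congr rfl fun a _ => ?_
  rw [← Finset.prod_zpow]
  refine Finset.prod_congr rfl fun b _ => ?_
  simp [zpow_mul]

theorem ne_zero_regroup {r s : ℕ} {c : Fin r → Fin s → ℤ} {d : Fin r → ℤ} (hd : d ≠ 0)
    (hc : ∀ a, c a ≠ 0) :
    (fun i : Fin (r * s) => c (finProdFinEquiv.symm i).1 (finProdFinEquiv.symm i).2 *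
        d (finProdFinEquiv.symm i).1) ≠ 0 := by
  obtain ⟨a, ha⟩ := Function.ne_iff.1 hd
  obtain ⟨b, hb⟩ := Function.ne_iff.1 (hc a)
  intro h
  have h1 := congrFun h (finProdFinEquiv (a, b))
  simp only [Equiv.symm_apply_apply, Pi.zero_apply] at h1
  rcases mul_eq_zero.1 h1 with h2 | h2
  · exact hb h2
  · exact ha h2

/-- Simultaneous relations in finitely many groups. -/
theorem exists_common_relation : ∀ (k : ℕ) (A : Fin k → Type) (_ : ∀ j, CommGroup (A j)),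
    (∀ j, ∃ r : ℕ, ∀ x : Fin r → A j, ∃ c : Fin r → ℤ, c ≠ 0 ∧ ∏ i, x i ^ c i = 1) →
    ∃ r : ℕ, ∀ x : ∀ j, Fin r → A j, ∃ c : Fin r → ℤ, c ≠ 0 ∧ ∀ j, ∏ i, x j i ^ c i = 1 := by
  intro k
  induction k with
  | zero =>
    intro A _ _
    refine ⟨1, fun x => ⟨fun _ => 1, ?_, fun j => j.elim0⟩⟩
    intro h
    have := congrFun h 0
    simp at this
  | succ k ih =>
    intro A hA h
    obtain ⟨s, hs⟩ := h 0
    obtain ⟨r, hr⟩ := ih (fun j => A j.succ) (fun j => hA j.succ) (fun j => h j.succ)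
    refine ⟨r * s, fun x => ?_⟩
    choose c hc hc1 using fun a : Fin r => hs fun b => x 0 (finProdFinEquiv (a, b))
    obtain ⟨d, hd, hd1⟩ := hr fun j a => ∏ b, x j.succ (finProdFinEquiv (a, b)) ^ c a b
    refine ⟨_, ne_zero_regroup hd hc, fun j => ?_⟩
    rw [prod_regroup (x j) c d]
    refine Fin.cases ?_ (fun j => ?_) j
    · exact Finset.prod_eq_one fun a _ => by rw [hc1 a, one_zpow]
    · exact hd1 j

end S3

open S3

theorem blockS3c : BlockS3c := by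
  intro Γ _ P Q P' Q' h h1 h2 h3 h4
  refine ⟨h2, fun x hx y hy => h1 (h.comm x (h3 hx) y (h3 hy)), h4, ?_⟩
  obtain ⟨r, hr⟩ := h.rk
  refine ⟨r, fun x hx => ?_⟩
  obtain ⟨c, hc, hc1⟩ := hr x fun i => h3 (hx i)
  exact ⟨c, hc, h1 hc1⟩

theorem blockS3b : BlockS3b := by
  intro Γ _ P Q R h1 h2 hc
  refine ⟨h1.le.trans h2.le, hc, fun x hx n hn hxn =>
    h1.tf x (h2.tf x hx n hn (h1.le hxn)) n hn hxn, ?_⟩
  obtain ⟨r, hr⟩ := h1.rk
  obtain ⟨s, hs⟩ := h2.rk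
  obtain ⟨A, _, π, -, hπ⟩ := exists_quot (h1.le.trans h2.le) hc
  refine ⟨r * s, fun x hx => ?_⟩
  choose c hc0 hc1 using fun a : Fin r =>
    hs (fun b => x (finProdFinEquiv (a, b))) fun b => hx _
  obtain ⟨d, hd, hd1⟩ := hr (fun a => (List.ofFn fun b => x (finProdFinEquiv (a, b)) ^ c a b).prod)
    hc1
  refine ⟨_, ne_zero_regroup hd hc0, ?_⟩
  have h3 := (prod_mem_iff π hπ _ (fun a => h2.le (hc1 a)) d).1 hd1
  rw [prod_mem_iff π hπ x hx, prod_regroup (fun i => π ⟨x i, hx i⟩) c d, ← h3]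
  refine Finset.prod_congr rfl fun a _ => ?_
  congr 1
  have e : (⟨(List.ofFn fun b => x (finProdFinEquiv (a, b)) ^ c a b).prod, h2.le (hc1 a)⟩ : R) =
      (List.ofFn fun b => (⟨x (finProdFinEquiv (a, b)), hx _⟩ : R) ^ c a b).prod := by
    apply Subtype.ext
    rw [← Subgroup.subtype_apply, ← Subgroup.subtype_apply, map_list_prod, List.map_ofFn]
    rfl
  rw [e, map_list_prod, List.map_ofFn, List.prod_ofFn]
  simp

theorem blockS3a : BlockS3a := by
  intro Γ _ P Q k f P' Q' hle hFR hf hmul hP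
  choose A hA π hπs hπ using fun j => exists_quot (hFR j).le (hFR j).comm
  letI : ∀ j, CommGroup (A j) := hA
  -- the homomorphisms
  have hφ : ∀ j, ∃ φ : Q →* A j, ∀ x : Q, φ x = 1 ↔ f j x ∈ P' j := by
    intro j
    refine ⟨MonoidHom.mk' (fun x => π j ⟨f j x, hf j x x.2⟩) fun a b => ?_, fun x => ?_⟩
    · obtain ⟨p, hp, hpe⟩ := hmul j a a.2 b b.2
      have e : (⟨f j (a * b : Q), hf j _ (a * b).2⟩ : Q' j) =
          ⟨f j a, hf j a a.2⟩ * ⟨f j b, hf j b b.2⟩ * ⟨p, (hFR j).le hp⟩ := by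
        apply Subtype.ext
        simpa using hpe
      rw [e, map_mul, map_mul, (hπ j ⟨p, (hFR j).le hp⟩).2 hp, mul_one]
    · simpa using hπ j ⟨f j x, hf j x x.2⟩
  choose φ hφ using hφ
  have hk : ∀ x : Q, (x : Γ) ∈ P ↔ ∀ j, φ j x = 1 := by
    intro x
    rw [hP x x.2]
    exact forall_congr' fun j => (hφ j x).symm
  have htfA : ∀ j (a : A j) (n : ℕ), n ≠ 0 → a ^ n = 1 → a = 1 := by
    intro j a n hn ha
    obtain ⟨y, rfl⟩ := hπs j a
    rw [← map_pow, hπ] at ha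
    rw [hπ]
    exact (hFR j).tf y y.2 n hn (by simpa using ha)
  have hrk : ∀ j, ∃ r : ℕ, ∀ x : Fin r → A j, ∃ c : Fin r → ℤ, c ≠ 0 ∧ ∏ i, x i ^ c i = 1 := by
    intro j
    obtain ⟨r, hr⟩ := (hFR j).rk
    refine ⟨r, fun x => ?_⟩
    choose y hy using fun i => hπs j (x i)
    obtain ⟨c, hc, hc1⟩ := hr (fun i => y i) fun i => (y i).2
    refine ⟨c, hc, ?_⟩
    rw [prod_mem_iff (π j) (hπ j) _ (fun i => (y i).2)] at hc1
    simpa [hy] using hc1
  refine ⟨hle, fun x hx y hy => ?_, fun x hx n hn hxn => ?_, ?_⟩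
  · have h1 : ((⁅(⟨x, hx⟩ : Q), (⟨y, hy⟩ : Q)⁆ : Q) : Γ) ∈ P := by
      rw [hk]
      intro j
      rw [map_commutatorElement, commutatorElement_eq_one_iff_mul_comm]
      exact mul_comm _ _
    simpa [commutatorElement_def] using h1
  · have h1 : (((⟨x, hx⟩ : Q) ^ n : Q) : Γ) ∈ P := by simpa using hxn
    have h2 : ((⟨x, hx⟩ : Q) : Γ) ∈ P := by
      rw [hk] at h1 ⊢
      intro j
      have h3 := h1 j
      rw [map_pow] at h3
      exact htfA j _ n hn h3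
    exact h2
  · obtain ⟨r, hr⟩ := exists_common_relation k A hA hrk
    refine ⟨r, fun x hx => ?_⟩
    obtain ⟨c, hc, hc1⟩ := hr fun j i => φ j ⟨x i, hx i⟩
    refine ⟨c, hc, ?_⟩
    have e1 : (List.ofFn fun i => x i ^ c i).prod =
        (((List.ofFn fun i => (⟨x i, hx i⟩ : Q) ^ c i).prod : Q) : Γ) := by
      rw [← Subgroup.subtype_apply, map_list_prod, List.map_ofFn]
      rfl
    rw [e1, hk]
    intro j
    rw [map_list_prod, List.map_ofFn, List.prod_ofFn, ← hc1 j]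
    simp

theorem blockS3e : BlockS3e := by
  classical
  intro Γ _ P Q h
  have hex := h.rk
  obtain ⟨r, hr, hmin⟩ : ∃ r : ℕ, (∀ x : Fin r → Γ, (∀ i, x i ∈ Q) →
      ∃ c : Fin r → ℤ, c ≠ 0 ∧ (List.ofFn fun i => x i ^ c i).prod ∈ P) ∧
      ∀ m < r, ¬ ∀ x : Fin m → Γ, (∀ i, x i ∈ Q) →
      ∃ c : Fin m → ℤ, c ≠ 0 ∧ (List.ofFn fun i => x i ^ c i).prod ∈ P :=
    ⟨Nat.find hex, Nat.find_spec hex, fun m hm => Nat.find_min hex hm⟩
  obtain _ | r := r
  · obtain ⟨c, hc, -⟩ := hr (fun i => i.elim0) fun i => i.elim0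
    exact absurd (Subsingleton.elim c 0) hc
  have h1 := hmin r (Nat.lt_succ_self r)
  push Not at h1
  obtain ⟨e, he, he1⟩ := h1
  refine ⟨r, e, he, fun x hx => ?_⟩
  obtain ⟨c, hc, hc1⟩ := hr (Fin.snoc e x) (by
    intro i
    refine Fin.lastCases ?_ (fun j => ?_) i
    · simpa using hx
    · simpa using he j)
  rw [List.ofFn_succ', List.concat_eq_append, List.prod_append] at hc1
  simp only [Fin.snoc_castSucc, Fin.snoc_last, List.prod_cons, List.prod_nil, mul_one] at hc1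
  set y := (List.ofFn fun i => e i ^ c i.castSucc).prod with hy
  have hyc : y ∈ Subgroup.closure (Set.range e) := by
    rw [hy]
    refine Subgroup.list_prod_mem _ fun z hz => ?_
    rw [List.mem_ofFn] at hz
    obtain ⟨i, rfl⟩ := hz
    exact Subgroup.zpow_mem _ (Subgroup.subset_closure (Set.mem_range_self i)) _
  have hyQ : y ∈ Q := (Subgroup.closure_le Q).2 (Set.range_subset_iff.2 he) hyc
  have hl : c (Fin.last r) ≠ 0 := by
    intro h0
    rw [h0, zpow_zero, mul_one] at hc1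
    refine he1 (fun i => c i.castSucc) ?_ hc1
    intro h2
    apply hc
    funext i
    refine Fin.lastCases h0 (fun j => congrFun h2 j) i
  set m : ℤ := c (Fin.last r) with hm
  refine ⟨m.natAbs, Int.natAbs_ne_zero.2 hl, ?_⟩
  rcases Int.natAbs_eq m with h2 | h2
  · refine ⟨y⁻¹, Subgroup.inv_mem _ hyc, y * x ^ m, hc1, ?_⟩
    rw [inv_mul_cancel_left, ← zpow_natCast, ← h2]
  · have h3 : x ^ m.natAbs = (x ^ m)⁻¹ := by
      rw [h2, zpow_neg, inv_inv, Int.natAbs_neg, Int.natAbs_natCast, zpow_natCast]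
    refine ⟨y, hyc, y⁻¹ * (x ^ m)⁻¹, ?_, ?_⟩
    · have h4 := h.comm (y⁻¹) (Q.inv_mem hyQ) ((x ^ m)⁻¹) (Q.inv_mem (Q.zpow_mem hx m))
      have h5 : y⁻¹ * (x ^ m)⁻¹ = ⁅y⁻¹, (x ^ m)⁻¹⁆ * (y * x ^ m)⁻¹ := by
        rw [commutatorElement_def]
        group
      rw [h5]
      exact P.mul_mem h4 (P.inv_mem hc1)
    · rw [mul_inv_cancel_left, h3]

/-- the isolator of `⟨y⟩ P` in `Q` -/
theorem S3.exists_isol {Γ : Type} [Group Γ] {P Q : Subgroup Γ} (h : FR P Q) {y : Γ} (hy : y ∈ Q)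
    (hyP : y ∉ P) : ∃ P1 : Subgroup Γ, RankOne P P1 ∧ P1 ≤ Q ∧
      (∀ x ∈ Q, ∀ n : ℕ, n ≠ 0 → x ^ n ∈ P1 → x ∈ P1) ∧ ∀ e : ℤ, y ^ e ∈ P1 := by
  obtain ⟨A, _, π, hπs, hπ⟩ := exists_quot h.le h.comm
  have htf : ∀ (a : A) (n : ℕ), n ≠ 0 → a ^ n = 1 → a = 1 := by
    intro a n hn ha
    obtain ⟨z, rfl⟩ := hπs a
    rw [← map_pow, hπ] at ha
    rw [hπ]
    exact h.tf z z.2 n hn (by simpa using ha)
  set b : A := π ⟨y, hy⟩ with hb
  -- the isolator in `A`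
  let B : Subgroup A :=
    { carrier := {a | ∃ n : ℕ, n ≠ 0 ∧ ∃ e : ℤ, a ^ n = b ^ e}
      one_mem' := ⟨1, one_ne_zero, 0, by simp⟩
      mul_mem' := by
        rintro a a' ⟨n, hn, e, he⟩ ⟨n', hn', e', he'⟩
        refine ⟨n * n', mul_ne_zero hn hn', e * n' + e' * n, ?_⟩
        rw [mul_pow, pow_mul, he, mul_comm n n', pow_mul, he', zpow_add, zpow_mul, zpow_mul,
          zpow_natCast, zpow_natCast]
      inv_mem' := by
        rintro a ⟨n, hn, e, he⟩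
        exact ⟨n, hn, -e, by rw [inv_pow, he, zpow_neg]⟩ }
  have hB : ∀ a : A, a ∈ B ↔ ∃ n : ℕ, n ≠ 0 ∧ ∃ e : ℤ, a ^ n = b ^ e := fun _ => Iff.rfl
  refine ⟨(B.comap π).map Q.subtype, ⟨?_, ?_, ?_, ?_, ?_⟩, ?_, ?_, ?_⟩
  · intro x hx
    refine ⟨⟨x, h.le hx⟩, ?_, rfl⟩
    change π ⟨x, h.le hx⟩ ∈ B
    rw [(hπ ⟨x, h.le hx⟩).2 hx]
    exact B.one_mem
  · rintro _ ⟨x, -, rfl⟩ _ ⟨z, -, rfl⟩
    exact h.comm x x.2 z z.2
  · rintro _ ⟨x, -, rfl⟩ n hn hxn
    exact h.tf x x.2 n hn hxn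
  · refine ⟨y, ⟨⟨y, hy⟩, ?_, rfl⟩, hyP⟩
    exact ⟨1, one_ne_zero, 1, by simp [hb]⟩
  · rintro _ ⟨x, ⟨n, hn, e, he⟩, rfl⟩ _ ⟨z, ⟨n', hn', e', he'⟩, rfl⟩
    have key : ∀ i j : ℤ, π x ^ i * π z ^ j = 1 →
        Q.subtype x ^ i * Q.subtype z ^ j ∈ P := by
      intro i j hij
      have h1 : π (x ^ i * z ^ j) = 1 := by rw [map_mul, map_zpow, map_zpow, hij]
      exact (hπ _).1 h1
    by_cases h0 : e = 0
    · refine ⟨n, 0, Or.inl (by exact_mod_cast hn), key _ _ ?_⟩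
      rw [zpow_natCast, he, h0, zpow_zero, zpow_zero, one_mul]
    · refine ⟨n * e', -(n' * e), Or.inr ?_, key _ _ ?_⟩
      · exact neg_ne_zero.2 (mul_ne_zero (by exact_mod_cast hn') h0)
      · rw [zpow_mul, zpow_natCast, he, zpow_neg, zpow_mul, zpow_natCast, he', ← zpow_mul,
          ← zpow_mul, mul_comm e e', mul_inv_cancel]
  · rintro _ ⟨x, -, rfl⟩
    exact x.2
  · rintro x hx n hn ⟨z, ⟨m, hm, e, he⟩, hz⟩
    refine ⟨⟨x, hx⟩, ⟨n * m, mul_ne_zero hn hm, e, ?_⟩, rfl⟩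
    have h1 : z = (⟨x, hx⟩ : Q) ^ n := Subtype.ext hz
    rw [pow_mul, ← map_pow, ← h1, he]
  · intro e
    refine ⟨⟨y, hy⟩ ^ e, ?_, rfl⟩
    exact ⟨1, one_ne_zero, e, by simp [hb]⟩

theorem blockS3d : BlockS3d := by
  intro Γ _ P Q h
  obtain ⟨r, hr⟩ := h.rk
  suffices H : ∀ (r : ℕ) (P : Subgroup Γ), FR P Q → (∀ x : Fin r → Γ, (∀ i, x i ∈ Q) →
      ∃ c : Fin r → ℤ, c ≠ 0 ∧ (List.ofFn fun i => x i ^ c i).prod ∈ P) →
      ∃ (k : ℕ) (N : ℕ → Subgroup Γ), N 0 = P ∧ N k = Q ∧ ∀ i < k, RankOne (N i) (N (i + 1)) from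
    H r P h hr
  clear hr r h P
  intro r
  induction r with
  | zero =>
    intro P _ hr
    obtain ⟨c, hc, -⟩ := hr (fun i => i.elim0) fun i => i.elim0
    exact absurd (Subsingleton.elim c 0) hc
  | succ r ih =>
    intro P h hr
    by_cases hPQ : P = Q
    · exact ⟨0, fun _ => P, rfl, hPQ, fun i hi => absurd hi (Nat.not_lt_zero i)⟩
    obtain ⟨y, hy, hyP⟩ : ∃ y ∈ Q, y ∉ P := by
      by_contra hcon
      push Not at hcon
      exact hPQ (le_antisymm h.le hcon)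
    obtain ⟨P1, hP1, hP1Q, htf, hyP1⟩ := S3.exists_isol h hy hyP
    have hFR : FR P1 Q := by
      refine ⟨hP1Q, fun x hx z hz => hP1.le (h.comm x hx z hz), htf, ?_⟩
      obtain ⟨s, hs⟩ := h.rk
      refine ⟨s, fun x hx => ?_⟩
      obtain ⟨c, hc, hc1⟩ := hs x hx
      exact ⟨c, hc, hP1.le hc1⟩
    obtain ⟨k, N, h0, hk, hN⟩ := ih P1 hFR (by
      intro x hx
      obtain ⟨c, hc, hc1⟩ := hr (Fin.snoc x y) (by
        intro i
        refine Fin.lastCases ?_ (fun j => ?_) i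
        · simpa using hy
        · simpa using hx j)
      rw [List.ofFn_succ', List.concat_eq_append, List.prod_append] at hc1
      simp only [Fin.snoc_castSucc, Fin.snoc_last, List.prod_cons, List.prod_nil,
        mul_one] at hc1
      refine ⟨fun i => c i.castSucc, ?_, ?_⟩
      · intro h2
        have h3 : ∀ i : Fin r, c i.castSucc = 0 := fun i => congrFun h2 i
        have h4 : (List.ofFn fun i : Fin r => x i ^ c i.castSucc).prod = 1 := by
          simp [h3]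
        rw [h4, one_mul] at hc1
        have hl : c (Fin.last r) = 0 := by
          by_contra hl
          apply hyP
          refine h.tf y hy (c (Fin.last r)).natAbs (Int.natAbs_ne_zero.2 hl) ?_
          rcases Int.natAbs_eq (c (Fin.last r)) with h5 | h5
          · rw [h5, zpow_natCast] at hc1
            exact hc1
          · rw [h5, zpow_neg, zpow_natCast] at hc1
            simpa using P.inv_mem hc1
        apply hc
        funext i
        exact Fin.lastCases hl h3 i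
      · have h2 := P1.mul_mem (hP1.le hc1) (P1.inv_mem (hyP1 (c (Fin.last r))))
        rwa [mul_inv_cancel_right] at h2)
    refine ⟨k + 1, fun i => if i = 0 then P else N (i - 1), by simp, by simpa using hk, ?_⟩
    intro i hi
    obtain _ | i := i
    · simpa [h0] using hP1
    · simpa using hN i (by omega)

end Vale.Agent.P260.LM.H25
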