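import Vale.Agent.P260.LM.Spec6

/-!
P260, last mile, leaf S5a: the stability filtration.
-/

namespace Vale.Agent.P260.LM

open scoped commutatorElement

namespace S5a

variable {Γ : Type} [Group Γ]

/-- A filtration of an abelian section `Q / P` -/
structure AF (K P Q : Subgroup Γ) (F : ℕ → Subgroup Γ) (m : ℕ) : Prop where
  filt : Filt K P Q F m
  comm : ∀ x ∈ Q, ∀ y ∈ Q, ⁅x, y⁆ ∈ P

/-- `u` moves the filtration `j + 1` steps. -/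
def St (F : ℕ → Subgroup Γ) (j : ℕ) (u : Γ) : Prop := ∀ i, ∀ x ∈ F i, ⁅u, x⁆ ∈ F (i + j + 1)

variable {K P Q : Subgroup Γ} {F : ℕ → Subgroup Γ} {m : ℕ}

theorem AF.anti (h : AF K P Q F m) : Antitone F :=
  antitone_nat_of_succ_le fun i => (h.filt.fr i).le

theorem AF.P_le (h : AF K P Q F m) (i : ℕ) : P ≤ F i := by
  have h1 : F (max i m) = P := h.filt.last _ (le_max_right _ _)
  rw [← h1]
  exact h.anti (le_max_left _ _)

theorem AF.le_Q (h : AF K P Q F m) (i : ℕ) : F i ≤ Q := by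
  rw [← h.filt.zero]
  exact h.anti (Nat.zero_le i)

theorem AF.cm (h : AF K P Q F m) {i : ℕ} {x y : Γ} (hx : x ∈ Q) (hy : y ∈ Q) : ⁅x, y⁆ ∈ F i :=
  h.P_le i (h.comm x hx y hy)

theorem AF.nrm' (h : AF K P Q F m) {i : ℕ} {k x : Γ} (hk : k ∈ K) (hx : x ∈ F i) :
    k⁻¹ * x * k ∈ F i := by
  have := h.filt.nrm i k⁻¹ (K.inv_mem hk) x hx
  rwa [inv_inv] at this

/-- in `Q`, conjugation is trivial modulo `F i` -/
theorem AF.cj (h : AF K P Q F m) {i j : ℕ} {x y : Γ} (hx : x ∈ Q) (hy : y ∈ Q) (hy' : y ∈ F i)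
    (_ : i ≤ j) : x * y * x⁻¹ ∈ F i := by
  have e : x * y * x⁻¹ = ⁅x, y⁆ * y := by rw [commutatorElement_def]; group
  rw [e]
  exact (F i).mul_mem (h.cm hx hy) hy'

theorem St.mono (h : AF K P Q F m) {i j : ℕ} {u : Γ} (hij : i ≤ j) (hu : St F j u) : St F i u :=
  fun l x hx => h.anti (by omega) (hu l x hx)

theorem St.mul (h : AF K P Q F m) {j : ℕ} {u v : Γ} (hk : u ∈ K) (hu : St F j u) (hv : St F j v) :
    St F j (u * v) := by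
  intro i x hx
  have e : ⁅u * v, x⁆ = u * ⁅v, x⁆ * u⁻¹ * ⁅u, x⁆ := by
    simp only [commutatorElement_def]; group
  rw [e]
  exact (F _).mul_mem (h.filt.nrm _ u hk _ (hv i x hx)) (hu i x hx)

theorem St.inv (h : AF K P Q F m) {j : ℕ} {u : Γ} (hk : u ∈ K) (hu : St F j u) :
    St F j u⁻¹ := by
  intro i x hx
  have e : ⁅u⁻¹, x⁆ = u⁻¹ * ⁅u, x⁆⁻¹ * u := by
    simp only [commutatorElement_def]; group
  rw [e]
  exact h.nrm' hk ((F _).inv_mem (hu i x hx))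

theorem St.one (j : ℕ) : St F j (1 : Γ) := by
  intro i x _
  rw [commutatorElement_one_left]
  exact (F _).one_mem

theorem St.conj (h : AF K P Q F m) {j : ℕ} {k u : Γ} (hk : k ∈ K) (hu : St F j u) :
    St F j (k * u * k⁻¹) := by
  intro i x hx
  have e : ⁅k * u * k⁻¹, x⁆ = k * ⁅u, k⁻¹ * x * k⁆ * k⁻¹ := by
    simp only [commutatorElement_def]; group
  rw [e]
  exact h.filt.nrm _ k hk _ (hu i _ (h.nrm' hk hx))

/-- `⁅u, x⁆` for `x⁻¹` on the other side: `u⁻¹ x u = x * a`, `a ∈ F (i + j + 1)`. -/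
theorem St.right (h : AF K P Q F m) {j i : ℕ} {u x : Γ} (hk : u ∈ K) (hu : St F j u)
    (hx : x ∈ F i) : x⁻¹ * (u⁻¹ * x * u) ∈ F (i + j + 1) := by
  have e : x⁻¹ * (u⁻¹ * x * u) = x⁻¹ * ⁅u⁻¹, x⁆ * x := by
    simp only [commutatorElement_def]; group
  rw [e]
  have h1 := hu.inv h hk i x hx
  have hxQ := h.le_Q i hx
  have h2 := h.cj (j := i + j + 1) (Q.inv_mem hxQ) (h.le_Q _ h1) h1 le_rfl
  rwa [inv_inv] at h2

theorem St.comm (h : AF K P Q F m) {j : ℕ} {u w : Γ} (hu : u ∈ K) (hw : w ∈ K) (h1 : St F 0 u)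
    (h2 : St F j w) : St F (j + 1) ⁅u, w⁆ := by
  intro i x hx
  -- `w⁻¹ x w = x a`, `u⁻¹ x u = x b`
  set a := x⁻¹ * (w⁻¹ * x * w) with ha
  set b := x⁻¹ * (u⁻¹ * x * u) with hb
  have haF : a ∈ F (i + j + 1) := h2.right h hw hx
  have hbF : b ∈ F (i + 0 + 1) := h1.right h hu hx
  set c := a⁻¹ * (u⁻¹ * a * u) with hc
  set d := b⁻¹ * (w⁻¹ * b * w) with hd
  have hcF : c ∈ F (i + (j + 1) + 1) := by
    have := h1.right h hu haF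
    exact h.anti (by omega) this
  have hdF : d ∈ F (i + (j + 1) + 1) := by
    have := h2.right h hw hbF
    exact h.anti (by omega) this
  have haQ := h.le_Q _ haF
  have hbQ := h.le_Q _ hbF
  have hxQ := h.le_Q _ hx
  -- `(uw)⁻¹ ... `
  have e1 : u⁻¹ * w⁻¹ * x * w * u = x * b * a * c := by
    rw [hc, hb, ha]; group
  have e2 : w⁻¹ * u⁻¹ * x * u * w = x * a * b * d := by
    rw [hd, hb, ha]; group
  have e3 : ⁅⁅u, w⁆, x⁆ = (u * w) * ((u⁻¹ * w⁻¹ * x * w * u) * (w⁻¹ * u⁻¹ * x * u * w)⁻¹)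
      * (u * w)⁻¹ := by
    simp only [commutatorElement_def]; group
  rw [e3, e1, e2]
  have e4 : x * b * a * c * (x * a * b * d)⁻¹ =
      x * ((b * a) * (c * d⁻¹) * (b * a)⁻¹ * ⁅b, a⁆) * x⁻¹ := by
    simp only [commutatorElement_def]; group
  rw [e4]
  apply h.filt.nrm _ _ (K.mul_mem hu hw)
  have h3 : c * d⁻¹ ∈ F (i + (j + 1) + 1) := (F _).mul_mem hcF ((F _).inv_mem hdF)
  have h4 : (b * a) * (c * d⁻¹) * (b * a)⁻¹ ∈ F (i + (j + 1) + 1) :=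
    h.cj (j := i + (j + 1) + 1) (Q.mul_mem hbQ haQ) (h.le_Q _ h3) h3 le_rfl
  have h5 : (b * a) * (c * d⁻¹) * (b * a)⁻¹ * ⁅b, a⁆ ∈ F (i + (j + 1) + 1) :=
    (F _).mul_mem h4 (h.cm hbQ haQ)
  exact h.cj (j := i + (j + 1) + 1) hxQ (h.le_Q _ h5) h5 le_rfl

/-- multiplicative in `u` modulo `F (i + j + 2)` -/
theorem St.hom (h : AF K P Q F m) {j i : ℕ} {u v x : Γ} (hu : u ∈ K) (h1 : St F j u)
    (h2 : St F j v) (hx : x ∈ F i) :
    ∃ p ∈ F (i + j + 2), ⁅u * v, x⁆ = ⁅u, x⁆ * ⁅v, x⁆ * p := by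
  have hv := h2 i x hx
  have hu1 := h1 i x hx
  have h3 : ⁅u, ⁅v, x⁆⁆ ∈ F (i + j + 2) := h.anti (by omega) (h1 _ _ hv)
  refine ⟨⁅v, x⁆⁻¹ * ⁅u, x⁆⁻¹ * ⁅u, ⁅v, x⁆⁆ * ⁅v, x⁆ * ⁅u, x⁆, ?_, ?_⟩
  · have hvQ := h.le_Q _ hv
    have huQ := h.le_Q _ hu1
    have e : ⁅v, x⁆⁻¹ * ⁅u, x⁆⁻¹ * ⁅u, ⁅v, x⁆⁆ * ⁅v, x⁆ * ⁅u, x⁆ =
      ((⁅u, x⁆ * ⁅v, x⁆)⁻¹ * ⁅u, ⁅v, x⁆⁆ * ((⁅u, x⁆ * ⁅v, x⁆)⁻¹)⁻¹) *
        ⁅(⁅v, x⁆)⁻¹, (⁅u, x⁆)⁻¹⁆ := by
      rw [commutatorElement_def (⁅v, x⁆)⁻¹]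
      group
    rw [e]
    exact (F _).mul_mem (h.cj (j := i + j + 2) (Q.inv_mem (Q.mul_mem huQ hvQ)) (h.le_Q _ h3) h3
      le_rfl) (h.cm (Q.inv_mem hvQ) (Q.inv_mem huQ))
  · simp only [commutatorElement_def]
    group

/-- multiplicative in `x` modulo `F l` -/
theorem mulx (h : AF K P Q F m) {l : ℕ} {u x y : Γ} (hx : x ∈ Q) (hu1 : ⁅u, x⁆ ∈ F l)
    (hu2 : ⁅u, y⁆ ∈ F l) : ⁅u, x * y⁆ ∈ F l := by
  have e : ⁅u, x * y⁆ = ⁅u, x⁆ * (x * ⁅u, y⁆ * x⁻¹) := by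
    simp only [commutatorElement_def]; group
  rw [e]
  exact (F _).mul_mem hu1 (h.cj (j := l) hx (h.le_Q _ hu2) hu2 le_rfl)

theorem invx (h : AF K P Q F m) {l : ℕ} {u x : Γ} (hx : x ∈ Q) (hu1 : ⁅u, x⁆ ∈ F l) :
    ⁅u, x⁻¹⁆ ∈ F l := by
  have e : ⁅u, x⁻¹⁆ = x⁻¹ * ⁅u, x⁆⁻¹ * (x⁻¹)⁻¹ := by
    simp only [commutatorElement_def]; group
  rw [e]
  exact h.cj (j := l) (Q.inv_mem hx) (h.le_Q _ ((F _).inv_mem hu1)) ((F _).inv_mem hu1) le_rfl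

/-- `⁅u, x ^ n⁆` is `⁅u, x⁆ ^ n` modulo `P` -/
theorem powx (h : AF K P Q F m) {u x : Γ} (hx : x ∈ Q) (hu : ⁅u, x⁆ ∈ Q) (l : ℕ) (n : ℕ) :
    ∃ p ∈ F l, ⁅u, x ^ n⁆ = ⁅u, x⁆ ^ n * p := by
  induction n with
  | zero => exact ⟨1, (F l).one_mem, by simp⟩
  | succ n ih =>
    obtain ⟨p, hp, e⟩ := ih
    have hpQ := h.le_Q _ hp
    set c := ⁅u, x⁆ with hc
    have e1 : ⁅u, x ^ (n + 1)⁆ = ⁅u, x⁆ * (x * ⁅u, x ^ n⁆ * x⁻¹) := by
      rw [pow_succ' x n]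
      simp only [commutatorElement_def]; group
    refine ⟨(c ^ (n + 1))⁻¹ * (c * (x * (c ^ n * p) * x⁻¹)), ?_, ?_⟩
    · have e2 : (c ^ (n + 1))⁻¹ * (c * (x * (c ^ n * p) * x⁻¹)) =
          ((c ^ n)⁻¹ * ⁅x, c ^ n⁆ * (c ^ n)) * (x * p * x⁻¹) := by
        rw [commutatorElement_def, pow_succ']
        group
      rw [e2]
      have hcn : c ^ n ∈ Q := Q.pow_mem hu n
      refine (F l).mul_mem ?_ (h.cj (j := l) hx hpQ hp le_rfl)
      have h3 : ⁅x, c ^ n⁆ ∈ F l := h.cm hx hcn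
      have := h.cj (j := l) (Q.inv_mem hcn) (h.le_Q _ h3) h3 le_rfl
      rwa [inv_inv] at this
    · rw [e1, ← hc, e]
      group

/-- The criterion: it suffices to look at the elements of the finite families. -/
theorem St.step (h : AF K P Q F m) {j : ℕ} {u : Γ} (hu : u ∈ K) (h1 : St F j u) {m' : ℕ}
    (hm : m ≤ m') (r : ℕ → ℕ) (e : (i : ℕ) → Fin (r i) → Γ) (he : ∀ i t, e i t ∈ F i)
    (hx : ∀ i, ∀ x ∈ F i, ∃ n : ℕ, n ≠ 0 ∧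
      ∃ y ∈ Subgroup.closure (Set.range (e i)), ∃ p ∈ F (i + 1), x ^ n = y * p)
    (h2 : ∀ i < m', ∀ t, ⁅u, e i t⁆ ∈ F (i + j + 2)) : St F (j + 1) u := by
  intro i x hxi
  rcases lt_or_ge i m' with hi | hi
  · obtain ⟨n, hn, y, hy, p, hp, hxn⟩ := hx i x hxi
    have hcl : Subgroup.closure (Set.range (e i)) ≤ Q := by
      rw [Subgroup.closure_le]
      rintro _ ⟨t, rfl⟩
      exact h.le_Q _ (he i t)
    have hy2 : ⁅u, y⁆ ∈ F (i + j + 2) := by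
      clear hxn
      induction hy using Subgroup.closure_induction with
      | mem x hx =>
        obtain ⟨t, rfl⟩ := hx
        exact h2 i hi t
      | one => rw [commutatorElement_one_right]; exact (F _).one_mem
      | mul x y hx hy ihx ihy => exact mulx h (hcl hx) ihx ihy
      | inv x hx ih => exact invx h (hcl hx) ih
    have hp2 : ⁅u, p⁆ ∈ F (i + j + 2) := h.anti (by omega) (h1 (i + 1) p hp)
    have h3 : ⁅u, x ^ n⁆ ∈ F (i + j + 2) := by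
      rw [hxn]
      exact mulx h (hcl hy) hy2 hp2
    have h4 := h1 i x hxi
    obtain ⟨p', hp', e1⟩ := powx h (h.le_Q _ hxi) (h.le_Q _ h4) (i + j + 2) n
    have h5 : ⁅u, x⁆ ^ n ∈ F (i + j + 2) := by
      have : ⁅u, x⁆ ^ n = ⁅u, x ^ n⁆ * p'⁻¹ := by rw [e1]; group
      rw [this]
      exact (F _).mul_mem h3 ((F _).inv_mem hp')
    have h6 := (h.filt.fr (i + j + 1)).tf _ h4 n hn h5
    have e7 : i + (j + 1) + 1 = i + j + 1 + 1 := by omega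
    rw [e7]
    exact h6
  · have e1 : F i = P := h.filt.last i (hm.trans hi)
    have e2 : F (i + (j + 1) + 1) = P := h.filt.last _ (by omega)
    rw [e2, ← e1, commutatorElement_def]
    exact (F i).mul_mem (h.filt.nrm i u hu x hxi) ((F i).inv_mem hxi)

/-- S3a with a finite index type -/
theorem fr_of (h3a : BlockS3a) {P Q : Subgroup Γ} {ι : Type} [Fintype ι] (f : ι → Γ → Γ)
    (P' Q' : ι → Subgroup Γ) (hPQ : P ≤ Q) (hF : ∀ j, FR (P' j) (Q' j))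
    (h1 : ∀ j, ∀ x ∈ Q, f j x ∈ Q' j)
    (h2 : ∀ j, ∀ x ∈ Q, ∀ y ∈ Q, ∃ p ∈ P' j, f j (x * y) = f j x * f j y * p)
    (h3 : ∀ x ∈ Q, x ∈ P ↔ ∀ j, f j x ∈ P' j) : FR P Q := by
  have e := Fintype.equivFin ι
  refine h3a Γ P Q (Fintype.card ι) (fun j => f (e.symm j)) (fun j => P' (e.symm j))
    (fun j => Q' (e.symm j)) hPQ (fun j => hF _) (fun j => h1 _) (fun j => h2 _) fun x hx => ?_
  rw [h3 x hx]
  exact ⟨fun h j => h _, fun h j => by simpa using h (e j)⟩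

/-- the terms of the stability filtration -/
def W (h : AF K P Q F m) {P' Q' : Subgroup Γ} {F' : ℕ → Subgroup Γ} {m' : ℕ}
    (h' : AF K P' Q' F' m') {U : Subgroup Γ} (hU : U ≤ K) (j : ℕ) : Subgroup Γ where
  carrier := {u | u ∈ U ∧ St F j u ∧ St F' j u}
  mul_mem' := fun hu hv =>
    ⟨U.mul_mem hu.1 hv.1, hu.2.1.mul h (hU hu.1) hv.2.1, hu.2.2.mul h' (hU hu.1) hv.2.2⟩
  one_mem' := ⟨U.one_mem, St.one j, St.one j⟩
  inv_mem' := fun hu => ⟨U.inv_mem hu.1, hu.2.1.inv h (hU hu.1), hu.2.2.inv h' (hU hu.1)⟩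

theorem mem_W (h : AF K P Q F m) {P' Q' : Subgroup Γ} {F' : ℕ → Subgroup Γ} {m' : ℕ}
    (h' : AF K P' Q' F' m') {U : Subgroup Γ} (hU : U ≤ K) {j : ℕ} {u : Γ} :
    u ∈ W h h' hU j ↔ u ∈ U ∧ St F j u ∧ St F' j u := Iff.rfl

end S5a

/-- `BlockS5a` with the hypotheses `A` abelian and `B / A` abelian. -/
def BlockS5a' : Prop :=
  ∀ (Γ : Type) [Group Γ] (K U A B : Subgroup Γ) (FA FB : ℕ → Subgroup Γ) (a b : ℕ),
    FR ⊥ A → FR A B →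
    Filt K ⊥ A FA a → Filt K A B FB b → U ≤ K → Nrm K U →
    (∀ u ∈ U, ∀ i, ∀ x ∈ FA i, ⁅u, x⁆ ∈ FA (i + 1)) →
    (∀ u ∈ U, ∀ i, ∀ x ∈ FB i, ⁅u, x⁆ ∈ FB (i + 1)) →
    ∃ (m : ℕ) (W : ℕ → Subgroup Γ), W 0 = U ∧ (∀ i, FR (W (i + 1)) (W i)) ∧ (∀ i, Nrm K (W i)) ∧
      (∀ i, ∀ u ∈ U, ∀ x ∈ W i, ⁅u, x⁆ ∈ W (i + 1)) ∧
      ∀ i ≥ m, ∀ u, u ∈ W i ↔ u ∈ U ∧ (∀ x ∈ A, ⁅u, x⁆ = 1) ∧ ∀ x ∈ B, ⁅u, x⁆ ∈ A

open S5a in
theorem blockS5a_of' (h3a : BlockS3a) (h3e : BlockS3e) : BlockS5a' := by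
  intro Γ _ K U A B FA FB a b hA hB hFA hFB hUK hNU hua hub
  have HA : AF K ⊥ A FA a := ⟨hFA, hA.comm⟩
  have HB : AF K A B FB b := ⟨hFB, hB.comm⟩
  refine ⟨max a b, W HA HB hUK, ?_, ?_, ?_, ?_, ?_⟩
  · ext u
    rw [mem_W]
    exact ⟨fun h => h.1, fun h => ⟨h, fun i x hx => hua u h i x hx, fun i x hx => hub u h i x hx⟩⟩
  · intro j
    choose rA eA hA1 hA2 using fun i => h3e Γ (FA (i + 1)) (FA i) (hFA.fr i)
    choose rB eB hB1 hB2 using fun i => h3e Γ (FB (i + 1)) (FB i) (hFB.fr i)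
    refine fr_of h3a (ι := (Σ i : Fin (max a b), Fin (rA i)) ⊕ (Σ i : Fin (max a b), Fin (rB i)))
      (Sum.elim (fun s u => ⁅u, eA s.1 s.2⁆) (fun s u => ⁅u, eB s.1 s.2⁆))
      (Sum.elim (fun s => FA (s.1 + j + 1 + 1)) (fun s => FB (s.1 + j + 1 + 1)))
      (Sum.elim (fun s => FA (s.1 + j + 1)) (fun s => FB (s.1 + j + 1))) ?_ ?_ ?_ ?_ ?_
    · intro u hu
      exact ⟨hu.1, hu.2.1.mono HA (Nat.le_succ j), hu.2.2.mono HB (Nat.le_succ j)⟩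
    · rintro (s | s)
      · exact hFA.fr _
      · exact hFB.fr _
    · rintro (s | s) u hu
      · exact hu.2.1 _ _ (hA1 s.1 s.2)
      · exact hu.2.2 _ _ (hB1 s.1 s.2)
    · rintro (s | s) u hu v hv
      · exact hu.2.1.hom HA (hUK hu.1) hv.2.1 (hA1 s.1 s.2)
      · exact hu.2.2.hom HB (hUK hu.1) hv.2.2 (hB1 s.1 s.2)
    · intro u hu
      constructor
      · rintro hu' (s | s)
        · exact HA.anti (by omega) (hu'.2.1 _ _ (hA1 s.1 s.2))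
        · exact HB.anti (by omega) (hu'.2.2 _ _ (hB1 s.1 s.2))
      · intro h
        refine ⟨hu.1, ?_, ?_⟩
        · exact hu.2.1.step HA (hUK hu.1) (le_max_left a b) rA eA hA1 hA2
            fun i hi t => h (Sum.inl ⟨⟨i, hi⟩, t⟩)
        · exact hu.2.2.step HB (hUK hu.1) (le_max_right a b) rB eB hB1 hB2
            fun i hi t => h (Sum.inr ⟨⟨i, hi⟩, t⟩)
  · intro j k hk u hu
    exact ⟨hNU k hk u hu.1, hu.2.1.conj HA hk, hu.2.2.conj HB hk⟩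
  · intro j u hu w hw
    refine ⟨?_, ?_, ?_⟩
    · rw [commutatorElement_def]
      exact U.mul_mem (U.mul_mem (U.mul_mem hu hw.1) (U.inv_mem hu)) (U.inv_mem hw.1)
    · exact St.comm HA (hUK hu) (hUK hw.1) (fun i x hx => hua u hu i x hx) hw.2.1
    · exact St.comm HB (hUK hu) (hUK hw.1) (fun i x hx => hub u hu i x hx) hw.2.2
  · intro i hi u
    rw [mem_W]
    constructor
    · rintro ⟨h1, h2, h3⟩
      refine ⟨h1, fun x hx => ?_, fun x hx => ?_⟩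
      · rw [← hFA.zero] at hx
        have := h2 0 x hx
        rw [hFA.last _ (by have := le_max_left a b; omega)] at this
        exact Subgroup.mem_bot.1 this
      · rw [← hFB.zero] at hx
        have := h3 0 x hx
        rwa [hFB.last _ (by have := le_max_right a b; omega)] at this
    · rintro ⟨h1, h2, h3⟩
      refine ⟨h1, fun l x hx => ?_, fun l x hx => ?_⟩
      · rw [h2 x (HA.le_Q _ hx)]
        exact (FA _).one_mem
      · exact HB.P_le _ (h3 x (HB.le_Q _ hx))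

end Vale.Agent.P260.LM
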