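import Mathlib

/-!
P260, last mile: statements of the blocks of the theorem on virtually solvable groups (they are virtually poly-`ℤ`)
for fundamental groups of closed aspherical 4-manifolds. Cochains are functions on lists of
elements of the ambient group `Γ`, invariant under left translations by a subgroup `S`; they
compute the cohomology of `S` with coefficients `𝔽_q`.
-/

namespace Vale.Agent.P260.LM

open scoped commutatorElement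

/-- The coboundary of a function on lists. -/
def dc {α k : Type} [AddCommGroup k] : (List α → k) → List α → k
  | _, [] => 0
  | f, a :: l => f l - dc (fun l => f (a :: l)) l

variable {Γ : Type} [Group Γ]

/-- invariant under left translations by `S` -/
def InvS {k : Type} (S : Subgroup Γ) (f : List Γ → k) : Prop :=
  ∀ s ∈ S, ∀ l : List Γ, f (l.map (s * ·)) = f l

/-- `S`-invariant cocycle of degree `n` -/
def CocS (q : ℕ) (S : Subgroup Γ) (n : ℕ) (f : List Γ → ZMod q) : Prop :=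
  InvS S f ∧ ∀ l : List Γ, l.length = n + 2 → dc f l = 0

/-- coboundary in degree `n` of an `S`-invariant function (zero if `n = 0`) -/
def ExS (q : ℕ) (S : Subgroup Γ) (n : ℕ) (f : List Γ → ZMod q) : Prop :=
  ∃ h : List Γ → ZMod q, (n = 0 → ∀ l, h l = 0) ∧ InvS S h ∧
    ∀ l : List Γ, l.length = n + 1 → f l = dc h l

/-- `H^n(S; 𝔽_q) = 0` -/
def Van (q : ℕ) (S : Subgroup Γ) (n : ℕ) : Prop := ∀ f, CocS q S n f → ExS q S n f

/-- `H^n(S; 𝔽_q) ≠ 0` -/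
def Non (q : ℕ) (S : Subgroup Γ) (n : ℕ) : Prop := ∃ f, CocS q S n f ∧ ¬ ExS q S n f

/-- `H^n(S; 𝔽_q)` is finite -/
def FinS (q : ℕ) (S : Subgroup Γ) (n : ℕ) : Prop :=
  ∃ F : Set (List Γ → ZMod q), F.Finite ∧ ∀ f, CocS q S n f →
    ∃ g ∈ F, CocS q S n g ∧ ExS q S n fun l => f l - g l

/-- left translate -/
def tr {k : Type} (g : Γ) (f : List Γ → k) : List Γ → k := fun l => f (l.map (g⁻¹ * ·))

/-- `M` acts trivially on `H^n(S; 𝔽_q)` -/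
def TrivS (q : ℕ) (M S : Subgroup Γ) (n : ℕ) : Prop :=
  ∀ g ∈ M, ∀ f, CocS q S n f → ExS q S n fun l => tr g f l - f l

/-- `N ◁ G` and `G/N` is torsion-free abelian of rank one. -/
structure RankOne (N G : Subgroup Γ) : Prop where
  le : N ≤ G
  comm : ∀ x ∈ G, ∀ y ∈ G, ⁅x, y⁆ ∈ N
  tf : ∀ x ∈ G, ∀ n : ℕ, n ≠ 0 → x ^ n ∈ N → x ∈ N
  ne : ∃ x ∈ G, x ∉ N
  one : ∀ x ∈ G, ∀ y ∈ G, ∃ a b : ℤ, (a ≠ 0 ∨ b ≠ 0) ∧ x ^ a * y ^ b ∈ N

/-- `G/N` is `p`-divisible -/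
def PDiv (p : ℕ) (N G : Subgroup Γ) : Prop := ∀ x ∈ G, ∃ y ∈ G, y ^ p * x⁻¹ ∈ N

/-- There is `a` such that some `m ^ n`-th power of every element of `G` is in `⟨a⟩N`. -/
def MG (m : ℕ) (N G : Subgroup Γ) : Prop :=
  ∃ a ∈ G, ∀ x ∈ G, ∃ (n : ℕ) (e : ℤ), x ^ (m ^ n) * a ^ e ∈ N

/-- A chain `⊥ = N 0 ≤ ... ≤ N h` with rank one quotients. -/
structure Chain (N : ℕ → Subgroup Γ) (h : ℕ) : Prop where
  bot : N 0 = ⊥
  step : ∀ i < h, RankOne (N i) (N (i + 1))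

/-- A chain ending at `K`, refining a series `N (s i)` of normal subgroups of `K` with abelian
factors. -/
structure Ser (K : Subgroup Γ) (N : ℕ → Subgroup Γ) (h : ℕ) (s : ℕ → ℕ) (t : ℕ) : Prop where
  chain : Chain N h
  top : N h = K
  s0 : s 0 = 0
  st : s t = h
  mono : Monotone s
  norm : ∀ i ≤ t, ∀ x ∈ K, ∀ y ∈ N (s i), x * y * x⁻¹ ∈ N (s i)
  comm : ∀ i < t, ∀ x ∈ N (s (i + 1)), ∀ y ∈ N (s (i + 1)), ⁅x, y⁆ ∈ N (s i)

/-- `N (s u)` is nilpotent, `K / N (s u)` is abelian. -/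
structure NilAb (K : Subgroup Γ) (N : ℕ → Subgroup Γ) (s : ℕ → ℕ) (t u : ℕ) : Prop where
  le : u ≤ t
  cent : ∀ i < u, ∀ x ∈ N (s u), ∀ y ∈ N (s (i + 1)), ⁅x, y⁆ ∈ N (s i)
  ab : ∀ x ∈ K, ∀ y ∈ K, ⁅x, y⁆ ∈ N (s u)

/-- Any `m` commuting elements satisfy a relation. -/
def RankB (Γ : Type) [Group Γ] (m : ℕ) : Prop :=
  ∀ x : Fin m → Γ, (∀ i j, Commute (x i) (x j)) →
    ∃ c : Fin m → ℤ, c ≠ 0 ∧ (List.ofFn fun i => x i ^ c i).prod = 1

/-- torsion-free -/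
def TF (Γ : Type) [Group Γ] : Prop := ∀ (g : Γ) (n : ℕ), n ≠ 0 → g ^ n = 1 → g = 1

/-- What is used of the manifold. -/
structure Geo (Γ : Type) [Group Γ] : Prop where
  fg : Group.FG Γ
  tf : TF Γ
  bd : ∃ m : ℕ, ∀ S : Subgroup Γ, ∀ n ≥ m, Van 2 S n
  five : ∀ (q : ℕ) [Fact q.Prime] (K : Subgroup Γ), K.FiniteIndex → ∀ n ≥ 5, Van q K n
  four : ∀ (q : ℕ) [Fact q.Prime], ∃ G' : Subgroup Γ, G'.FiniteIndex ∧
    ∀ K : Subgroup Γ, K.FiniteIndex → K ≤ G' → Non q K 4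

/-! ### the blocks -/

/-- Block GEO. -/
def BlockGeo : Prop :=
  ∀ {M : Type} {X : Type} {Γ : Type}
    [TopologicalSpace M] [T2Space M] [CompactSpace M] [ChartedSpace (EuclideanSpace ℝ (Fin 4)) M]
    [TopologicalSpace X] [ContractibleSpace X] [Group Γ] [MulAction Γ X]
    [ContinuousConstSMul Γ X] (p : X → M), IsQuotientCoveringMap p Γ → Geo Γ

/-- Block R1, finiteness. -/
def BlockR1 : Prop :=
  ∀ (Γ : Type) [Group Γ] (q : ℕ) [Fact q.Prime] (N G : Subgroup Γ), RankOne N G →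
    (∀ n, FinS q N n) → ∀ n, FinS q G n

/-- Block R2, vanishing. -/
def BlockR2 : Prop :=
  ∀ (Γ : Type) [Group Γ] (q : ℕ) [Fact q.Prime] (N G : Subgroup Γ), RankOne N G →
    ∀ n, Van q N n → Van q N (n + 1) → Van q G (n + 1)

/-- Block R3, vanishing in the divisible case. -/
def BlockR3 : Prop :=
  ∀ (Γ : Type) [Group Γ] (q : ℕ) [Fact q.Prime] (N G : Subgroup Γ), RankOne N G → PDiv q N G →
    ∀ n, FinS q N n → Van q N (n + 1) → Van q G (n + 1)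

/-- Block R4, the top class. -/
def BlockR4 : Prop :=
  ∀ (Γ : Type) [Group Γ] (q : ℕ) [Fact q.Prime] (N G : Subgroup Γ), RankOne N G → ¬ PDiv q N G →
    ∀ n, TrivS q G N n → Non q N n → Non q G (n + 1)

/-- Block R5, the action on the top class. -/
def BlockR5 : Prop :=
  ∀ (Γ : Type) [Group Γ] (q : ℕ) [Fact q.Prime] (N G M : Subgroup Γ), RankOne N G → G ≤ M →
    (∀ x ∈ M, ∀ y ∈ N, x * y * x⁻¹ ∈ N) → (∀ x ∈ M, ∀ y ∈ G, ⁅x, y⁆ ∈ N) →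
    ∀ n, TrivS q M N n → Van q N (n + 1) → TrivS q M G (n + 1)

/-- Block K, finite index subgroups. -/
def BlockK : Prop :=
  ∀ (Γ : Type) [Group Γ] (p : ℕ) [Fact p.Prime] (N G K : Subgroup Γ), RankOne N G →
    K.FiniteIndex → RankOne (N ⊓ K) (G ⊓ K) ∧ (PDiv p (N ⊓ K) (G ⊓ K) ↔ PDiv p N G)

open Classical in
/-- Block A, from R1, R2, R3. -/
def BlockA : Prop :=
  ∀ (Γ : Type) [Group Γ] (q : ℕ) [Fact q.Prime] (N : ℕ → Subgroup Γ) (h : ℕ), Chain N h →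
    (∀ n, FinS q (N h) n) ∧
    ∀ n > ((Finset.range h).filter fun i => ¬ PDiv q (N i) (N (i + 1))).card, Van q (N h) n

/-- Block B, from A, K, R4, R5. -/
def BlockB : Prop :=
  ∀ (Γ : Type) [Group Γ] (q : ℕ) [Fact q.Prime] (K : Subgroup Γ) (N : ℕ → Subgroup Γ) (h : ℕ)
    (s : ℕ → ℕ) (t : ℕ), K.FiniteIndex → Ser K N h s t →
    (∀ i < h, ¬ PDiv q (N i) (N (i + 1))) → ∃ K' : Subgroup Γ, K'.FiniteIndex ∧ Non q K' h

/-- Block M, ranks of abelian subgroups (from A, R4, R5). -/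
def BlockM : Prop :=
  ∀ (Γ : Type) [Group Γ], TF Γ → (∃ m : ℕ, ∀ S : Subgroup Γ, ∀ n ≥ m, Van 2 S n) → ∃ m, RankB Γ m

/-- Block S, the structure of solvable groups (Mal'cev). -/
def BlockS : Prop :=
  ∀ (Γ : Type) [Group Γ], Group.FG Γ → TF Γ → (∃ m, RankB Γ m) →
    (∃ H : Subgroup Γ, H.FiniteIndex ∧ Group.IsSolvable H) →
    ∃ (K : Subgroup Γ) (N : ℕ → Subgroup Γ) (h : ℕ) (s : ℕ → ℕ) (t u : ℕ), K.FiniteIndex ∧
      Ser K N h s t ∧ NilAb K N s t u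

/-- Block G, all the factors are `ℤ[1/m]`-bounded for one `m`. -/
def BlockG : Prop :=
  ∀ (Γ : Type) [Group Γ] (K : Subgroup Γ) (N : ℕ → Subgroup Γ) (h : ℕ) (s : ℕ → ℕ) (t u : ℕ),
    K.FG → Ser K N h s t → NilAb K N s t u → ∃ m : ℕ, m ≠ 0 ∧ ∀ i < h, MG m (N i) (N (i + 1))

/-- Block C, cyclic factors. -/
def BlockC : Prop :=
  ∀ (Γ : Type) [Group Γ] (N G : Subgroup Γ) (m : ℕ), m ≠ 0 → RankOne N G → MG m N G →
    (∀ (q : ℕ) [Fact q.Prime], ¬ q ∣ m → ¬ PDiv q N G) ∧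
    ((∀ (q : ℕ) [Fact q.Prime], ¬ PDiv q N G) → ∃ a ∈ G, ∀ x ∈ G, ∃ e : ℤ, x * a ^ e ∈ N)

/-- The group `K` is poly-`ℤ` of length `h`. -/
def PolyZ {Γ : Type} [Group Γ] (K : Subgroup Γ) (h : ℕ) : Prop :=
  ∃ N : ℕ → Subgroup Γ, N 0 = ⊥ ∧ N h = K ∧ ∀ i < h, N i ≤ N (i + 1) ∧
    ∃ _ : ((N i).subgroupOf (N (i + 1))).Normal,
      Nonempty (Multiplicative ℤ ≃* (N (i + 1) ⧸ (N i).subgroupOf (N (i + 1))))

/-- The result. -/
def Main5 : Prop :=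
  ∀ (Γ : Type) [Group Γ], Geo Γ → (∃ H : Subgroup Γ, H.FiniteIndex ∧ Group.IsSolvable H) →
    ∃ K : Subgroup Γ, K.FiniteIndex ∧ PolyZ K 4

end Vale.Agent.P260.LM
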