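import Vale.Agent.P260.LM.Rk

/-!
P260, last mile: solving `tr a w - w = v`, glueing by compactness, the descent lemma.
-/

namespace Vale.Agent.P260.LM

variable {Γ : Type} [Group Γ] {N G : Subgroup Γ}

/-! ### sums over integers -/

section T

variable {k : Type} [AddCommGroup k]

/-- `∑_{0 ≤ j < i} φ j`, for integers `i` -/
def isum (φ : ℤ → k) : ℤ → k
  | Int.ofNat n => ∑ j ∈ Finset.range n, φ j
  | Int.negSucc n => -∑ j ∈ Finset.range (n + 1), φ (-((j : ℤ) + 1))

theorem isum_succ (φ : ℤ → k) (i : ℤ) : isum φ (i + 1) = isum φ i + φ i := by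
  match i with
  | Int.ofNat n =>
    change isum φ (Int.ofNat (n + 1)) = isum φ (Int.ofNat n) + φ n
    simp only [isum]
    rw [Finset.sum_range_succ]
  | Int.negSucc 0 =>
    change isum φ (Int.ofNat 0) = isum φ (Int.negSucc 0) + φ (Int.negSucc 0)
    simp only [isum]
    simp
  | Int.negSucc (n + 1) =>
    have e : Int.negSucc (n + 1) + 1 = Int.negSucc n := by omega
    rw [e]
    simp only [isum]
    rw [Finset.sum_range_succ _ (n + 1)]
    have e1 : (-(((n + 1 : ℕ) : ℤ) + 1)) = Int.negSucc (n + 1) := by omega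
    rw [e1]
    abel

end T

/-! ### the index along `a` -/

theorem RankOne.mem_Pa_iff (h : RankOne N G) {a x : Γ} (ha : a ∈ G) :
    x ∈ Pa N a ↔ ∃ i : ℤ, x * (a ^ i)⁻¹ ∈ N := by
  constructor
  · intro hx
    -- the set on the right is a subgroup
    let S : Subgroup Γ :=
      { carrier := {x | ∃ i : ℤ, x * (a ^ i)⁻¹ ∈ N}
        one_mem' := ⟨0, by simp⟩
        mul_mem' := by
          rintro x y ⟨i, hi⟩ ⟨j, hj⟩
          refine ⟨i + j, ?_⟩
          have e : x * y * (a ^ (i + j))⁻¹ =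
              (x * (a ^ i)⁻¹) * (a ^ i * (y * (a ^ j)⁻¹) * (a ^ i)⁻¹) := by
            rw [zpow_add]
            group
          rw [e]
          exact N.mul_mem hi (h.conj (G.zpow_mem ha i) hj)
        inv_mem' := by
          rintro x ⟨i, hi⟩
          refine ⟨-i, ?_⟩
          have e : x⁻¹ * (a ^ (-i))⁻¹ = (a ^ i)⁻¹ * (x * (a ^ i)⁻¹)⁻¹ * a ^ i := by
            rw [zpow_neg]
            group
          rw [e]
          exact h.conj' (G.zpow_mem ha i) (N.inv_mem hi) }
    have hle : Pa N a ≤ S := sup_le (fun y hy => ⟨0, by simpa using hy⟩)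
      (Subgroup.zpowers_le.2 ⟨1, by simp⟩)
    exact hle hx
  · rintro ⟨i, hi⟩
    have e : x = (x * (a ^ i)⁻¹) * a ^ i := by group
    rw [e]
    exact Subgroup.mul_mem _ (le_Pa N a hi) (Subgroup.zpow_mem _ (mem_Pa_self N a) i)

theorem RankOne.zpow_mem (h : RankOne N G) {a : Γ} (ha : a ∈ G) (ha' : a ∉ N) {i : ℤ}
    (hi : a ^ i ∈ N) : i = 0 := by
  by_contra hne
  apply ha'
  refine h.tf a ha i.natAbs (Int.natAbs_ne_zero.2 hne) ?_
  rcases Int.natAbs_eq i with e | e
  · rw [e, zpow_natCast] at hi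
    exact hi
  · rw [e, zpow_neg, zpow_natCast] at hi
    exact N.inv_mem_iff.1 hi

/-- The index along `a`. -/
theorem RankOne.exists_index (h : RankOne N G) {a : Γ} (ha : a ∈ G) (ha' : a ∉ N) :
    ∃ ι : Γ → ℤ, (∀ n ∈ N, ∀ x, ι (n * x) = ι x) ∧ ∀ x, ι (a * x) = ι x + 1 := by
  classical
  let r : Γ → Γ := fun x => (Quotient.mk (QuotientGroup.rightRel (Pa N a)) x).out
  have hr : ∀ x, x * (r x)⁻¹ ∈ Pa N a := by
    intro x
    have h1 : (QuotientGroup.rightRel (Pa N a)).r (r x) x := Quotient.exact (Quotient.out_eq _)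
    exact QuotientGroup.rightRel_apply.1 h1
  have hr' : ∀ p ∈ Pa N a, ∀ x, r (p * x) = r x := by
    intro p hp x
    have h1 : (Quotient.mk (QuotientGroup.rightRel (Pa N a)) (p * x)) =
        Quotient.mk (QuotientGroup.rightRel (Pa N a)) x := by
      apply Quotient.sound
      change (QuotientGroup.rightRel (Pa N a)).r _ _
      refine QuotientGroup.rightRel_apply.2 ?_
      have e : x * (p * x)⁻¹ = p⁻¹ := by group
      rw [e]
      exact Subgroup.inv_mem _ hp
    change (Quotient.mk (QuotientGroup.rightRel (Pa N a)) (p * x)).out = _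
    rw [h1]
  have hex : ∀ x, ∃ i : ℤ, x * (r x)⁻¹ * (a ^ i)⁻¹ ∈ N := fun x => (h.mem_Pa_iff ha).1 (hr x)
  choose ι hι using hex
  have huniq : ∀ (x : Γ) (i j : ℤ), x * (a ^ i)⁻¹ ∈ N → x * (a ^ j)⁻¹ ∈ N → i = j := by
    intro x i j hi hj
    have h1 : a ^ (i - j) ∈ N := by
      have e : a ^ (i - j) = (x * (a ^ i)⁻¹)⁻¹ * (x * (a ^ j)⁻¹) := by
        rw [zpow_sub]
        group
      rw [e]
      exact N.mul_mem (N.inv_mem hi) hj
    have := h.zpow_mem ha ha' h1
    omega
  refine ⟨ι, ?_, ?_⟩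
  · intro n hn x
    refine huniq (x * (r x)⁻¹) _ _ ?_ (hι x)
    have h1 := hι (n * x)
    rw [hr' n (le_Pa N a hn) x] at h1
    have e : x * (r x)⁻¹ * (a ^ ι (n * x))⁻¹ = n⁻¹ * (n * x * (r x)⁻¹ * (a ^ ι (n * x))⁻¹) := by
      group
    rw [e]
    exact N.mul_mem (N.inv_mem hn) h1
  · intro x
    refine huniq (a * x * (r x)⁻¹) _ _ ?_ ?_
    · have h1 := hι (a * x)
      rwa [hr' a (mem_Pa_self N a) x] at h1
    · have h1 := h.conj ha (hι x)
      have e : a * x * (r x)⁻¹ * (a ^ (ι x + 1))⁻¹ =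
          a * (x * (r x)⁻¹ * (a ^ ι x)⁻¹) * a⁻¹ := by
        rw [zpow_add, zpow_one]
        group
      rw [e]
      exact h1

/-- **W1.** -/
theorem exists_tr_sub {k : Type} [AddCommGroup k] (h : RankOne N G) {a : Γ} (ha : a ∈ G)
    (ha' : a ∉ N) (v : List Γ → k) (hv : InvS N v) :
    ∃ w : List Γ → k, InvS N w ∧ ∀ l : List Γ, l ≠ [] → tr a w l - w l = v l := by
  obtain ⟨ι, h1, h2⟩ := h.exists_index ha ha'
  let i : List Γ → ℤ := fun l => ι (l.headD 1)
  have hi1 : ∀ n ∈ N, ∀ l : List Γ, l ≠ [] → i (l.map (n * ·)) = i l := by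
    rintro n hn (_ | ⟨x, l⟩) hl
    · exact absurd rfl hl
    · exact h1 n hn x
  have hi2 : ∀ l : List Γ, l ≠ [] → i (l.map (a⁻¹ * ·)) = i l - 1 := by
    rintro (_ | ⟨x, l⟩) hl
    · exact absurd rfl hl
    · have h3 := h2 (a⁻¹ * x)
      rw [mul_inv_cancel_left] at h3
      change ι (a⁻¹ * x) = ι x - 1
      omega
  refine ⟨fun l => if l = [] then 0 else
    -isum (fun j => v (l.map (a ^ (j + 1 - i l) * ·))) (i l), ?_, ?_⟩
  · intro n hn l
    by_cases hl : l = []
    · subst hl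
      rfl
    · have hl' : l.map (n * ·) ≠ [] := by simpa using hl
      simp only [if_neg hl, if_neg hl', hi1 n hn l hl]
      congr 2
      funext j
      rw [map_mul_map]
      have e : a ^ (j + 1 - i l) * n =
          (a ^ (j + 1 - i l) * n * (a ^ (j + 1 - i l))⁻¹) * a ^ (j + 1 - i l) := by group
      rw [e, ← map_mul_map]
      exact hv _ (h.conj (G.zpow_mem ha _) hn) _
  · intro l hl
    have hl' : l.map (a⁻¹ * ·) ≠ [] := by simpa using hl
    rw [tr_apply]
    simp only [if_neg hl, if_neg hl', hi2 l hl]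
    have e : (fun j : ℤ => v ((l.map (a⁻¹ * ·)).map (a ^ (j + 1 - (i l - 1)) * ·))) =
        fun j : ℤ => v (l.map (a ^ (j + 1 - i l) * ·)) := by
      funext j
      rw [map_mul_map]
      congr 2
      funext x
      congr 1
      rw [← zpow_neg_one, ← zpow_add]
      congr 1
      ring
    rw [e]
    have h3 := isum_succ (fun j : ℤ => v (l.map (a ^ (j + 1 - i l) * ·))) (i l - 1)
    rw [sub_add_cancel] at h3
    rw [h3]
    have e2 : l.map (a ^ (i l - i l) * ·) = l := by simp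
    rw [e2]
    abel

/-- **W3**, the descent lemma. -/
theorem exS_dc_of_tr {q n : ℕ} (h : RankOne N G) {a : Γ} (ha : a ∈ G) (ha' : a ∉ N)
    {Y : List Γ → ZMod q} (hY : InvS N Y) (he : ExS q N n fun l => tr a Y l - Y l) :
    ExS q (Pa N a) (n + 1) (dc Y) := by
  -- a correction of `Y`
  obtain ⟨Y', hY', hd, ht⟩ : ∃ Y' : List Γ → ZMod q, InvS N Y' ∧ (∀ l, dc Y' l = dc Y l) ∧
      ∀ l : List Γ, l.length = n + 1 → tr a Y' l = Y' l := by
    rcases n with _ | m
    · refine ⟨Y, hY, fun _ => rfl, fun l hl => ?_⟩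
      exact sub_eq_zero.1 (exS_zero.1 he l hl)
    · obtain ⟨v, hv, hve⟩ := exS_succ.1 he
      obtain ⟨v', hv', hve'⟩ := exists_tr_sub h ha ha' v hv
      refine ⟨fun l => Y l - dc v' l, hY.sub hv'.dc, fun l => ?_, fun l hl => ?_⟩
      · rw [dc_sub, dc_dc, sub_zero]
      · have h1 : dc (tr a v') l - dc v' l = dc v l := by
          rw [← dc_sub]
          refine dc_congr (n := m + 1) (fun l' hl' => hve' l' ?_) hl
          intro h0
          rw [h0] at hl'
          simp at hl'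
        have h2 := hve l hl
        rw [tr_apply]
        change Y (l.map (a⁻¹ * ·)) - dc v' (l.map (a⁻¹ * ·)) = Y l - dc v' l
        have h3 : dc v' (l.map (a⁻¹ * ·)) = dc (tr a v') l := by rw [← tr_dc, tr_apply]
        rw [h3]
        rw [tr_apply] at h2
        have h4 : Y (l.map (a⁻¹ * ·)) = Y l + dc v l := by rw [← h2]; abel
        rw [h4, ← h1]
        abel
  refine exS_succ.2 ⟨cut (n + 1) Y', invS_sup (hY'.cut _) (invS_zpowers (cut_tr_eq ht)), ?_⟩
  intro l hl
  rw [dc_cut Y' hl, hd]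

/-! ### compactness -/

section compact

variable {q : ℕ} [NeZero q]

/-- the discrete topology on `ZMod q` -/
abbrev topZ (q : ℕ) : TopologicalSpace (ZMod q) := ⊥

attribute [local instance] topZ

omit [NeZero q] in
theorem topZ_discrete : DiscreteTopology (ZMod q) := ⟨rfl⟩

attribute [local instance] topZ_discrete

omit [Group Γ] in
theorem compactSpace_fun : CompactSpace (List Γ → ZMod q) := by
  have : Finite (ZMod q) := inferInstance
  infer_instance

omit [Group Γ] [NeZero q] in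
theorem continuous_dc {X : Type} [TopologicalSpace X] : ∀ (l : List Γ) (φ : X → List Γ → ZMod q),
    (∀ l', Continuous fun x => φ x l') → Continuous fun x => dc (φ x) l
  | [], φ, hφ => by
    simp only [dc_nil]
    exact continuous_const
  | a :: l, φ, hφ => by
    simp only [dc_cons]
    exact (hφ l).sub (continuous_dc l (fun x l' => φ x (a :: l')) fun l' => hφ (a :: l'))

theorem isClosed_invS (S : Subgroup Γ) : IsClosed {f : List Γ → ZMod q | InvS S f} := by
  have e : {f : List Γ → ZMod q | InvS S f} =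
      ⋂ (s : Γ) (_ : s ∈ S) (l : List Γ), {f | f (l.map (s * ·)) = f l} := by
    ext f
    simp only [Set.mem_ofPred_eq, Set.mem_iInter]
    rfl
  rw [e]
  exact isClosed_iInter fun s => isClosed_iInter fun _ => isClosed_iInter fun l =>
    isClosed_eq (continuous_apply _) (continuous_apply _)

/-- Nested compact sets, indexed by the elements of `G` outside `N`. -/
theorem RankOne.exists_mem_iInter (h : RankOne N G) (E : Γ → Set (List Γ → ZMod q))
    (hE : ∀ a ∈ G, a ∉ N → IsClosed (E a)) (hne : ∀ a ∈ G, a ∉ N → (E a).Nonempty)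
    (hmono : ∀ a ∈ G, a ∉ N → ∀ c ∈ G, c ∉ N → Pa N a ≤ Pa N c → E c ⊆ E a) :
    ∃ f, ∀ a ∈ G, a ∉ N → f ∈ E a := by
  have : CompactSpace (List Γ → ZMod q) := compactSpace_fun
  obtain ⟨x₀, hx₀, hx₀'⟩ := h.ne
  have : Nonempty {a : Γ // a ∈ G ∧ a ∉ N} := ⟨⟨x₀, hx₀, hx₀'⟩⟩
  have h1 : (⋂ a : {a : Γ // a ∈ G ∧ a ∉ N}, E a).Nonempty := by
    refine IsCompact.nonempty_iInter_of_directed_nonempty_isCompact_isClosed _ ?_ ?_ ?_ ?_
    · rintro ⟨a, ha, ha'⟩ ⟨b, hb, hb'⟩
      obtain ⟨c, hc, hac, hbc⟩ := h.directed ha hb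
      have hc' : c ∉ N := by
        intro hcN
        apply ha'
        have h2 : Pa N c ≤ N := sup_le le_rfl (Subgroup.zpowers_le.2 hcN)
        exact h2 (hac (mem_Pa_self N a))
      exact ⟨⟨c, hc, hc'⟩, hmono a ha ha' c hc hc' hac, hmono b hb hb' c hc hc' hbc⟩
    · rintro ⟨a, ha, ha'⟩
      exact hne a ha ha'
    · rintro ⟨a, ha, ha'⟩
      exact (hE a ha ha').isCompact
    · rintro ⟨a, ha, ha'⟩
      exact hE a ha ha'
  obtain ⟨f, hf⟩ := h1
  exact ⟨f, fun a ha ha' => (Set.mem_iInter.1 hf) ⟨a, ha, ha'⟩⟩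

omit [NeZero q] in
/-- A function invariant under all the `Pa N a` is invariant under `G`. -/
theorem RankOne.invS_of (h : RankOne N G) {f : List Γ → ZMod q}
    (hf : ∀ a ∈ G, a ∉ N → InvS (Pa N a) f) : InvS G f := by
  intro g hg
  by_cases hgN : g ∈ N
  · obtain ⟨x₀, hx₀, hx₀'⟩ := h.ne
    exact hf x₀ hx₀ hx₀' g (le_Pa N x₀ hgN)
  · exact hf g hg hgN g (mem_Pa_self N g)

/-- **W2**, glueing. -/
theorem glue {n : ℕ} (h : RankOne N G) {z : List Γ → ZMod q}
    (hz : ∀ a ∈ G, a ∉ N → ExS q (Pa N a) n z) : ExS q G n z := by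
  rcases n with _ | m
  · obtain ⟨x₀, hx₀, hx₀'⟩ := h.ne
    exact exS_zero.2 (exS_zero.1 (hz x₀ hx₀ hx₀'))
  · let E : Γ → Set (List Γ → ZMod q) := fun a =>
      {f | InvS (Pa N a) f ∧ ∀ l : List Γ, l.length = m + 2 → z l = dc f l}
    have hcl : ∀ a ∈ G, a ∉ N → IsClosed (E a) := by
      intro a _ _
      have e : {f : List Γ → ZMod q | ∀ l : List Γ, l.length = m + 2 → z l = dc f l} =
          ⋂ (l : List Γ) (_ : l.length = m + 2), {f | z l = dc f l} := by
        ext f
        simp only [Set.mem_ofPred_eq, Set.mem_iInter]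
      have h2 : IsClosed {f : List Γ → ZMod q | ∀ l : List Γ, l.length = m + 2 → z l = dc f l} := by
        rw [e]
        exact isClosed_iInter fun l => isClosed_iInter fun _ =>
          isClosed_eq continuous_const (continuous_dc l (fun f => f) fun l' => continuous_apply l')
      exact (isClosed_invS _).inter h2
    obtain ⟨f, hf⟩ := h.exists_mem_iInter E hcl (fun a ha ha' => exS_succ.1 (hz a ha ha'))
      (fun a _ _ c _ _ hac f hf => ⟨hf.1.mono hac, hf.2⟩)
    obtain ⟨x₀, hx₀, hx₀'⟩ := h.ne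
    exact exS_succ.2 ⟨f, h.invS_of fun a ha ha' => (hf a ha ha').1, (hf x₀ hx₀ hx₀').2⟩

end compact

end Vale.Agent.P260.LM
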